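import Claimed.Open.R035.SanityEquations

/-!
# Sanity check: `(ℙ¹)³` is projective, and `K + B` is semiample

For every `CubeAtlas A`:

* `A.Hdiv = ∑ᵢ {xᵢ = ∞}` is an ample Cartier divisor: the eight monomials
  `s_ε = ∏_{ε i = false} xᵢ` are sections of `𝒪(H)`, and the non-vanishing locus of `s_ε` is the
  affine chart `U ε`;
* hence `A.π` is projective in the sense of `IsProjective`;
* `K + B = {x₀ = 1}` is semiample (the conclusion of `LogAbundance` holds in the example).
-/

set_option autoImplicit false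

open AlgebraicGeometry CategoryTheory Order

universe u

namespace Claimed.Open.R035

namespace CubeAtlas

variable {k : Type u} [Field k] (A : CubeAtlas k)

noncomputable section

/-- The monomial section `∏_{ε i = false} xᵢ` of `𝒪(H)`. -/
def sec (ε : Fin 3 → Bool) : A.X.functionField := ∏ i, if ε i then 1 else A.x i

variable {A}

theorem sec_ne_zero (ε : Fin 3 → Bool) : A.sec ε ≠ 0 := by
  unfold sec
  refine Finset.prod_ne_zero_iff.mpr fun i _ => ?_
  split_ifs
  · exact one_ne_zero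
  · exact A.x_ne_zero i

/-- the contribution of the coordinate `i` to `div (s_ε) + H` -/
def term (A : CubeAtlas k) (ε : Fin 3 → Bool) (z : A.X) (i : Fin 3) : ℤ :=
  (if ε i then 0 else Scheme.ord (A.x i) z) + max (- Scheme.ord (A.x i) z) 0

theorem ord_sec_add_Hdiv (ε : Fin 3 → Bool) (z : A.X) :
    Scheme.ord (A.sec ε) z + A.Hdiv z = ∑ i, A.term ε z i := by
  unfold sec Hdiv term
  rw [ord_prod, ← Finset.sum_add_distrib]
  · refine Finset.sum_congr rfl fun i _ => ?_
    split_ifs
    · rw [ord_one]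
    · rfl
  · intro i _
    split_ifs
    · exact one_ne_zero
    · exact A.x_ne_zero i

theorem term_nonneg (ε : Fin 3 → Bool) (z : A.X) (i : Fin 3) : 0 ≤ A.term ε z i := by
  unfold term
  split_ifs
  · simp
  · rcases le_total (- Scheme.ord (A.x i) z) 0 with h | h
    · rw [max_eq_right h]; omega
    · rw [max_eq_left h]; omega

/-- The contribution vanishes iff the chart coordinate `u ε i` has no pole along `z`. -/
theorem term_eq_zero_iff (ε : Fin 3 → Bool) (z : A.X) (i : Fin 3) :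
    A.term ε z i = 0 ↔ 0 ≤ Scheme.ord (A.u ε i) z := by
  unfold term u
  split_ifs
  · rcases le_total (- Scheme.ord (A.x i) z) 0 with h | h
    · rw [max_eq_right h]; omega
    · rw [max_eq_left h]; omega
  · rw [ord_inv z (A.x_ne_zero i)]
    rcases le_total (- Scheme.ord (A.x i) z) 0 with h | h
    · rw [max_eq_right h]; omega
    · rw [max_eq_left h]; omega

theorem isSection_sec (ε : Fin 3 → Bool) : IsSection A.Hdiv (A.sec ε) := by
  intro _ z _
  rw [ord_sec_add_Hdiv]
  exact Finset.sum_nonneg fun i _ => term_nonneg ε z i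

/-- If the chart coordinate `u ε i` is not regular at `y`, then it has a pole along a prime divisor
through `y`. -/
theorem exists_ord_u_neg {ε : Fin 3 → Bool} {y : A.X} {i : Fin 3}
    (h : A.u ε i ∉ stalkSubring y) :
    ∃ z : A.X, coheight z = 1 ∧ z ⤳ y ∧ Scheme.ord (A.u ε i) z < 0 := by
  obtain ⟨δ, hδ⟩ := A.cover y
  have hne : ε i ≠ δ i := by
    intro heq
    apply h
    rw [← A.u_eq_of_eq heq]
    exact A.u_mem δ hδ i
  obtain ⟨𝔭, rfl⟩ := exists_pt hδ
  have hX0 : (MvPolynomial.X i : MvPolynomial (Fin 3) k) ≠ 0 := MvPolynomial.X_ne_zero i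
  have hmem : (MvPolynomial.X i : MvPolynomial (Fin 3) k) ∈ 𝔭.asIdeal := by
    by_contra hcon
    apply h
    have := (inv_ι_mem_stalkSubring_iff (A := A) (ε := δ) hX0).mpr hcon
    rwa [A.ι_X, A.u_inv_of_ne hne] at this
  have hprime : (Ideal.span {(MvPolynomial.X i : MvPolynomial (Fin 3) k)}).IsPrime :=
    (Ideal.span_singleton_prime hX0).mpr (prime_X' i)
  let 𝔮 : PrimeSpectrum (MvPolynomial (Fin 3) k) := ⟨_, hprime⟩
  have hht : 𝔮.asIdeal.height = 1 :=
    Ideal.height_span_singleton_eq_one_of_mem_nonZeroDivisors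
      (mem_nonZeroDivisors_of_ne_zero hX0) (prime_X' i).not_isUnit
  refine ⟨A.pt δ 𝔮, coheight_pt.trans hht, pt_specializes_iff.mpr ?_, ?_⟩
  · exact (Ideal.span_singleton_le_iff_mem _).mpr hmem
  · have h1 := ord_ι_pos (A := A) (ε := δ) hX0 hht (Ideal.mem_span_singleton_self _)
    rw [A.ι_X] at h1
    rw [← A.u_inv_of_ne hne, ord_inv _ (A.u_ne_zero δ i)]
    omega

/-- **The non-vanishing locus of the section `s_ε` is the chart `U ε`.** -/
theorem mem_U_iff_isNonvanishingAt (ε : Fin 3 → Bool) (y : A.X) :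
    y ∈ A.U ε ↔ IsNonvanishingAt A.Hdiv (A.sec ε) y := by
  constructor
  · intro hy
    refine ⟨sec_ne_zero ε, fun z _ hz => ?_⟩
    rw [ord_sec_add_Hdiv]
    refine Finset.sum_eq_zero fun i _ => ?_
    rw [term_eq_zero_iff]
    exact ord_nonneg_of_mem (A.u_mem ε (mem_of_specializes hz hy) i)
  · rintro ⟨-, h⟩
    rw [A.mem_U_iff]
    intro i
    by_contra hcon
    obtain ⟨z, hz1, hzy, hneg⟩ := exists_ord_u_neg hcon
    have h0 := h z hz1 hzy
    rw [ord_sec_add_Hdiv, Finset.sum_eq_zero_iff_of_nonneg fun i _ => term_nonneg ε z i] at h0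
    have := (term_eq_zero_iff ε z i).mp (h0 i (Finset.mem_univ i))
    omega

/-- **`H = ∑ᵢ {xᵢ = ∞}` is ample.** -/
theorem isAmpleDivisor_Hdiv : IsAmpleDivisor A.Hdiv := by
  refine ⟨isCartierDivisor_Hdiv, inferInstance, fun x => ?_⟩
  obtain ⟨ε, hε⟩ := A.cover x
  refine ⟨1, A.sec ε, A.U ε, one_pos, ?_, A.isAffineOpen ε, hε, fun y => ?_⟩
  · rw [one_smul]
    exact isSection_sec ε
  · rw [one_smul]
    exact mem_U_iff_isNonvanishingAt ε y

/-- **`(ℙ¹)³` is projective over `k`.** -/
theorem isProjective (A : CubeAtlas k) : IsProjective A.π :=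
  ⟨A.isProper, A.Hdiv, isAmpleDivisor_Hdiv⟩

/-! ### `K + B = {x₀ = 1}` is semiample -/

theorem isSection_one_Sdiv : IsSection A.Sdiv (1 : A.X.functionField) := by
  intro _ z _
  rw [ord_one, zero_add]
  exact le_max_right _ _

theorem isSection_inv_Sdiv : IsSection A.Sdiv (A.x 0 - 1)⁻¹ := by
  intro _ z _
  rw [ord_inv z A.x_sub_one_ne_zero, Sdiv]
  have := le_max_left (Scheme.ord (A.x 0 - 1) z) 0
  omega

theorem isGloballyGenerated_Sdiv : IsGloballyGenerated A.Sdiv := by
  intro p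
  have hloc := A.isLocalEquation_eqS p
  by_cases h : A.x 0 ∈ stalkSubring p
  · refine ⟨(A.x 0 - 1)⁻¹, isSection_inv_Sdiv, inv_ne_zero A.x_sub_one_ne_zero, fun z hz hzp => ?_⟩
    rw [← hloc.2 z hz hzp, A.eqS_of_mem h, ord_inv z A.x_sub_one_ne_zero]
    omega
  · refine ⟨1, isSection_one_Sdiv, one_ne_zero, fun z hz hzp => ?_⟩
    rw [← hloc.2 z hz hzp, A.eqS_of_notMem h, ord_one]
    rfl

/-- **The conclusion of `LogAbundance` holds in the example:** `K + B` is semiample. -/
theorem isSemiample (A : CubeAtlas k) : IsSemiample (fun z => (A.Kdiv z : ℚ) + A.Bdiv z) :=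
  ⟨1, A.Sdiv, A.isMultiple_Sdiv, A.isCartierDivisor_Sdiv, isGloballyGenerated_Sdiv⟩

end

end CubeAtlas

end Claimed.Open.R035
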