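import Claimed.Open.R035.SanityLength

/-!
# Sanity checks for `IsIntersectionNumber`: effective families of local equations

Let `φ` be a family of local equations of a Cartier divisor `D` such that for every specialization
`v ⤳ w` the ratio `φ w / φ v` is regular at `w` and a unit at `v` (`IsGoodFamily`).  Then all the
multiplicities `μ w` in the definition of `IsIntersectionNumber (D :: l) v` are natural numbers, and
`μ w = 0` if and only if the ratio is a unit at `w`.  This gives existence, non-negativity, positivity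
and vanishing criteria for intersection numbers, and a criterion for `IsNef`.
-/

set_option autoImplicit false

open AlgebraicGeometry CategoryTheory Order

universe u

namespace Claimed.Open.R035

section OrdAlong

variable {F : Type u} [Field F] {A : Subring F}

/-- An element of `A` of order `0` is a unit of `A`. -/
theorem IsOrdAlong.isUnit_of_eq_zero {g : A} (h : IsOrdAlong A (g : F) 0) : IsUnit g := by
  obtain ⟨a, b, la, lb, ha, hb, hg, hla, hlb, hn⟩ := h
  have hab : g * b = a := Subtype.ext hg
  have hl : la = lb := by omega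
  have hmul : Ring.ord A (g * b) = Ring.ord A g + Ring.ord A b :=
    Ring.ord_mul A (mem_nonZeroDivisors_of_ne_zero hb)
  rw [hab, hla, hlb, hl] at hmul
  have h0 : Ring.ord A g = 0 := by
    have h1 : (0 : ℕ∞) + lb = Ring.ord A g + lb := by rw [zero_add]; exact hmul
    exact (ENat.add_left_injective_of_ne_top (ENat.natCast_ne_top lb) h1).symm
  unfold Ring.ord at h0
  rw [Module.length_eq_zero_iff] at h0
  have htop : Ideal.span {g} = ⊤ := Ideal.Quotient.subsingleton_iff.mp h0
  exact Ideal.span_singleton_eq_top.mp htop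

end OrdAlong

variable {X : Scheme.{u}}

/-- If the restriction of `a ∈ 𝒪_{X,w}` to `V` is a unit of `𝒪_{V,w}`, then `a` is a unit. -/
theorem isUnit_of_isUnit_restrictionHom' {v w : X} (h : v ⤳ w) (a : X.presheaf.stalk w)
    (ha : IsUnit (restrictionHom' h a)) : IsUnit a := by
  by_contra hna
  have hmem : a ∈ IsLocalRing.maximalIdeal (X.presheaf.stalk w) :=
    (IsLocalRing.mem_maximalIdeal a).mpr hna
  have hker : RingHom.ker (restrictionHom' h) ≤ IsLocalRing.maximalIdeal (X.presheaf.stalk w) :=
    IsLocalRing.le_maximalIdeal (RingHom.ker_ne_top _)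
  obtain ⟨b, hb⟩ := ha.exists_right_inv
  obtain ⟨b', rfl⟩ := restrictionHom'_surjective h b
  have h1 : a * b' - 1 ∈ RingHom.ker (restrictionHom' h) := by
    rw [RingHom.mem_ker, map_sub, map_mul, hb, map_one, sub_self]
  have h2 : (1 : X.presheaf.stalk w) ∈ IsLocalRing.maximalIdeal (X.presheaf.stalk w) := by
    have h3 := Ideal.sub_mem _ (Ideal.mul_mem_right b' _ hmem) (hker h1)
    simp at h3
  exact (Ideal.ne_top_iff_one _).mp (IsLocalRing.maximalIdeal.isMaximal _).ne_top h2

variable [IsIntegral X] [IsLocallyNoetherian X]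

/-- A family of local equations of `D` whose ratios `φ w / φ v`, for `v ⤳ w`, are regular at `w` and
units at `v`, and non-units only at finitely many prime divisors `w` of the closure of `v`. -/
structure IsGoodFamily (D : X → ℤ) (φ : X → X.functionField) : Prop where
  localEq : ∀ x, IsLocalEquation D x (φ x)
  regular : ∀ {v w : X}, v ⤳ w → φ w / φ v ∈ stalkSubring w
  unit : ∀ {v w : X}, v ⤳ w → φ v / φ w ∈ stalkSubring v
  finite : ∀ v, {w | w ⋖ v ∧ φ v / φ w ∉ stalkSubring w}.Finite

omit [IsIntegral X] [IsLocallyNoetherian X] in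
theorem specializes_of_covBy {v w : X} (h : w ⋖ v) : v ⤳ w := h.le

namespace IsGoodFamily

variable {D : X → ℤ} {φ : X → X.functionField}

/-- The multiplicities of a good family are natural numbers, and vanish exactly where the ratio is a
unit. -/
theorem exists_restrictionOrder (hφ : IsGoodFamily D φ) {v w : X} (hwv : w ⋖ v) :
    ∃ n : ℤ, 0 ≤ n ∧ IsRestrictionOrder (φ v) (φ w) v w n ∧
      (n = 0 ↔ φ v / φ w ∈ stalkSubring w) := by
  have h : v ⤳ w := specializes_of_covBy hwv
  have hv0 : φ v ≠ 0 := (hφ.localEq v).1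
  have hw0 : φ w ≠ 0 := (hφ.localEq w).1
  obtain ⟨a, ha⟩ := hφ.regular h
  obtain ⟨b, hb⟩ := hφ.unit h
  have hinjv : Function.Injective (algebraMap (X.presheaf.stalk v) X.functionField) :=
    IsFractionRing.injective _ _
  have hinjw : Function.Injective (algebraMap (X.presheaf.stalk w) X.functionField) :=
    IsFractionRing.injective _ _
  have hcomp : algebraMap (X.presheaf.stalk v) X.functionField
      ((X.presheaf.stalkSpecializes h).hom a) = algebraMap (X.presheaf.stalk w) X.functionField a := by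
    have hcomp := X.presheaf.stalkSpecializes_comp
      ((genericPoint_spec X).specializes (Set.mem_univ v)) h
    exact congrArg (fun f => f.hom a) hcomp
  have hunit : IsUnit ((X.presheaf.stalkSpecializes h).hom a) := by
    refine IsUnit.of_mul_eq_one b (hinjv ?_)
    rw [map_mul, hcomp, map_one]
    rw [ha, hb]
    field_simp
  have hne : restrictionHom h a ≠ 0 := by
    have : IsUnit ((X.residue v).hom ((X.presheaf.stalkSpecializes h).hom a)) := hunit.map _
    exact this.ne_zero
  obtain ⟨n, hn⟩ := exists_isOrdAlong_restriction h hwv a hne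
  refine ⟨n, Int.natCast_nonneg n, isRestrictionOrder_of_stalk h a ha hn, ?_, ?_⟩
  · intro h0
    rw [h0] at hn
    have hu : IsUnit a :=
      isUnit_of_isUnit_restrictionHom' h a (IsOrdAlong.isUnit_of_eq_zero (g := restrictionHom' h a) hn)
    obtain ⟨c, hc⟩ := hu.exists_right_inv
    refine ⟨c, ?_⟩
    have h1 : algebraMap (X.presheaf.stalk w) X.functionField a *
        algebraMap (X.presheaf.stalk w) X.functionField c = 1 := by
      rw [← map_mul, hc, map_one]
    change algebraMap _ _ c = _
    change algebraMap _ _ a = _ at ha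
    rw [ha] at h1
    field_simp at h1 ⊢
    linear_combination h1
  · rintro ⟨c, hc⟩
    have hu : IsUnit a := by
      refine IsUnit.of_mul_eq_one c (hinjw ?_)
      rw [map_mul, map_one]
      rw [ha, hc]
      field_simp
    exact hn.unique (isOrdAlong_restriction_of_isUnit h a hu)

/-- Existence and non-negativity of `(D · l · V)`. -/
theorem exists_intersectionNumber_cons (hφ : IsGoodFamily D φ) (l : List (X → ℤ)) (v : X)
    (hl : ∀ w, w ⋖ v → ∃ n : ℤ, 0 ≤ n ∧ IsIntersectionNumber l w n) :
    ∃ n : ℤ, 0 ≤ n ∧ IsIntersectionNumber (D :: l) v n := by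
  choose! μ hμ using fun w (hw : w ⋖ v) => hφ.exists_restrictionOrder hw
  choose! N hN using hl
  refine ⟨∑ᶠ (w : X) (_ : w ⋖ v), μ w * N w, ?_, φ, μ, N, hφ.localEq, fun w hw => (hμ w hw).2.1,
    fun w hw _ => (hN w hw).2, rfl⟩
  exact finsum_nonneg fun w => finsum_nonneg fun hw => mul_nonneg (hμ w hw).1 (hN w hw).1

/-- Positivity of `(D · l · V)`. -/
theorem exists_pos_intersectionNumber_cons (hφ : IsGoodFamily D φ) (l : List (X → ℤ)) (v : X)
    (hl : ∀ w, w ⋖ v → ∃ n : ℤ, 0 ≤ n ∧ IsIntersectionNumber l w n)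
    (w₀ : X) (hw₀ : w₀ ⋖ v) (hnu : φ v / φ w₀ ∉ stalkSubring w₀)
    (hpos : ∃ n : ℤ, 0 < n ∧ IsIntersectionNumber l w₀ n) :
    ∃ n : ℤ, 0 < n ∧ IsIntersectionNumber (D :: l) v n := by
  classical
  choose! μ hμ using fun w (hw : w ⋖ v) => hφ.exists_restrictionOrder hw
  choose! N₁ hN₁ using hl
  obtain ⟨n₀, hn₀, hn₀'⟩ := hpos
  let N : X → ℤ := fun w => if w = w₀ then n₀ else N₁ w
  have hN : ∀ w, w ⋖ v → 0 ≤ N w ∧ IsIntersectionNumber l w (N w) := by
    intro w hw
    by_cases hww : w = w₀
    · subst hww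
      simp only [N, if_true]
      exact ⟨hn₀.le, hn₀'⟩
    · simp only [N, if_neg hww]
      exact hN₁ w hw
  refine ⟨∑ᶠ (w : X) (_ : w ⋖ v), μ w * N w, ?_, φ, μ, N, hφ.localEq, fun w hw => (hμ w hw).2.1,
    fun w hw _ => (hN w hw).2, rfl⟩
  refine finsum_cond_pos (fun w hw => mul_nonneg (hμ w hw).1 (hN w hw).1) ⟨w₀, hw₀, ?_⟩ ?_
  · have h1 : μ w₀ ≠ 0 := fun h0 => hnu ((hμ w₀ hw₀).2.2.mp h0)
    have h2 : 0 < μ w₀ := lt_of_le_of_ne (hμ w₀ hw₀).1 (Ne.symm h1)
    have h3 : N w₀ = n₀ := by simp [N]
    rw [h3]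
    exact mul_pos h2 hn₀
  · refine (hφ.finite v).subset ?_
    rintro w ⟨hw1, hw2⟩
    refine ⟨hw2, fun hmem => hw1 ?_⟩
    have : μ w = 0 := (hμ w hw2).2.2.mpr hmem
    simp [this]

/-- Vanishing of `(D · l · V)`. -/
theorem intersectionNumber_cons_zero (hφ : IsGoodFamily D φ) (l : List (X → ℤ)) (v : X)
    (hl : ∀ w, w ⋖ v → φ v / φ w ∈ stalkSubring w ∨ IsIntersectionNumber l w 0) :
    IsIntersectionNumber (D :: l) v 0 := by
  choose! μ hμ using fun w (hw : w ⋖ v) => hφ.exists_restrictionOrder hw
  refine ⟨φ, μ, fun _ => 0, hφ.localEq, fun w hw => (hμ w hw).2.1, ?_, ?_⟩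
  · intro w hw hne
    rcases hl w hw with h | h
    · exact absurd ((hμ w hw).2.2.mpr h) hne
    · exact h
  · simp

end IsGoodFamily

omit [IsIntegral X] [IsLocallyNoetherian X] in
/-- A point without proper specializations is closed. -/
theorem isClosed_singleton_of_isMin {w : X} (hw : IsMin w) : IsClosed ({w} : Set X) := by
  rw [← closure_subset_iff_isClosed]
  intro y hy
  have h1 : w ⤳ y := specializes_iff_mem_closure.mpr hy
  have h2 : y ≤ w := h1
  have h3 : y ⤳ w := hw h2
  exact (h3.antisymm h1).eq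

theorem isIntersectionNumber_nil_of_isMin {w : X} (hw : IsMin w) :
    IsIntersectionNumber [] w 1 :=
  ⟨isClosed_singleton_of_isMin hw, rfl⟩

omit [IsIntegral X] [IsLocallyNoetherian X] in
/-- The prime divisors of an integral curve are closed points. -/
theorem isMin_of_covBy_of_height_eq_one {c w : X} (hc : height c = 1) (hw : w ⋖ c) : IsMin w := by
  rw [← height_eq_zero]
  have h1 : height w + 1 ≤ height c := height_add_one_le hw.lt
  rw [hc] at h1
  have h2 : height w + 1 ≤ 0 + 1 := by simpa using h1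
  have h3 : height w ≤ 0 := (ENat.add_le_add_iff_right ENat.one_ne_top).mp h2
  exact le_antisymm h3 bot_le

/-- A Cartier divisor with a good family of local equations is nef. -/
theorem isNef_of_isGoodFamily {D : X → ℤ} {φ : X → X.functionField} (hφ : IsGoodFamily D φ)
    (hD : IsCartierDivisor D) {m : ℕ} {L : X → ℚ} (hL : IsMultiple m L D) : IsNef L := by
  refine ⟨m, D, hL, hD, fun c hc => ?_⟩
  obtain ⟨n, hn, h⟩ := hφ.exists_intersectionNumber_cons [] c fun w hw =>
    ⟨1, zero_le_one, isIntersectionNumber_nil_of_isMin (isMin_of_covBy_of_height_eq_one hc hw)⟩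
  exact ⟨n, h, hn⟩

end Claimed.Open.R035
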