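import Claimed.Open.R035.SanityFiniteSum
import Claimed.Open.R035.SanityGood

/-!
# Sanity check: semiample implies nef

The conclusion of `LogAbundance` (and the third conclusion of `TerminalAbundance`) is
`IsSemiample L`, one of the hypotheses is `IsNef L`.  Classically semiample divisors are nef, so
nefness is a *necessary* hypothesis of both theorems.  Here this is a theorem about the definitions
of `Statement.lean`, for **every** normal integral quasi-compact locally Noetherian scheme `X`, i.e.
for every `X` of `Statement.lean`:

* `SemiampleNef.isGoodFamily_of_isGloballyGenerated` : if `𝒪_X(D)` is generated by global sections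
  and `s x` is a section that does not vanish at `x`, then the local equations `φ x = (s x)⁻¹` of `D`
  form a good family in the sense of `SanityGood.lean`: `φ w / φ v = s v / s w` is regular at `w`
  (Hartogs at a point, `IsNormalScheme.mem_stalkSubring_of_ord_nonneg`);
* `SemiampleNef.isNef_of_isSemiample` : `IsSemiample L → IsNef L`;
* `SemiampleNef.not_isSemiample_of_not_isNef` : the contrapositive: without the hypothesis `IsNef` the
  conclusion of the two theorems fails.
-/

set_option autoImplicit false

open AlgebraicGeometry CategoryTheory Order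

universe u

namespace Claimed.Open.R035

namespace SemiampleNef

variable {X : Scheme.{u}} [IsIntegral X] [IsLocallyNoetherian X]

/-- The inverse of a section of `𝒪_X(D)` that does not vanish at `x` is a local equation of `D`
at `x`. -/
theorem isLocalEquation_inv {D : X → ℤ} {s : X.functionField} {x : X}
    (h : IsNonvanishingAt D s x) : IsLocalEquation D x s⁻¹ := by
  refine ⟨inv_ne_zero h.1, fun z hz hzx => ?_⟩
  have h0 := h.2 z hz hzx
  rw [ord_inv z h.1]
  omega

/-- The quotient of a section of `𝒪_X(D)` by a section that does not vanish at `y` is regular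
at `y`. -/
theorem div_mem_stalkSubring (hX : IsNormalScheme X) {D : X → ℤ} {s t : X.functionField} {y : X}
    (hs : IsSection D s) (hs0 : s ≠ 0) (ht : IsNonvanishingAt D t y) : s / t ∈ stalkSubring y := by
  refine hX.mem_stalkSubring_of_ord_nonneg fun z hz hzy => ?_
  have h1 := hs hs0 z hz
  have h2 := ht.2 z hz hzy
  rw [div_eq_mul_inv, Scheme.ord_mul hs0 (inv_ne_zero ht.1), ord_inv z ht.1]
  omega

/-- The local equations given by non-vanishing sections form a good family. -/
theorem isGoodFamily_of_isGloballyGenerated [CompactSpace X] (hX : IsNormalScheme X) {D : X → ℤ}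
    (hD : IsWeilDivisor D) {s : X → X.functionField} (hs : ∀ x, IsSection D (s x))
    (hs' : ∀ x, IsNonvanishingAt D (s x) x) : IsGoodFamily D (fun x => (s x)⁻¹) := by
  have hloc : ∀ x, IsLocalEquation D x (s x)⁻¹ := fun x => isLocalEquation_inv (hs' x)
  have key : ∀ v w : X, (s w)⁻¹ / (s v)⁻¹ ∈ stalkSubring w := by
    intro v w
    have e : (s w)⁻¹ / (s v)⁻¹ = s v / s w := by
      rw [inv_div_inv]
    rw [e]
    exact div_mem_stalkSubring hX (hs v) (hs' v).1 (hs' w)
  refine ⟨hloc, fun {v w} _ => key v w, fun {v w} _ => key w v, fun v => ?_⟩
  refine (hX.finite_covBy_nonunit hD hloc v).subset ?_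
  rintro w ⟨hwv, hw⟩
  exact ⟨hwv, fun h => hw h.2⟩

/-- **Semiample implies nef.** -/
theorem isNef_of_isSemiample [CompactSpace X] (hX : IsNormalScheme X) {L : X → ℚ}
    (h : IsSemiample L) : IsNef L := by
  obtain ⟨m, D, hm, hD, hg⟩ := h
  choose s hs hs' using hg
  exact isNef_of_isGoodFamily (isGoodFamily_of_isGloballyGenerated hX hD.1 hs hs') hD hm

/-- Without nefness the conclusion of `LogAbundance` and `TerminalAbundance` fails. -/
theorem not_isSemiample_of_not_isNef [CompactSpace X] (hX : IsNormalScheme X) {L : X → ℚ}
    (h : ¬ IsNef L) : ¬ IsSemiample L :=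
  fun hs => h (isNef_of_isSemiample hX hs)

end SemiampleNef

end Claimed.Open.R035
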