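import Claimed.Open.R035.SanityMultiples
import Claimed.Open.R035.SanitySemiampleNef

/-!
# Sanity check: ample implies semiample implies nef

The three positivity notions of `Statement.lean` are ordered as in the textbooks:

* `AmpleSemiample.isSemiample_of_isAmpleDivisor` : for **every** integral locally Noetherian scheme
  `X`, an ample Cartier divisor `H` (`IsAmpleDivisor`, Stacks 01PS) is semiample: finitely many of the
  affine open sets `X_s`, `s ∈ H⁰(n_s H)`, cover the quasi-compact `X`; for the product `M` of these
  `n_s`, the powers `s ^ (M / n_s) ∈ H⁰(M H)` have no common zero;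
* `AmpleSemiample.isNef_of_isAmpleDivisor` : hence, on every normal `X` (every `X` of
  `Statement.lean`), an ample Cartier divisor is nef (`SemiampleNef.isNef_of_isSemiample`).
-/

set_option autoImplicit false

open AlgebraicGeometry CategoryTheory Order

universe u

namespace Claimed.Open.R035

namespace AmpleSemiample

variable {X : Scheme.{u}} [IsIntegral X] [IsLocallyNoetherian X]

/-- Some positive multiple of an ample Cartier divisor is generated by its global sections. -/
theorem exists_isGloballyGenerated {H : X → ℤ} (hH : IsAmpleDivisor H) :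
    ∃ M : ℕ, 0 < M ∧ IsGloballyGenerated (M • H) := by
  classical
  obtain ⟨-, hc, h⟩ := hH
  choose n s U hn hs _ hx hy using h
  obtain ⟨t, ht⟩ := isCompact_univ.elim_finite_subcover (fun x => (U x : Set X))
    (fun x => (U x).isOpen) (fun x _ => Set.mem_iUnion.mpr ⟨x, hx x⟩)
  refine ⟨∏ x ∈ t, n x, Finset.prod_pos fun x _ => hn x, fun y => ?_⟩
  obtain ⟨x, hxt, hyx⟩ : ∃ x ∈ t, y ∈ U x := by
    have := ht (Set.mem_univ y)
    simpa using this
  have e : (∏ x ∈ t, n x) • H = (∏ x ∈ t.erase x, n x) • (n x • H) := by
    rw [smul_smul, mul_comm, Finset.mul_prod_erase t n hxt]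
  rw [e]
  exact ⟨s x ^ (∏ x ∈ t.erase x, n x), IitakaCartier.isSection_pow (hs x) _,
    Multiples.isNonvanishingAt_pow ((hy x y).mp hyx) _⟩

/-- **Ample implies semiample.** -/
theorem isSemiample_of_isAmpleDivisor {H : X → ℤ} (hH : IsAmpleDivisor H) :
    IsSemiample (fun z => (H z : ℚ)) := by
  obtain ⟨M, hM, hg⟩ := exists_isGloballyGenerated hH
  refine ⟨M, M • H, ⟨hM, fun z => ?_⟩, IitakaCartier.isCartierDivisor_nsmul hH.1 M, hg⟩
  simp

/-- **Ample implies nef** (on a normal scheme). -/
theorem isNef_of_isAmpleDivisor (hX : IsNormalScheme X) {H : X → ℤ} (hH : IsAmpleDivisor H) :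
    IsNef (fun z => (H z : ℚ)) :=
  haveI := hH.2.1
  SemiampleNef.isNef_of_isSemiample hX (isSemiample_of_isAmpleDivisor hH)

end AmpleSemiample

end Claimed.Open.R035
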