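import Claimed.Open.R035.SanityAtlas

/-!
# Sanity check: construction of `ℙ¹ × ℙ¹ × ℙ¹` with its eight charts

For every field `k` we construct a `CubeAtlas k`.  The scheme is the projective toric variety of the
unit cube: `X = Proj k[M]`, where `M ⊆ ℕ × ℕ³` is the monoid of the lattice points `(d, a)` with
`a i ≤ d` (the cone over the cube), graded by `d`.  It is proper over `k` by Mathlib's theorem on
`Proj`.  The chart `U ε` is the basic set `D₊(χ^v)` of a vertex `v` of the cube, and its coordinate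
ring, the degree zero part of `k[M][1/χ^v]`, is identified with `k[X₀, X₁, X₂]`.
-/

set_option autoImplicit false

open AlgebraicGeometry CategoryTheory Order

universe u

namespace Claimed.Open.R035

section ProjLemmas

open HomogeneousLocalization

variable {σ : Type*} {A : Type u}
variable [CommRing A] [SetLike σ A] [AddSubgroupClass σ A]
variable (𝒜 : ℕ → σ)
variable [GradedRing 𝒜]

lemma proj_awayι_eq (f : A) {m : ℕ} (f_deg : f ∈ 𝒜 m) (hm : 0 < m) :
    Proj.awayι 𝒜 f f_deg hm = Spec.map (Proj.basicOpenIsoAway 𝒜 f f_deg hm).inv ≫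
      (Proj.isAffineOpen_basicOpen 𝒜 f f_deg hm).fromSpec := by
  rw [Proj.awayι, Iso.inv_comp_eq, Proj.basicOpenIsoSpec_hom, Proj.basicOpenToSpec, Category.assoc,
    ← Spec.map_comp_assoc, ← Proj.basicOpenIsoAway_hom 𝒜 f f_deg hm, Iso.inv_hom_id, Spec.map_id,
    Category.id_comp, IsAffineOpen.toSpecΓ_fromSpec]

lemma fromSpec_comp_toSpec_eq {X : Scheme.{u}} {R : CommRingCat.{u}} (g : X ⟶ Spec R) {U : X.Opens}
    (hU : IsAffineOpen U) :
    hU.fromSpec ≫ g = Spec.map ((Scheme.ΓSpecIso R).inv ≫ g.appTop ≫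
      X.presheaf.map (homOfLE le_top).op) := by
  have h1 : g = X.toSpecΓ ≫ Spec.map ((Scheme.ΓSpecIso R).inv ≫ g.appTop) := by
    rw [Spec.map_comp, ← Scheme.toSpecΓ_naturality_assoc]
    simp
  conv_lhs => rw [h1]
  rw [IsAffineOpen.fromSpec_toSpecΓ_assoc, ← Spec.map_comp]
  simp

lemma proj_res_toSpecZero (f : A) {m : ℕ} (f_deg : f ∈ 𝒜 m) (hm : 0 < m) :
    (Scheme.ΓSpecIso (.of (𝒜 0))).inv ≫ (Proj.toSpecZero 𝒜).appTop ≫
      (Proj 𝒜).presheaf.map (homOfLE (le_top : Proj.basicOpen 𝒜 f ≤ ⊤)).op =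
    CommRingCat.ofHom (fromZeroRingHom 𝒜 _) ≫ Proj.awayToSection 𝒜 f := by
  have h := Proj.awayι_toSpecZero 𝒜 f f_deg hm
  rw [proj_awayι_eq, Category.assoc, fromSpec_comp_toSpec_eq, ← Spec.map_comp] at h
  have h2 := Spec.map_injective h
  rw [← Proj.basicOpenIsoAway_hom 𝒜 f f_deg hm, ← h2]
  simp

end ProjLemmas

namespace Cube

/-- lattice points of the cone over the unit cube -/
def M : AddSubmonoid (ℕ × (Fin 3 → ℕ)) where
  carrier := {m | ∀ i, m.2 i ≤ m.1}
  zero_mem' := by intro i; simp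
  add_mem' := by
    intro a b ha hb i
    exact add_le_add (ha i) (hb i)

def deg : M →+ ℕ := (AddMonoidHom.fst ℕ (Fin 3 → ℕ)).comp M.subtype

/-- the vertex of the cube belonging to the chart `ε` -/
def vtx (ε : Fin 3 → Bool) : M := ⟨(1, fun i => if ε i then 0 else 1), by
  intro i; dsimp only; split_ifs <;> simp⟩

@[simp] lemma deg_vtx (ε : Fin 3 → Bool) : deg (vtx ε) = 1 := rfl

/-- exponent of dehomogenised monomial -/
noncomputable def θ (ε : Fin 3 → Bool) : M →+ (Fin 3 →₀ ℕ) where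
  toFun m := Finsupp.equivFunOnFinite.symm (fun i => if ε i then m.1.2 i else m.1.1 - m.1.2 i)
  map_zero' := by ext i; simp
  map_add' := by
    intro a b
    ext i
    have ha := a.2 i
    have hb := b.2 i
    simp only [AddSubmonoid.coe_add, Prod.snd_add, Pi.add_apply, Prod.fst_add,
      Finsupp.equivFunOnFinite_symm_apply_apply, Finsupp.coe_add]
    split_ifs
    · rfl
    · omega

lemma θ_apply (ε : Fin 3 → Bool) (m : M) (i : Fin 3) :
    θ ε m i = if ε i then m.1.2 i else m.1.1 - m.1.2 i := rfl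

@[simp] lemma θ_vtx (ε : Fin 3 → Bool) : θ ε (vtx ε) = 0 := by
  ext i
  simp only [θ_apply, vtx]
  split_ifs <;> simp

lemma θ_injOn (ε : Fin 3 → Bool) (n : ℕ) : Set.InjOn (θ ε) (deg ⁻¹' {n}) := by
  intro a ha b hb h
  have ha' : a.1.1 = n := ha
  have hb' : b.1.1 = n := hb
  apply Subtype.ext
  apply Prod.ext
  · rw [ha', hb']
  · funext i
    have h1 := DFunLike.congr_fun h i
    have h2 := a.2 i
    have h3 := b.2 i
    simp only [θ_apply] at h1
    split_ifs at h1
    · exact h1
    · omega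

variable (k : Type u) [Field k]

abbrev S := AddMonoidAlgebra k M

abbrev 𝒜 : ℕ → Submodule k (S k) := AddMonoidAlgebra.gradeBy k deg

/-- the monomial of the vertex -/
noncomputable def f (ε : Fin 3 → Bool) : S k := AddMonoidAlgebra.single (vtx ε) 1

lemma f_mem (ε : Fin 3 → Bool) : f k ε ∈ 𝒜 k 1 :=
  AddMonoidAlgebra.single_mem_gradeBy deg (vtx ε) (1 : k)

/-- dehomogenisation -/
noncomputable def Φ (ε : Fin 3 → Bool) : S k →ₐ[k] MvPolynomial (Fin 3) k :=
  AddMonoidAlgebra.mapDomainAlgHom k k (θ ε)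

lemma Φ_single (ε : Fin 3 → Bool) (m : M) (r : k) :
    Φ k ε (AddMonoidAlgebra.single m r) = MvPolynomial.monomial (θ ε m) r := by
  simp [Φ, MvPolynomial.single_eq_monomial]

lemma Φ_f (ε : Fin 3 → Bool) : Φ k ε (f k ε) = 1 := by
  rw [f, Φ_single, θ_vtx]; rfl

lemma Φ_injOn (ε : Fin 3 → Bool) (n : ℕ) (a : S k) (ha : a ∈ 𝒜 k n) (h : Φ k ε a = 0) : a = 0 := by
  have h1 : Finsupp.mapDomain (θ ε) a.coeff = Finsupp.mapDomain (θ ε) (0 : M →₀ k) := by
    have := congrArg AddMonoidAlgebra.coeff h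
    simpa [Φ, AddMonoidAlgebra.mapDomain] using this
  have h2 := Finsupp.mapDomain_injOn _ (θ_injOn ε n) (M := k)
    (show a.coeff ∈ {w : M →₀ k | (w.support : Set M) ⊆ deg ⁻¹' {n}} from ha)
    (show (0 : M →₀ k) ∈ {w : M →₀ k | (w.support : Set M) ⊆ deg ⁻¹' {n}} by simp) h1
  exact AddMonoidAlgebra.coeff_injective h2

open HomogeneousLocalization in
/-- the chart ring is a polynomial ring: the map -/
noncomputable def Ψ (ε : Fin 3 → Bool) : Away (𝒜 k) (f k ε) →+* MvPolynomial (Fin 3) k :=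
  (IsLocalization.Away.lift (S := Localization.Away (f k ε)) (f k ε)
    (g := (Φ k ε).toRingHom) (by simp [Φ_f])).comp
    (algebraMap (Away (𝒜 k) (f k ε)) (Localization.Away (f k ε)))

open HomogeneousLocalization in
lemma Ψ_mk (ε : Fin 3 → Bool) (n : ℕ) (a : S k) (ha : a ∈ 𝒜 k (n • 1)) :
    Ψ k ε (Away.mk (𝒜 k) (f_mem k ε) n a ha) = Φ k ε a := by
  simp only [Ψ, RingHom.coe_comp, Function.comp_apply, HomogeneousLocalization.algebraMap_apply,
    Away.val_mk]
  rw [Localization.mk_eq_mk', IsLocalization.Away.lift, IsLocalization.lift_mk'_spec]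
  simp [Φ_f]

open HomogeneousLocalization in
lemma Ψ_injective (ε : Fin 3 → Bool) : Function.Injective (Ψ k ε) := by
  rw [injective_iff_map_eq_zero]
  intro x hx
  obtain ⟨n, a, ha, rfl⟩ := Away.mk_surjective (𝒜 k) (f_mem k ε) x
  rw [Ψ_mk] at hx
  have := Φ_injOn k ε _ a ha hx
  subst this
  apply HomogeneousLocalization.val_injective
  simp [Localization.mk_zero]

/-- the neighbouring chart -/
def flip (ε : Fin 3 → Bool) (i : Fin 3) : Fin 3 → Bool := Function.update ε i (!ε i)

@[simp] lemma flip_self (ε : Fin 3 → Bool) (i : Fin 3) : flip ε i i = !ε i := by simp [flip]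

lemma flip_of_ne (ε : Fin 3 → Bool) {i j : Fin 3} (h : j ≠ i) : flip ε i j = ε j := by
  simp [flip, Function.update_of_ne h]

lemma θ_vtx_flip (ε : Fin 3 → Bool) (i : Fin 3) : θ ε (vtx (flip ε i)) = Finsupp.single i 1 := by
  ext j
  simp only [θ_apply, vtx, Finsupp.single_apply]
  by_cases hij : j = i
  · subst hij
    simp only [flip_self]
    cases ε j <;> simp
  · simp only [flip_of_ne ε hij, if_neg (Ne.symm hij)]
    cases ε j <;> simp

open HomogeneousLocalization in
/-- the coordinate functions of the chart `ε` -/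
noncomputable def coord (ε : Fin 3 → Bool) (i : Fin 3) : Away (𝒜 k) (f k ε) :=
  Away.mk (𝒜 k) (f_mem k ε) 1 (f k (flip ε i)) (by simpa using f_mem k (flip ε i))

lemma Ψ_coord (ε : Fin 3 → Bool) (i : Fin 3) : Ψ k ε (coord k ε i) = MvPolynomial.X i := by
  rw [coord, Ψ_mk, f, Φ_single, θ_vtx_flip]; rfl

open HomogeneousLocalization in
/-- the constants in the chart ring -/
noncomputable def const (ε : Fin 3 → Bool) (c : k) : Away (𝒜 k) (f k ε) :=
  Away.mk (𝒜 k) (f_mem k ε) 0 (AddMonoidAlgebra.single 0 c)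
    (by simpa using AddMonoidAlgebra.single_mem_gradeBy deg (0 : M) c)

lemma Ψ_const (ε : Fin 3 → Bool) (c : k) : Ψ k ε (const k ε c) = MvPolynomial.C c := by
  rw [const, Ψ_mk, Φ_single, map_zero]; rfl

lemma Ψ_surjective (ε : Fin 3 → Bool) : Function.Surjective (Ψ k ε) := by
  intro p
  induction p using MvPolynomial.induction_on with
  | C c => exact ⟨_, Ψ_const k ε c⟩
  | add p q hp hq =>
    obtain ⟨a, rfl⟩ := hp
    obtain ⟨b, rfl⟩ := hq
    exact ⟨a + b, map_add _ _ _⟩
  | mul_X p i hp =>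
    obtain ⟨a, rfl⟩ := hp
    exact ⟨a * coord k ε i, by rw [map_mul, Ψ_coord]⟩

open HomogeneousLocalization in
/-- the chart ring is a polynomial ring -/
noncomputable def chartEquiv (ε : Fin 3 → Bool) :
    MvPolynomial (Fin 3) k ≃+* Away (𝒜 k) (f k ε) :=
  (RingEquiv.ofBijective (Ψ k ε) ⟨Ψ_injective k ε, Ψ_surjective k ε⟩).symm

lemma chartEquiv_X (ε : Fin 3 → Bool) (i : Fin 3) :
    chartEquiv k ε (MvPolynomial.X i) = coord k ε i := by
  rw [chartEquiv, RingEquiv.symm_apply_eq]
  exact (Ψ_coord k ε i).symm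

lemma chartEquiv_C (ε : Fin 3 → Bool) (c : k) :
    chartEquiv k ε (MvPolynomial.C c) = const k ε c := by
  rw [chartEquiv, RingEquiv.symm_apply_eq]
  exact (Ψ_const k ε c).symm


/-! ### structure morphism -/

lemma deg_eq_zero_iff (m : M) : deg m = 0 ↔ m = 0 := by
  constructor
  · intro h
    have h' : m.1.1 = 0 := h
    apply Subtype.ext
    apply Prod.ext
    · exact h'
    · funext i
      have := m.2 i
      simp only [AddSubmonoid.coe_zero, Prod.snd_zero, Pi.zero_apply]
      omega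
  · rintro rfl; rfl

lemma coe_algebraMap_zero (c : k) : ((algebraMap k (𝒜 k 0) c : 𝒜 k 0) : S k) =
    AddMonoidAlgebra.single 0 c := by
  rfl

lemma algebraMap_zero_bijective : Function.Bijective (algebraMap k (𝒜 k 0)) := by
  constructor
  · intro a b h
    have := congrArg (fun x : 𝒜 k 0 => (x : S k).coeff 0) h
    simpa [coe_algebraMap_zero] using this
  · rintro ⟨a, ha⟩
    refine ⟨a.coeff 0, Subtype.ext ?_⟩
    rw [coe_algebraMap_zero]
    apply AddMonoidAlgebra.coeff_injective
    ext m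
    by_cases hm : m = 0
    · subst hm; simp
    · have : a.coeff m = 0 := by
        by_contra h
        exact hm ((deg_eq_zero_iff m).mp (ha m (Finsupp.mem_support_iff.mpr h)))
      simp [this, Ne.symm hm]

lemma exists_vtx_add (m : M) (n : ℕ) (h : deg m = n + 1) :
    ∃ (ε : Fin 3 → Bool) (m' : M), deg m' = n ∧ m = vtx ε + m' := by
  have h' : m.1.1 = n + 1 := h
  refine ⟨fun i => decide (m.1.2 i = 0),
    ⟨(n, fun i => m.1.2 i - (if m.1.2 i = 0 then 0 else 1)), ?_⟩, rfl, ?_⟩
  · intro i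
    have := m.2 i
    dsimp only
    split_ifs <;> omega
  · apply Subtype.ext
    apply Prod.ext
    · simp [vtx, h', add_comm]
    · funext i
      simp only [vtx, AddSubmonoid.coe_add, Prod.snd_add, Pi.add_apply, decide_eq_true_eq]
      split_ifs <;> omega

lemma single_mem_adjoin (m : M) :
    (AddMonoidAlgebra.single m 1 : S k) ∈ Algebra.adjoin (𝒜 k 0) (Set.range (f k)) := by
  obtain ⟨n, hn⟩ : ∃ n, deg m = n := ⟨_, rfl⟩
  induction n generalizing m with
  | zero =>
    rw [(deg_eq_zero_iff m).mp hn]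
    exact one_mem _
  | succ n ih =>
    obtain ⟨ε, m', hm', rfl⟩ := exists_vtx_add m n hn
    have : (AddMonoidAlgebra.single (vtx ε + m') 1 : S k) =
        f k ε * AddMonoidAlgebra.single m' 1 := by
      rw [f, AddMonoidAlgebra.single_mul_single, one_mul]
    rw [this]
    exact mul_mem (Algebra.subset_adjoin ⟨ε, rfl⟩) (ih m' hm')

lemma adjoin_f_eq_top : Algebra.adjoin (𝒜 k 0) (Set.range (f k)) = ⊤ := by
  rw [eq_top_iff]
  intro a _
  induction a using AddMonoidAlgebra.induction_linear with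
  | zero => exact zero_mem _
  | add a b ha hb => exact add_mem (ha trivial) (hb trivial)
  | single m c =>
    have : (AddMonoidAlgebra.single m c : S k) =
        algebraMap (𝒜 k 0) (S k) (algebraMap k (𝒜 k 0) c) * AddMonoidAlgebra.single m 1 := by
      change _ = ((algebraMap k (𝒜 k 0) c : 𝒜 k 0) : S k) * _
      rw [coe_algebraMap_zero, AddMonoidAlgebra.single_mul_single, zero_add, mul_one]
    rw [this]
    exact mul_mem (Subalgebra.algebraMap_mem _ _) (single_mem_adjoin k m)

instance finiteType_S : Algebra.FiniteType (𝒜 k 0) (S k) := by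
  classical
  exact ⟨⟨Finset.univ.image (f k), by simpa using adjoin_f_eq_top k⟩⟩

/-- The scheme `ℙ¹ × ℙ¹ × ℙ¹`, as the toric variety of the cube. -/
noncomputable abbrev X : Scheme.{u} := Proj (𝒜 k)

/-- The structure morphism. -/
noncomputable def π : X k ⟶ Spec (CommRingCat.of k) :=
  Proj.toSpecZero (𝒜 k) ≫ Spec.map (CommRingCat.ofHom (algebraMap k (𝒜 k 0)))

instance isIso_algebraMap_zero : IsIso (CommRingCat.ofHom (algebraMap k (𝒜 k 0))) :=
  (ConcreteCategory.isIso_iff_bijective _).mpr (algebraMap_zero_bijective k)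

instance isProper_π : IsProper (π k) := by
  unfold π
  have h1 : IsProper (Proj.toSpecZero (𝒜 k)) := inferInstance
  have h2 : IsIso (Spec.map (CommRingCat.ofHom (algebraMap k (𝒜 k 0)))) := inferInstance
  have h3 : IsProper (Spec.map (CommRingCat.ofHom (algebraMap k (𝒜 k 0)))) := inferInstance
  exact MorphismProperty.comp_mem _ _ _ h1 h3

/-- The charts. -/
noncomputable def U (ε : Fin 3 → Bool) : (X k).Opens := Proj.basicOpen (𝒜 k) (f k ε)

lemma isAffineOpen_U (ε : Fin 3 → Bool) : IsAffineOpen (U k ε) :=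
  Proj.isAffineOpen_basicOpen (𝒜 k) (f k ε) (f_mem k ε) one_pos

lemma iSup_U : ⨆ ε, U k ε = ⊤ :=
  Proj.iSup_basicOpen_eq_top' (𝒜 k) (f k) (fun ε => ⟨1, f_mem k ε⟩) (adjoin_f_eq_top k)

lemma cover (p : X k) : ∃ ε, p ∈ U k ε := by
  have : p ∈ ⨆ ε, U k ε := by rw [iSup_U]; trivial
  simpa using this


/-! ### integrality -/

/-- the coordinate ring of a chart is a polynomial ring -/
noncomputable def e (ε : Fin 3 → Bool) : MvPolynomial (Fin 3) k ≃+* Γ(X k, U k ε) :=
  (chartEquiv k ε).trans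
    (Proj.basicOpenIsoAway (𝒜 k) (f k ε) (f_mem k ε) one_pos).commRingCatIsoToRingEquiv

instance isDomain_away (ε : Fin 3 → Bool) :
    IsDomain (HomogeneousLocalization.Away (𝒜 k) (f k ε)) :=
  (chartEquiv k ε).symm.toMulEquiv.isDomain _

instance isDomain_section (ε : Fin 3 → Bool) : IsDomain Γ(X k, U k ε) :=
  (e k ε).symm.toMulEquiv.isDomain _

/-- the chart maps -/
noncomputable abbrev j (ε : Fin 3 → Bool) :
    Spec (.of <| HomogeneousLocalization.Away (𝒜 k) (f k ε)) ⟶ X k :=
  Proj.awayι (𝒜 k) (f k ε) (f_mem k ε) one_pos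

open HomogeneousLocalization in
/-- the monomial `f δ / f ε` in the chart ring of `ε` -/
noncomputable def ratio (ε δ : Fin 3 → Bool) : Away (𝒜 k) (f k ε) :=
  Away.mk (𝒜 k) (f_mem k ε) 1 (f k δ) (by simpa using f_mem k δ)

lemma Ψ_ratio (ε δ : Fin 3 → Bool) :
    Ψ k ε (ratio k ε δ) = MvPolynomial.monomial (θ ε (vtx δ)) 1 := by
  rw [ratio, Ψ_mk, f, Φ_single]

lemma j_mem_U_iff (ε δ : Fin 3 → Bool)
    (y : Spec (.of <| HomogeneousLocalization.Away (𝒜 k) (f k ε))) :
    j k ε y ∈ U k δ ↔ ratio k ε δ ∉ y.asIdeal := by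
  have h := Proj.awayι_preimage_basicOpen (𝒜 k) (f_mem k ε) one_pos (f_mem k δ) one_pos
  have h2 : j k ε y ∈ U k δ ↔ y ∈ (j k ε) ⁻¹ᵁ (Proj.basicOpen (𝒜 k) (f k δ)) := Iff.rfl
  rw [h2, h]
  have h3 : HomogeneousLocalization.Away.isLocalizationElem (f_mem k ε) (f_mem k δ) =
      ratio k ε δ := by
    apply HomogeneousLocalization.val_injective
    simp [ratio]
  rw [h3]
  rfl

lemma ratio_ne_zero (ε δ : Fin 3 → Bool) : ratio k ε δ ≠ 0 := by
  intro h
  have h2 := congrArg (Ψ k ε) h
  rw [map_zero, Ψ_ratio] at h2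
  simp at h2

/-- the generic point of the chart `ε` -/
noncomputable def gen (ε : Fin 3 → Bool) :
    Spec (.of <| HomogeneousLocalization.Away (𝒜 k) (f k ε)) :=
  (⊥ : PrimeSpectrum (HomogeneousLocalization.Away (𝒜 k) (f k ε)))

lemma j_gen_mem (ε δ : Fin 3 → Bool) : j k ε (gen k ε) ∈ U k δ := by
  rw [j_mem_U_iff]
  change _ ∉ (⊥ : _root_.Ideal _)
  rw [Ideal.mem_bot]
  exact ratio_ne_zero k ε δ

lemma opensRange_j (ε : Fin 3 → Bool) : (j k ε).opensRange = U k ε :=
  Proj.opensRange_awayι (𝒜 k) (f k ε) (f_mem k ε) one_pos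

instance isReduced_X : IsReduced (X k) := by
  have hcov : TopologicalSpace.IsOpenCover (U k) := iSup_U k
  let 𝒰 := (X k).openCoverOfIsOpenCover (U k) hcov
  have : ∀ i, IsReduced (𝒰.X i) := by
    intro ε
    change IsReduced (U k ε).toScheme
    have : IsAffine (U k ε).toScheme := isAffineOpen_U k ε
    have : _root_.IsReduced Γ((U k ε).toScheme, ⊤) := by
      have e1 := ((U k ε).topIso).commRingCatIsoToRingEquiv
      have h0 := isDomain_section k ε
      have : IsDomain Γ((U k ε).toScheme, ⊤) := e1.toMulEquiv.isDomain _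
      infer_instance
    exact isReduced_of_isAffine_isReduced _
  exact IsReduced.of_openCover _ 𝒰

lemma j_mem_U_self (ε : Fin 3 → Bool)
    (y : Spec (.of <| HomogeneousLocalization.Away (𝒜 k) (f k ε))) : j k ε y ∈ U k ε := by
  rw [← opensRange_j]
  exact ⟨y, rfl⟩

instance irreducibleSpace_X : IrreducibleSpace (X k) := by
  have hcov : TopologicalSpace.IsOpenCover (U k) := iSup_U k
  have hpre : PreirreducibleSpace (X k) := by
    refine PreirreducibleSpace.of_isOpenCover (U := U k) ?_ hcov ?_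
    · intro ε δ _
      change ¬ Disjoint (U k ε) (U k δ)
      intro hd
      have hmem : j k ε (gen k ε) ∈ U k ε ⊓ U k δ := ⟨j_mem_U_self k ε (gen k ε), j_gen_mem k ε δ⟩
      rw [hd.eq_bot] at hmem
      exact hmem
    · intro ε
      have h1 : IrreducibleSpace (Spec (.of <| HomogeneousLocalization.Away (𝒜 k) (f k ε))) :=
        inferInstanceAs (IrreducibleSpace (PrimeSpectrum _))
      have h2 : IsPreirreducible (Set.range (j k ε)) := by
        rw [← Set.image_univ]
        exact (PreirreducibleSpace.isPreirreducible_univ).image _ (j k ε).continuous.continuousOn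
      have h3 : (U k ε : Set (X k)) = Set.range (j k ε) := by
        rw [← opensRange_j]; rfl
      rw [← h3] at h2
      exact ⟨(Subtype.preirreducibleSpace h2).1⟩
  exact { hpre with toNonempty := ⟨j k (fun _ => true) (gen k _)⟩ }

instance isIntegral_X : IsIntegral (X k) := isIntegral_of_irreducibleSpace_of_isReduced _

lemma generic_mem (ε : Fin 3 → Bool) : genericPoint (X k) ∈ U k ε :=
  ((genericPoint_spec (X k)).mem_open_set_iff (U k ε).isOpen).mpr
    ⟨_, trivial, j_mem_U_self k ε (gen k ε)⟩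


/-! ### germs -/

open HomogeneousLocalization in
lemma germ_e (ε : Fin 3 → Bool) (p : X k) (hp : p ∈ U k ε) (q : MvPolynomial (Fin 3) k) :
    (X k).presheaf.germ (U k ε) p hp (e k ε q) =
      (Proj.stalkIso' (𝒜 k) p).symm
        (mapId (𝒜 k) (Submonoid.powers_le.mpr hp) (chartEquiv k ε q)) := by
  have h := ProjectiveSpectrum.Proj.awayToSection_germ (𝒜 k) (f k ε) p hp
  exact congr($h (chartEquiv k ε q))

open HomogeneousLocalization in
lemma val_mapId_mk (ε : Fin 3 → Bool) (Q : Submonoid (S k)) (h : Submonoid.powers (f k ε) ≤ Q)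
    (n : ℕ) (a : S k) (ha : a ∈ 𝒜 k (n • 1)) :
    (mapId (𝒜 k) h (Away.mk (𝒜 k) (f_mem k ε) n a ha)).val =
      Localization.mk a ⟨f k ε ^ n, h ⟨n, rfl⟩⟩ := rfl

open HomogeneousLocalization in
lemma isUnit_germ_X_iff (δ : Fin 3 → Bool) (p : X k) (hp : p ∈ U k δ) (i : Fin 3) :
    IsUnit ((X k).presheaf.germ (U k δ) p hp (e k δ (MvPolynomial.X i))) ↔
      p ∈ U k (flip δ i) := by
  rw [germ_e, chartEquiv_X]
  refine (MulEquiv.isUnit_map (Proj.stalkIso' (𝒜 k) p).symm).trans ?_
  let P : ProjectiveSpectrum (𝒜 k) := p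
  have hP : P.asHomogeneousIdeal.toIdeal.IsPrime := P.isPrime
  refine (HomogeneousLocalization.isUnit_iff_isUnit_val (𝒜 k) P.asHomogeneousIdeal.toIdeal
    _).symm.trans ?_
  rw [coord, val_mapId_mk, Localization.mk_eq_mk', IsLocalization.AtPrime.isUnit_mk'_iff]
  rfl

/-- `flip δ i` if `ε` and `δ` differ at `i`, and `δ` otherwise -/
def step (ε δ : Fin 3 → Bool) (i : Fin 3) : Fin 3 → Bool := if ε i ≠ δ i then flip δ i else δ

lemma step_self (ε δ : Fin 3 → Bool) (i : Fin 3) : step ε δ i i = ε i := by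
  unfold step
  split_ifs with h
  · rw [flip_self]
    cases h1 : ε i <;> cases h2 : δ i <;> simp_all
  · exact (not_not.mp h).symm

lemma step_of_ne (ε δ : Fin 3 → Bool) {i j : Fin 3} (h : j ≠ i) : step ε δ i j = δ j := by
  unfold step
  split_ifs
  · exact flip_of_ne δ h
  · rfl

lemma vtx_step (ε δ : Fin 3 → Bool) :
    vtx (step ε δ 0) + vtx (step ε δ 1) + vtx (step ε δ 2) = vtx ε + vtx δ + vtx δ := by
  apply Subtype.ext
  apply Prod.ext
  · rfl
  · funext j
    simp only [vtx, AddSubmonoid.coe_add, Prod.snd_add, Pi.add_apply]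
    fin_cases j
    · simp only [Fin.zero_eta, step_self, step_of_ne ε δ (show (0 : Fin 3) ≠ 1 by decide),
        step_of_ne ε δ (show (0 : Fin 3) ≠ 2 by decide)]
    · simp only [Fin.mk_one, step_self, step_of_ne ε δ (show (1 : Fin 3) ≠ 0 by decide),
        step_of_ne ε δ (show (1 : Fin 3) ≠ 2 by decide)]
      omega
    · simp only [Fin.reduceFinMk, step_self, step_of_ne ε δ (show (2 : Fin 3) ≠ 0 by decide),
        step_of_ne ε δ (show (2 : Fin 3) ≠ 1 by decide)]
      omega

lemma f_step (ε δ : Fin 3 → Bool) :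
    f k (step ε δ 0) * f k (step ε δ 1) * f k (step ε δ 2) = f k ε * f k δ * f k δ := by
  simp only [f, AddMonoidAlgebra.single_mul_single, mul_one, vtx_step]

lemma mem_iff (ε δ : Fin 3 → Bool) (p : X k) (hp : p ∈ U k δ) :
    p ∈ U k ε ↔ ∀ i, ε i ≠ δ i →
      IsUnit ((X k).presheaf.germ (U k δ) p hp (e k δ (MvPolynomial.X i))) := by
  simp only [isUnit_germ_X_iff]
  have h1 : U k (step ε δ 0) ⊓ U k (step ε δ 1) ⊓ U k (step ε δ 2) = U k ε ⊓ U k δ ⊓ U k δ := by
    simp only [U, ← Proj.basicOpen_mul, f_step]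
  have h2 : p ∈ U k ε ↔ p ∈ U k ε ⊓ U k δ ⊓ U k δ := ⟨fun h => ⟨⟨h, hp⟩, hp⟩, fun h => h.1.1⟩
  rw [h2, ← h1]
  have h3 : ∀ i, p ∈ U k (step ε δ i) ↔ (ε i ≠ δ i → p ∈ U k (flip δ i)) := by
    intro i
    unfold step
    split_ifs with h
    · simp [h]
    · simp [h, hp]
  constructor
  · rintro ⟨⟨a, b⟩, c⟩ i
    fin_cases i
    · exact (h3 0).mp a
    · exact (h3 1).mp b
    · exact (h3 2).mp c
  · intro h
    exact ⟨⟨(h3 0).mpr (h 0), (h3 1).mpr (h 1)⟩, (h3 2).mpr (h 2)⟩

/-- the chart on which all three coordinates are finite -/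
def T : Fin 3 → Bool := fun _ => true

/-- the coordinate functions -/
noncomputable def x (i : Fin 3) : (X k).functionField :=
  (X k).presheaf.germ (U k T) (genericPoint (X k)) (generic_mem k T) (e k T (MvPolynomial.X i))

lemma vtx_flip_true (ε : Fin 3 → Bool) (i : Fin 3) (h : ε i = true) :
    vtx (flip ε i) + vtx T = vtx (flip T i) + vtx ε := by
  apply Subtype.ext
  apply Prod.ext
  · rfl
  · funext j
    simp only [vtx, AddSubmonoid.coe_add, Prod.snd_add, Pi.add_apply]
    by_cases hj : j = i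
    · subst hj
      simp [flip_self, h, T]
    · simp [flip_of_ne _ hj, T]

lemma vtx_flip_false (ε : Fin 3 → Bool) (i : Fin 3) (h : ε i = false) :
    vtx (flip ε i) + vtx (flip T i) = vtx ε + vtx T := by
  apply Subtype.ext
  apply Prod.ext
  · rfl
  · funext j
    simp only [vtx, AddSubmonoid.coe_add, Prod.snd_add, Pi.add_apply]
    by_cases hj : j = i
    · subst hj
      simp [flip_self, h, T]
    · simp [flip_of_ne _ hj, T]

open HomogeneousLocalization in
lemma germ_X (ε : Fin 3 → Bool) (i : Fin 3) :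
    (X k).presheaf.germ (U k ε) (genericPoint (X k)) (generic_mem k ε) (e k ε (MvPolynomial.X i)) =
      if ε i then x k i else (x k i)⁻¹ := by
  split_ifs with h
  · rw [x, germ_e, germ_e, chartEquiv_X, chartEquiv_X]
    congr 1
    apply HomogeneousLocalization.val_injective
    rw [coord, coord, val_mapId_mk, val_mapId_mk, Localization.mk_eq_mk_iff,
      Localization.r_iff_exists]
    refine ⟨1, ?_⟩
    simp only [f, pow_one, OneMemClass.coe_one, one_mul, AddMonoidAlgebra.single_mul_single,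
      mul_one]
    rw [add_comm, vtx_flip_true ε i h, add_comm]
  · apply eq_inv_of_mul_eq_one_left
    rw [x, germ_e, germ_e, chartEquiv_X, chartEquiv_X]
    let P : ProjectiveSpectrum (𝒜 k) := genericPoint (X k)
    have key : (mapId (𝒜 k) (Q := P.asHomogeneousIdeal.toIdeal.primeCompl)
          (Submonoid.powers_le.mpr (generic_mem k ε)) (coord k ε i)) *
        (mapId (𝒜 k) (Q := P.asHomogeneousIdeal.toIdeal.primeCompl)
          (Submonoid.powers_le.mpr (generic_mem k T)) (coord k T i)) = 1 := by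
      apply HomogeneousLocalization.val_injective
      rw [HomogeneousLocalization.val_mul, coord, coord, val_mapId_mk, val_mapId_mk,
        HomogeneousLocalization.val_one, Localization.mk_mul, ← Localization.mk_one,
        Localization.mk_eq_mk_iff, Localization.r_iff_exists]
      refine ⟨1, ?_⟩
      simp only [f, pow_one, OneMemClass.coe_one, one_mul, AddMonoidAlgebra.single_mul_single,
        mul_one, Submonoid.mk_mul_mk]
      rw [vtx_flip_false ε i (by simpa using h)]
    refine (map_mul (Proj.stalkIso' (𝒜 k) (genericPoint (X k))).symm _ _).symm.trans ?_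
    refine (congrArg _ key).trans ?_
    exact map_one (Proj.stalkIso' (𝒜 k) (genericPoint (X k))).symm

open HomogeneousLocalization in
lemma const_eq (ε : Fin 3 → Bool) (c : k) :
    const k ε c = fromZeroRingHom (𝒜 k) _ (algebraMap k (𝒜 k 0) c) := by
  apply HomogeneousLocalization.val_injective
  change Localization.mk _ _ = Localization.mk _ _
  congr 1

lemma res_π (ε : Fin 3 → Bool) :
    (Scheme.ΓSpecIso (CommRingCat.of k)).inv ≫ (π k).appTop ≫
      (X k).presheaf.map (homOfLE (le_top : U k ε ≤ ⊤)).op =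
    CommRingCat.ofHom (algebraMap k (𝒜 k 0)) ≫
      CommRingCat.ofHom (HomogeneousLocalization.fromZeroRingHom (𝒜 k) _) ≫
        Proj.awayToSection (𝒜 k) (f k ε) := by
  rw [← proj_res_toSpecZero (𝒜 k) (f k ε) (f_mem k ε) one_pos, π, Scheme.Hom.comp_appTop,
    Category.assoc, ← Scheme.ΓSpecIso_inv_naturality_assoc]
  rfl

lemma germ_C (ε : Fin 3 → Bool) (c : k) :
    (X k).presheaf.germ (U k ε) (genericPoint (X k)) (generic_mem k ε) (e k ε (MvPolynomial.C c)) =
      @algebraMap k (X k).functionField _ _ (fnFieldAlgebra (π k)) c := by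
  have h1 : e k ε (MvPolynomial.C c) = (X k).presheaf.map (homOfLE (le_top : U k ε ≤ ⊤)).op
      ((π k).appTop ((Scheme.ΓSpecIso (CommRingCat.of k)).inv c)) := by
    have h2 : e k ε (MvPolynomial.C c) = Proj.awayToSection (𝒜 k) (f k ε) (const k ε c) := by
      rw [← chartEquiv_C]; rfl
    rw [h2, const_eq]
    exact congr($(res_π k ε) c).symm
  rw [h1]
  rw [TopCat.Presheaf.germ_res_apply]
  rfl

/-- **`ℙ¹ × ℙ¹ × ℙ¹` with its eight charts**, over an arbitrary field. -/
noncomputable def _root_.Claimed.Open.R035.cubeAtlas : CubeAtlas k where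
  X := X k
  π := π k
  isProper := isProper_π k
  U := U k
  isAffineOpen := isAffineOpen_U k
  generic_mem := generic_mem k
  cover := cover k
  e := e k
  x := x k
  germ_C := germ_C k
  germ_X := germ_X k
  mem_iff := mem_iff k

end Cube
end Claimed.Open.R035
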