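import Claimed.Open.R035.SanityLinearEquiv
import Claimed.Open.R035.SanityTopFormP

/-!
# Sanity check: in both theorems "for all `ω ≠ 0`" is the same as "for one `ω ≠ 0`"

`Statement.lean` takes `K_X = div ω` for an arbitrary non-zero rational `3`-form `ω` and quantifies over all `ω`.
`SanityLinearEquiv.lean` proves that every hypothesis and every conclusion is invariant under `ω ↦ g • ω`,
`K ↦ K + div g`; `SanityTopFormP.lean` proves that the rational top forms are a line over `k(X)` (perfect base field, any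
characteristic).  This file joins the two, on every integral quasi-compact scheme `X`, locally of finite type and of
dimension three over a perfect field:

* `IsDivisorOfForm.exists_eq_add_principalDiv`, `IsDivisorOfForm.isLinEquiv`: **any two canonical divisors are linearly
  equivalent** (in every dimension `n = dim X`);
* `logAbundance_any_two_forms`, `terminalAbundance_any_two_forms`: for ANY two non-zero forms `ω`, `ω'` with divisors `K`, `K'`
  each hypothesis and each conclusion holds for `(ω', K')` if and only if it holds for `(ω, K)`;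
* `logAbundance_of_one_form`, `terminalAbundance_of_one_form`: if the implication of the theorem holds on `X` for one
  non-zero form, it holds on `X` for every non-zero form (`LogHypotheses`, `TerminalHypotheses`, `TerminalConclusion` are the
  clauses of `Statement.lean`, verbatim);
* `logAbundance_iff_one_form`, `terminalAbundance_iff_one_form`: `LogAbundance` and `TerminalAbundance` themselves are
  equivalent to their versions with "there is a non-zero `ω` such that for all `K` (and `B`) ..." in the place of "for all `ω`".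
-/

set_option autoImplicit false

open AlgebraicGeometry CategoryTheory Order

universe u

namespace Claimed.Open.R035

section AnyTwo

variable {k : Type u} [Field k] [PerfectField k] {X : Scheme.{u}} [IsIntegral X] [IsLocallyNoetherian X]
  [CompactSpace X] {π : X ⟶ Spec (CommRingCat.of k)} [LocallyOfFiniteType π]

/-- **Any two canonical divisors are linearly equivalent**: if `K = div ω` and `K' = div ω'` for two non-zero rational top
forms, then `ω' = g • ω` and `K' = K + div g` for a rational function `g ≠ 0`. -/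
theorem IsDivisorOfForm.exists_eq_add_principalDiv {n : ℕ} (hd : topologicalKrullDim X = n) {ω ω' : RatForm π n}
    (hω : ω ≠ 0) (hω' : ω' ≠ 0) {K K' : X → ℤ} (h : IsDivisorOfForm π n ω K) (h' : IsDivisorOfForm π n ω' K') :
    ∃ g : X.functionField, g ≠ 0 ∧ ω' = g • ω ∧ K' = K + principalDiv g := by
  obtain ⟨g, hg, rfl⟩ := exists_smul_eq_of_ratForm_ne_zero π hd hω hω'
  exact ⟨g, hg, rfl, h'.unique (h.smul hg)⟩

theorem IsDivisorOfForm.isLinEquiv {n : ℕ} (hd : topologicalKrullDim X = n) {ω ω' : RatForm π n}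
    (hω : ω ≠ 0) (hω' : ω' ≠ 0) {K K' : X → ℤ} (h : IsDivisorOfForm π n ω K) (h' : IsDivisorOfForm π n ω' K') :
    IsLinEquiv K K' := by
  obtain ⟨g, hg, -, e⟩ := h.exists_eq_add_principalDiv hd hω hω' h'
  exact ⟨g, hg, e⟩

/-- `LogAbundance`: the hypotheses on `(ω, K, B)` and the conclusion do not depend on the form, for ANY two forms. -/
theorem logAbundance_any_two_forms (hd : topologicalKrullDim X = (3 : ℕ)) {ω ω' : RatForm π 3} (hω : ω ≠ 0)
    (hω' : ω' ≠ 0) {K K' : X → ℤ} (h : IsDivisorOfForm π 3 ω K) (h' : IsDivisorOfForm π 3 ω' K') (B : X → ℚ) :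
    (IsQCartier (fun z => (K' z : ℚ) + B z) ↔ IsQCartier (fun z => (K z : ℚ) + B z)) ∧
    (IsLogCanonical π 3 ω' (fun z => (K' z : ℚ) + B z) ↔ IsLogCanonical π 3 ω (fun z => (K z : ℚ) + B z)) ∧
    (IsNef (fun z => (K' z : ℚ) + B z) ↔ IsNef (fun z => (K z : ℚ) + B z)) ∧
    (HasNumericalDimensionOne (fun z => (K' z : ℚ) + B z) ↔ HasNumericalDimensionOne (fun z => (K z : ℚ) + B z)) ∧
    (IsSemiample (fun z => (K' z : ℚ) + B z) ↔ IsSemiample (fun z => (K z : ℚ) + B z)) := by
  obtain ⟨g, hg, rfl, rfl⟩ := h.exists_eq_add_principalDiv hd hω hω' h'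
  exact (logAbundance_independent_of_form π ω K B hg).2.2

/-- `TerminalAbundance`: the hypotheses on `(ω, K)` and the three conclusions do not depend on the form, for ANY two
forms. -/
theorem terminalAbundance_any_two_forms (hd : topologicalKrullDim X = (3 : ℕ)) {ω ω' : RatForm π 3} (hω : ω ≠ 0)
    (hω' : ω' ≠ 0) {K K' : X → ℤ} (h : IsDivisorOfForm π 3 ω K) (h' : IsDivisorOfForm π 3 ω' K') :
    (IsTerminal π 3 ω' (fun z => (K' z : ℚ)) ↔ IsTerminal π 3 ω (fun z => (K z : ℚ))) ∧
    (IsNef (fun z => (K' z : ℚ)) ↔ IsNef (fun z => (K z : ℚ))) ∧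
    (HasNumericalDimensionOne (fun z => (K' z : ℚ)) ↔ HasNumericalDimensionOne (fun z => (K z : ℚ))) ∧
    (HasTwoSections π K' ↔ HasTwoSections π K) ∧
    iitakaDim π (fun z => (K' z : ℚ)) = iitakaDim π (fun z => (K z : ℚ)) ∧
    (IsSemiample (fun z => (K' z : ℚ)) ↔ IsSemiample (fun z => (K z : ℚ))) := by
  obtain ⟨g, hg, rfl, rfl⟩ := h.exists_eq_add_principalDiv hd hω hω' h'
  exact (terminalAbundance_independent_of_form π ω K hg).2

end AnyTwo

/-! ### One form is enough -/

section OneForm

variable {k : Type u} [Field k] {X : Scheme.{u}} [IsIntegral X] [IsLocallyNoetherian X]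
  (π : X ⟶ Spec (CommRingCat.of k))

/-- The hypotheses of `LogAbundance` on `(ω, K, B)`, verbatim. -/
def LogHypotheses (ω : RatForm π 3) (K : X → ℤ) (B : X → ℚ) : Prop :=
  ω ≠ 0 ∧ IsDivisorOfForm π 3 ω K ∧ IsWeilDivisor B ∧ (∀ z, 0 ≤ B z) ∧
    IsQCartier (fun z => (K z : ℚ) + B z) ∧ IsLogCanonical π 3 ω (fun z => (K z : ℚ) + B z) ∧
    IsNef (fun z => (K z : ℚ) + B z) ∧ HasNumericalDimensionOne (fun z => (K z : ℚ) + B z)

/-- The hypotheses of `TerminalAbundance` on `(ω, K)`, verbatim. -/
def TerminalHypotheses (ω : RatForm π 3) (K : X → ℤ) : Prop :=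
  ω ≠ 0 ∧ IsDivisorOfForm π 3 ω K ∧ IsTerminal π 3 ω (fun z => (K z : ℚ)) ∧
    IsNef (fun z => (K z : ℚ)) ∧ HasNumericalDimensionOne (fun z => (K z : ℚ))

/-- The conclusion of `TerminalAbundance` on `K`, verbatim (`HasTwoSections` is its first clause, by definition). -/
def TerminalConclusion (K : X → ℤ) : Prop :=
  HasTwoSections π K ∧ iitakaDim π (fun z => (K z : ℚ)) = 1 ∧ IsSemiample (fun z => (K z : ℚ))

variable {π} [CompactSpace X]

theorem LogHypotheses.smul {ω : RatForm π 3} {K : X → ℤ} {B : X → ℚ} (h : LogHypotheses π ω K B)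
    {g : X.functionField} (hg : g ≠ 0) : LogHypotheses π (g • ω) (K + principalDiv g) B := by
  obtain ⟨h1, h2, h3, h4, h5, h6, h7, h8⟩ := h
  obtain ⟨e1, e2, e5, e6, e7, e8, -⟩ := logAbundance_independent_of_form π ω K B hg
  exact ⟨e1.2 h1, e2.2 h2, h3, h4, e5.2 h5, e6.2 h6, e7.2 h7, e8.2 h8⟩

theorem TerminalHypotheses.smul {ω : RatForm π 3} {K : X → ℤ} (h : TerminalHypotheses π ω K)
    {g : X.functionField} (hg : g ≠ 0) : TerminalHypotheses π (g • ω) (K + principalDiv g) := by
  obtain ⟨h1, h2, h3, h4, h5⟩ := h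
  obtain ⟨e2, e3, e4, e5, -⟩ := terminalAbundance_independent_of_form π ω K hg
  exact ⟨smul_ne_zero hg h1, e2.2 h2, e3.2 h3, e4.2 h4, e5.2 h5⟩

theorem terminalConclusion_add_principalDiv_iff (K : X → ℤ) {g : X.functionField} (hg : g ≠ 0) :
    TerminalConclusion π (K + principalDiv g) ↔ TerminalConclusion π K := by
  obtain ⟨-, -, -, -, e1, e2, e3⟩ := terminalAbundance_independent_of_form π (0 : RatForm π 3) K hg
  unfold TerminalConclusion
  rw [e1, e2, e3]

variable [PerfectField k] [LocallyOfFiniteType π]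

/-- **In `LogAbundance`, "for all `ω ≠ 0`" is the same as "for one `ω ≠ 0`"**: if the implication holds on `X` for one
non-zero rational `3`-form `ω₀` (and all `K`, `B`), it holds on `X` for every rational `3`-form. -/
theorem logAbundance_of_one_form (hd : topologicalKrullDim X = (3 : ℕ)) {ω₀ : RatForm π 3} (hω₀ : ω₀ ≠ 0)
    (h : ∀ K B, LogHypotheses π ω₀ K B → IsSemiample (fun z => (K z : ℚ) + B z)) :
    ∀ ω K B, LogHypotheses π ω K B → IsSemiample (fun z => (K z : ℚ) + B z) := by
  intro ω K B hyp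
  obtain ⟨g, hg, rfl⟩ := exists_smul_eq_of_ratForm_ne_zero π hd hyp.1 hω₀
  exact (logAbundance_independent_of_form π ω K B hg).2.2.2.2.2.2.1 (h _ B (hyp.smul hg))

/-- **In `TerminalAbundance`, "for all `ω ≠ 0`" is the same as "for one `ω ≠ 0`".** -/
theorem terminalAbundance_of_one_form (hd : topologicalKrullDim X = (3 : ℕ)) {ω₀ : RatForm π 3} (hω₀ : ω₀ ≠ 0)
    (h : ∀ K, TerminalHypotheses π ω₀ K → TerminalConclusion π K) :
    ∀ ω K, TerminalHypotheses π ω K → TerminalConclusion π K := by
  intro ω K hyp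
  obtain ⟨g, hg, rfl⟩ := exists_smul_eq_of_ratForm_ne_zero π hd hyp.1 hω₀
  exact (terminalConclusion_add_principalDiv_iff K hg).1 (h _ (hyp.smul hg))

end OneForm

/-! ### The two theorems of `Statement.lean` themselves -/

/-- `LogAbundance` with "there is a non-zero form `ω` such that ..." in the place of "for all non-zero forms `ω`". -/
def LogAbundanceOneForm : Prop :=
  ∀ (k : Type u) [Field k] [IsAlgClosed k] (p : ℕ) [CharP k p], 3 < p →
  ∀ (X : Scheme.{u}) [IsIntegral X] [IsLocallyNoetherian X] (π : X ⟶ Spec (CommRingCat.of k)),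
    IsProjective π → IsNormalScheme X → topologicalKrullDim X = 3 →
  ∃ ω : RatForm π 3, ω ≠ 0 ∧
    ∀ (K : X → ℤ) (B : X → ℚ), LogHypotheses π ω K B → IsSemiample (fun z => (K z : ℚ) + B z)

/-- `TerminalAbundance` with "there is a non-zero form `ω` such that ..." in the place of "for all non-zero forms `ω`". -/
def TerminalAbundanceOneForm : Prop :=
  ∀ (k : Type u) [Field k] [IsAlgClosed k] (p : ℕ) [CharP k p], 3 < p →
  ∀ (X : Scheme.{u}) [IsIntegral X] [IsLocallyNoetherian X] (π : X ⟶ Spec (CommRingCat.of k)),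
    IsProjective π → IsNormalScheme X → topologicalKrullDim X = 3 → IsQFactorial X →
  ∃ ω : RatForm π 3, ω ≠ 0 ∧ ∀ K : X → ℤ, TerminalHypotheses π ω K → TerminalConclusion π K

theorem logAbundance_iff_one_form : LogAbundance.{u} ↔ LogAbundanceOneForm.{u} := by
  constructor
  · intro H k _ _ p _ hp X _ _ π hπ hX hd
    obtain ⟨ω, hω⟩ := (ratForm_three_is_a_line π hπ hd).2.1
    exact ⟨ω, hω, fun K B ⟨h1, h2, h3, h4, h5, h6, h7, h8⟩ =>
      H k p hp X π hπ hX hd ω K B h1 h2 h3 h4 h5 h6 h7 h8⟩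
  · intro H k _ _ p _ hp X _ _ π hπ hX hd ω K B h1 h2 h3 h4 h5 h6 h7 h8
    obtain ⟨ω₀, hω₀, h⟩ := H k p hp X π hπ hX hd
    have := hπ.1
    have := QuasiCompact.compactSpace_of_compactSpace π
    exact logAbundance_of_one_form hd hω₀ h ω K B ⟨h1, h2, h3, h4, h5, h6, h7, h8⟩

theorem terminalAbundance_iff_one_form : TerminalAbundance.{u} ↔ TerminalAbundanceOneForm.{u} := by
  constructor
  · intro H k _ _ p _ hp X _ _ π hπ hX hd hQ
    obtain ⟨ω, hω⟩ := (ratForm_three_is_a_line π hπ hd).2.1
    exact ⟨ω, hω, fun K ⟨h1, h2, h3, h4, h5⟩ => H k p hp X π hπ hX hd hQ ω K h1 h2 h3 h4 h5⟩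
  · intro H k _ _ p _ hp X _ _ π hπ hX hd hQ ω K h1 h2 h3 h4 h5
    obtain ⟨ω₀, hω₀, h⟩ := H k p hp X π hπ hX hd hQ
    have := hπ.1
    have := QuasiCompact.compactSpace_of_compactSpace π
    exact terminalAbundance_of_one_form hd hω₀ h ω K ⟨h1, h2, h3, h4, h5⟩

end Claimed.Open.R035
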