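import Claimed.Open.R035.SanityLocal

/-!
# Sanity checks: the order of vanishing (complements to `SanityLocal.lean`)
-/

set_option autoImplicit false

open AlgebraicGeometry CategoryTheory Order

universe u

namespace Claimed.Open.R035

variable {X : Scheme.{u}} [IsIntegral X] [IsLocallyNoetherian X]

theorem ord_nonpos_of_inv_mem {z : X} {g : X.functionField}
    (hg' : g⁻¹ ∈ stalkSubring z) : Scheme.ord g z ≤ 0 := by
  by_cases h0 : g = 0
  · subst h0
    simp
  · have h2 := ord_nonneg_of_mem hg'
    rw [ord_inv z h0] at h2
    omega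

theorem ord_prod {ι : Type*} (s : Finset ι) (g : ι → X.functionField) (hg : ∀ i ∈ s, g i ≠ 0)
    (z : X) : Scheme.ord (∏ i ∈ s, g i) z = ∑ i ∈ s, Scheme.ord (g i) z := by
  classical
  induction s using Finset.induction_on with
  | empty => simp [ord_one]
  | insert a s ha ih =>
    rw [Finset.prod_insert ha, Finset.sum_insert ha,
      Scheme.ord_mul (hg a (Finset.mem_insert_self a s))
        (Finset.prod_ne_zero_iff.mpr fun i hi => hg i (Finset.mem_insert_of_mem hi)),
      ih fun i hi => hg i (Finset.mem_insert_of_mem hi)]

end Claimed.Open.R035
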