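import Claimed.Open.R035.SanityChart
import Claimed.Open.R035.SanityOrd

/-!
# Sanity check: `(ℙ¹)³` is (`ℚ`-)factorial

For a `CubeAtlas A` every Weil divisor is Cartier, so `IsQFactorial A.X` holds: the charts are
spectra of unique factorisation domains, in which every prime ideal of height one is principal.
-/

set_option autoImplicit false

open AlgebraicGeometry CategoryTheory Order

universe u

namespace Claimed.Open.R035

section Ord

variable {X : Scheme.{u}} [IsIntegral X] [IsLocallyNoetherian X]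

theorem ord_pow {g : X.functionField} (hg : g ≠ 0) (n : ℕ) (z : X) :
    Scheme.ord (g ^ n) z = n * Scheme.ord g z := by
  induction n with
  | zero => simp [ord_one]
  | succ n ih =>
    rw [pow_succ, Scheme.ord_mul (pow_ne_zero n hg) hg, ih]
    push_cast
    ring

theorem ord_zpow {g : X.functionField} (hg : g ≠ 0) (n : ℤ) (z : X) :
    Scheme.ord (g ^ n) z = n * Scheme.ord g z := by
  cases n with
  | ofNat n => simpa using ord_pow hg n z
  | negSucc n =>
    rw [zpow_negSucc, ord_inv z (pow_ne_zero _ hg), ord_pow hg, Int.negSucc_eq]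
    push_cast
    ring

end Ord

namespace CubeAtlas

variable {k : Type u} [Field k] {A : CubeAtlas k}

/-- A prime ideal of height one of the polynomial ring is generated by a prime element. -/
theorem exists_prime_generator (𝔭 : PrimeSpectrum (MvPolynomial (Fin 3) k))
    (h : 𝔭.asIdeal.height = 1) :
    ∃ f : MvPolynomial (Fin 3) k, Prime f ∧ 𝔭.asIdeal = Ideal.span {f} := by
  obtain ⟨f, hf, hfp⟩ := 𝔭.isPrime.exists_mem_prime_of_ne_bot (Ideal.ne_bot_of_height_eq_one h)
  exact ⟨f, hfp, Ideal.eq_span_singleton_of_height_eq_one h hf hfp⟩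

open Classical in
/-- Every prime divisor `z` has, in every chart, an equation: a regular function on the chart whose
divisor on the chart is `z`. -/
theorem exists_equation (ε : Fin 3 → Bool) (z : A.X) (hz : coheight z = 1) :
    ∃ g : A.X.functionField, g ≠ 0 ∧ ∀ z' ∈ A.U ε, coheight z' = 1 →
      Scheme.ord g z' = if z' = z then 1 else 0 := by
  by_cases hzU : z ∈ A.U ε
  · obtain ⟨𝔭, rfl⟩ := exists_pt hzU
    have h𝔭 : 𝔭.asIdeal.height = 1 := coheight_pt.symm.trans hz
    obtain ⟨f, hf, hspan⟩ := exists_prime_generator 𝔭 h𝔭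
    refine ⟨A.ι ε f, ι_ne_zero hf.ne_zero, fun z' hz'U hz' => ?_⟩
    obtain ⟨𝔮, rfl⟩ := exists_pt hz'U
    have h𝔮 : 𝔮.asIdeal.height = 1 := coheight_pt.symm.trans hz'
    by_cases hmem : f ∈ 𝔮.asIdeal
    · have : 𝔮 = 𝔭 := PrimeSpectrum.ext
        ((Ideal.eq_span_singleton_of_height_eq_one h𝔮 hmem hf).trans hspan.symm)
      rw [this, if_pos rfl]
      exact ord_ι_of_prime hf h𝔭 (hspan ▸ Ideal.mem_span_singleton_self f)
    · rw [ord_ι_of_notMem hmem, if_neg]
      intro h
      apply hmem
      rw [pt_injective ε h, hspan]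
      exact Ideal.mem_span_singleton_self f
  · refine ⟨1, one_ne_zero, fun z' hz'U _ => ?_⟩
    rw [ord_one, if_neg]
    rintro rfl
    exact hzU hz'U

open Classical in
/-- **Every Weil divisor on `(ℙ¹)³` is Cartier.** -/
theorem isCartierDivisor_of_isWeilDivisor {D : A.X → ℤ} (hD : IsWeilDivisor D) :
    IsCartierDivisor D := by
  refine ⟨hD, fun p => ?_⟩
  obtain ⟨ε, hε⟩ := A.cover p
  have hex : ∀ z : A.X, ∃ g : A.X.functionField, g ≠ 0 ∧ (D z ≠ 0 → ∀ z' ∈ A.U ε,
      coheight z' = 1 → Scheme.ord g z' = if z' = z then 1 else 0) := by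
    intro z
    by_cases hz : D z = 0
    · exact ⟨1, one_ne_zero, fun h => absurd hz h⟩
    · obtain ⟨g, hg, hg'⟩ := exists_equation (A := A) ε z (hD.2 z hz)
      exact ⟨g, hg, fun _ => hg'⟩
  choose g hg hg' using hex
  refine ⟨∏ z ∈ hD.1.toFinset, g z ^ D z,
    Finset.prod_ne_zero_iff.mpr fun z _ => zpow_ne_zero _ (hg z), fun z' hz' hz'p => ?_⟩
  have hz'U : z' ∈ A.U ε := mem_of_specializes hz'p hε
  rw [ord_prod _ _ fun z _ => zpow_ne_zero _ (hg z)]
  have h1 : ∀ z ∈ hD.1.toFinset, Scheme.ord (g z ^ D z) z' = if z' = z then D z' else 0 := by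
    intro z hz
    have hz0 : D z ≠ 0 := by simpa using hz
    rw [ord_zpow (hg z), hg' z hz0 z' hz'U hz']
    split_ifs with h
    · rw [h, mul_one]
    · rw [mul_zero]
  rw [Finset.sum_congr rfl h1, Finset.sum_ite_eq]
  split_ifs with h
  · rfl
  · have : D z' = 0 := by simpa using h
    exact this.symm

/-- **`(ℙ¹)³` is `ℚ`-factorial.** -/
theorem isQFactorial (A : CubeAtlas k) : IsQFactorial A.X := fun D hD =>
  ⟨1, D, ⟨one_pos, fun z => by simp⟩, isCartierDivisor_of_isWeilDivisor hD⟩

end CubeAtlas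

end Claimed.Open.R035
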