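import Claimed.Open.R035.SanityAmple
import Claimed.Open.R035.SanityQFactorial

/-!
# Sanity check: global sections, Iitaka dimension, a divisor that is not semiample

For a `CubeAtlas A` (that is, `X = (ℙ¹)³`) we compute the global sections of
`𝒪_X(∑ᵢ aᵢ {xᵢ = ∞})`: they are the polynomials in `x₀, x₁, x₂` of degree at most `aᵢ` in `xᵢ`.
Consequences, for the definitions of `Statement.lean`:

* no positive multiple of `K_X` has a nonzero section: `κ(X, K_X) = -∞`
  (`CubeAtlas.iitakaDim_Kdiv`), and `K_X` is **not** semiample (`CubeAtlas.not_isSemiample_Kdiv`);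
* `κ(X, K_X + B) = 1` for the pair of `Sanity.lean` (`CubeAtlas.iitakaDim_eq_one`);
* `κ(X, H) = 3` for the ample divisor `H` (`CubeAtlas.iitakaDim_Hdiv`).
-/

set_option autoImplicit false

open AlgebraicGeometry CategoryTheory Order

universe u

namespace Claimed.Open.R035

/-! ### Reversal of a polynomial in one of its variables -/

section Reversal

variable {k : Type u} [Field k]

/-- The exponent `m` with its `i`-th entry replaced by `d - m i`. -/
noncomputable def revExp (i : Fin 3) (d : ℕ) (m : Fin 3 →₀ ℕ) : Fin 3 →₀ ℕ := m.update i (d - m i)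

theorem revExp_self (i : Fin 3) (d : ℕ) (m : Fin 3 →₀ ℕ) : revExp i d m i = d - m i := by
  simp [revExp]

theorem revExp_of_ne {i j : Fin 3} (h : j ≠ i) (d : ℕ) (m : Fin 3 →₀ ℕ) :
    revExp i d m j = m j := by
  simp [revExp, Function.update_of_ne h]

theorem revExp_injOn {i : Fin 3} {d : ℕ} {m m' : Fin 3 →₀ ℕ} (hm : m i ≤ d) (hm' : m' i ≤ d)
    (h : revExp i d m = revExp i d m') : m = m' := by
  ext j
  have hj := DFunLike.congr_fun h j
  by_cases hji : j = i
  · subst hji
    rw [revExp_self, revExp_self] at hj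
    omega
  · rwa [revExp_of_ne hji, revExp_of_ne hji] at hj

/-- `x_i ^ (deg_i P) * P(…, 1 / x_i, …)`. -/
noncomputable def rev (i : Fin 3) (P : MvPolynomial (Fin 3) k) : MvPolynomial (Fin 3) k :=
  ∑ m ∈ P.support, MvPolynomial.monomial (revExp i (P.degreeOf i) m) (P.coeff m)

theorem not_X_dvd_rev (i : Fin 3) {P : MvPolynomial (Fin 3) k} (hP : P ≠ 0) :
    ¬ MvPolynomial.X i ∣ rev i P := by
  classical
  rintro ⟨Q, hQ⟩
  have hne : P.support.Nonempty := MvPolynomial.support_nonempty.mpr hP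
  obtain ⟨m₀, hm₀, hd⟩ := Finset.exists_mem_eq_sup P.support hne fun m => m i
  rw [← MvPolynomial.degreeOf_eq_sup] at hd
  have h1 : (rev i P).coeff (revExp i (P.degreeOf i) m₀) = P.coeff m₀ := by
    unfold rev
    rw [MvPolynomial.coeff_sum, Finset.sum_eq_single m₀]
    · rw [MvPolynomial.coeff_monomial, if_pos rfl]
    · intro m hm hne
      rw [MvPolynomial.coeff_monomial, if_neg]
      intro h
      exact hne (revExp_injOn (MvPolynomial.monomial_le_degreeOf i hm)
        (MvPolynomial.monomial_le_degreeOf i hm₀) h)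
    · intro h
      exact absurd hm₀ h
  rw [hQ, MvPolynomial.coeff_X_mul', if_neg] at h1
  · exact (MvPolynomial.mem_support_iff.mp hm₀) h1.symm
  · rw [Finsupp.mem_support_iff, revExp_self, hd]
    simp

end Reversal

/-! ### Transcendence degree of a simple extension -/

section Trdeg

variable {k : Type u} [Field k] {F : Type u} [Field F] [Algebra k F]

open IntermediateField.algebraAdjoinAdjoin in
theorem trdeg_adjoin_simple_le (x : F) :
    Algebra.trdeg k (IntermediateField.adjoin k {x}) ≤ 1 := by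
  rw [← _root_.trdeg_add_eq k (Algebra.adjoin k {x}) (A := IntermediateField.adjoin k {x}),
    (trdeg_eq_zero_iff (R := Algebra.adjoin k {x}) (A := IntermediateField.adjoin k {x})).2
      inferInstance, add_zero]
  let f : Polynomial k →ₐ[k] Algebra.adjoin k {x} :=
    (Polynomial.aeval x).codRestrict _ fun p => by
      rw [Algebra.adjoin_singleton_eq_range_aeval]
      exact ⟨p, rfl⟩
  have hs : Function.Surjective f := by
    rintro ⟨y, hy⟩
    have hy' := hy
    rw [Algebra.adjoin_singleton_eq_range_aeval] at hy'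
    obtain ⟨p, rfl⟩ := hy'
    exact ⟨p, rfl⟩
  have h := trdeg_le_of_surjective f hs
  rwa [Polynomial.trdeg_of_isDomain] at h

/-- Two elements of `k(x)` are algebraically dependent over `k`. -/
theorem not_algebraicIndependent_of_mem_adjoin_simple {x : F} {t : Fin 2 → F}
    (ht : ∀ i, t i ∈ IntermediateField.adjoin k {x}) : ¬ AlgebraicIndependent k t := by
  intro h
  let t' : Fin 2 → IntermediateField.adjoin k {x} := fun i => ⟨t i, ht i⟩
  have h' : AlgebraicIndependent k t' :=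
    AlgebraicIndependent.of_comp (IntermediateField.adjoin k {x}).val h
  have h1 := h'.lift_cardinalMk_le_trdeg
  have h2 := trdeg_adjoin_simple_le (k := k) x
  simp at h1
  have h3 := h1.trans h2
  norm_num at h3

end Trdeg

/-! ### First properties of `IitakaDimGE` -/

section General

variable {k : Type u} [Field k] {X : Scheme.{u}} [IsIntegral X] [IsLocallyNoetherian X]

theorem IitakaDimGE.mono {π : X ⟶ Spec (CommRingCat.of k)} {L : X → ℚ} {r r' : ℕ} (h : r' ≤ r)
    (hr : IitakaDimGE π L r) : IitakaDimGE π L r' := by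
  let _ := fnFieldAlgebra π
  obtain ⟨m, D, s, t, hm, hs0, hs, ht, hind⟩ := hr
  exact ⟨m, D, s, t ∘ Fin.castLE h, hm, hs0, hs, fun i => ht _,
    hind.comp _ (Fin.castLE_injective h)⟩

/-- If `κ(X, L) ≥ r` holds exactly for `r ≤ d`, then `κ(X, L) = d`. -/
theorem iitakaDim_eq_of_iff {π : X ⟶ Spec (CommRingCat.of k)} {L : X → ℚ} {d : ℕ}
    (h1 : IitakaDimGE π L d) (h2 : ¬ IitakaDimGE π L (d + 1)) :
    iitakaDim π L = ((d : ℕ∞) : WithBot ℕ∞) := by
  refine le_antisymm (iSup₂_le fun r hr => ?_) (le_iSup₂_of_le d h1 le_rfl)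
  have hrd : r ≤ d := by
    by_contra hlt
    exact h2 (hr.mono (by omega))
  exact_mod_cast hrd

/-- If no positive multiple of `L` has a nonzero section, then `κ(X, L) = -∞`. -/
theorem iitakaDim_eq_bot {π : X ⟶ Spec (CommRingCat.of k)} {L : X → ℚ}
    (h : ∀ (m : ℕ) (D : X → ℤ) (s : X.functionField), IsMultiple m L D → IsSection D s → s = 0) :
    iitakaDim π L = ⊥ := by
  refine iSup_eq_bot.mpr fun r => iSup_eq_bot.mpr fun hr => ?_
  obtain ⟨m, D, s, t, hm, hs0, hs, -⟩ := hr
  exact absurd (h m D s hm hs) hs0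

end General

namespace CubeAtlas

variable {k : Type u} [Field k] {A : CubeAtlas k}

noncomputable section

/-! ### Regular functions on a chart -/

/-- The prime ideal generated by a prime element. -/
def primeOf {f : MvPolynomial (Fin 3) k} (hf : Prime f) :
    PrimeSpectrum (MvPolynomial (Fin 3) k) :=
  ⟨Ideal.span {f}, (Ideal.span_singleton_prime hf.ne_zero).mpr hf⟩

theorem height_primeOf {f : MvPolynomial (Fin 3) k} (hf : Prime f) :
    (primeOf hf).asIdeal.height = 1 :=
  Ideal.height_span_singleton_eq_one_of_mem_nonZeroDivisors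
    (mem_nonZeroDivisors_of_ne_zero hf.ne_zero) hf.not_isUnit

theorem mem_primeOf_iff {f g : MvPolynomial (Fin 3) k} (hf : Prime f) :
    g ∈ (primeOf hf).asIdeal ↔ f ∣ g := Ideal.mem_span_singleton

theorem ord_div {g h : A.X.functionField} (hg : g ≠ 0) (hh : h ≠ 0) (z : A.X) :
    Scheme.ord (g / h) z = Scheme.ord g z - Scheme.ord h z := by
  rw [div_eq_mul_inv, Scheme.ord_mul hg (inv_ne_zero hh), ord_inv z hh, sub_eq_add_neg]

theorem dvd_of_ord_nonneg (ε : Fin 3 → Bool) (b : MvPolynomial (Fin 3) k) :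
    b ≠ 0 → ∀ a : MvPolynomial (Fin 3) k, a ≠ 0 →
      (∀ z ∈ A.U ε, coheight z = 1 → 0 ≤ Scheme.ord (A.ι ε a / A.ι ε b) z) → b ∣ a := by
  induction b using UniqueFactorizationMonoid.induction_on_prime with
  | h₁ => exact fun h => absurd rfl h
  | h₂ b hb => exact fun _ a _ _ => hb.dvd
  | h₃ b p hb0 hp ih =>
    intro _ a ha h
    have h1 := h (A.pt ε (primeOf hp)) (pt_mem _ _) (coheight_pt.trans (height_primeOf hp))
    rw [ord_div (ι_ne_zero ha) (ι_ne_zero (mul_ne_zero hp.ne_zero hb0)), map_mul,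
      Scheme.ord_mul (ι_ne_zero hp.ne_zero) (ι_ne_zero hb0),
      ord_ι_of_prime hp (height_primeOf hp) ((mem_primeOf_iff hp).mpr dvd_rfl)] at h1
    have h2 : 0 ≤ Scheme.ord (A.ι ε b) (A.pt ε (primeOf hp)) := ord_ι_nonneg b
    have h3 : p ∣ a := by
      by_contra hpa
      rw [ord_ι_of_notMem (fun hmem => hpa ((mem_primeOf_iff hp).mp hmem))] at h1
      omega
    obtain ⟨a', rfl⟩ := h3
    have ha' : a' ≠ 0 := right_ne_zero_of_mul ha
    refine mul_dvd_mul_left p (ih hb0 a' ha' fun z hzU hz => ?_)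
    have := h z hzU hz
    rwa [map_mul, map_mul, mul_div_mul_left _ _ (ι_ne_zero hp.ne_zero)] at this

/-- **Hartogs on a chart**: a rational function without poles on the chart `U ε` is a polynomial in
the coordinates of the chart. -/
theorem exists_eq_ι_of_ord_nonneg (ε : Fin 3 → Bool) (s : A.X.functionField)
    (h : ∀ z ∈ A.U ε, coheight z = 1 → 0 ≤ Scheme.ord s z) : ∃ P, s = A.ι ε P := by
  obtain ⟨a, b, hb, rfl⟩ := exists_ι_div ε s
  by_cases ha : a = 0
  · exact ⟨0, by simp [ha]⟩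
  · obtain ⟨P, rfl⟩ := dvd_of_ord_nonneg ε b hb a ha h
    exact ⟨P, by rw [map_mul, mul_div_cancel_left₀ _ (ι_ne_zero hb)]⟩

/-! ### The divisors at infinity -/

/-- The chart on which all the `x j` are regular. -/
def tt : Fin 3 → Bool := fun _ => true

/-- The chart with the coordinates `(x i)⁻¹` and `x j`, `j ≠ i`. -/
def fl' (i : Fin 3) : Fin 3 → Bool := fun j => decide (j ≠ i)

variable (A) in
/-- The generic point of the divisor `{x i = ∞}`. -/
def ptInf (i : Fin 3) : A.X := A.pt (fl' i) (primeOf (prime_X' i))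

theorem coheight_ptInf (i : Fin 3) : coheight (A.ptInf i) = 1 :=
  coheight_pt.trans (height_primeOf _)

theorem u_tt (j : Fin 3) : A.u tt j = A.x j := by simp [u, tt]

theorem u_fl'_self (i : Fin 3) : A.u (fl' i) i = (A.x i)⁻¹ := by simp [u, fl']

theorem u_fl'_of_ne {i j : Fin 3} (h : j ≠ i) : A.u (fl' i) j = A.x j := by simp [u, fl', h]

theorem ord_x_ptInf_self (i : Fin 3) : Scheme.ord (A.x i) (A.ptInf i) = -1 := by
  have h := ord_ι_of_prime (A := A) (ε := fl' i) (prime_X' (k := k) i)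
    (height_primeOf (prime_X' i)) ((mem_primeOf_iff (prime_X' i)).mpr dvd_rfl)
  rw [A.ι_X, u_fl'_self, ord_inv _ (A.x_ne_zero i)] at h
  unfold ptInf
  omega

theorem ord_x_ptInf_of_ne {i j : Fin 3} (h : j ≠ i) : Scheme.ord (A.x j) (A.ptInf i) = 0 := by
  have h1 := ord_ι_of_notMem (A := A) (ε := fl' i) (𝔭 := primeOf (prime_X' (k := k) i))
    (a := MvPolynomial.X j) (fun hmem => h (MvPolynomial.X_dvd_X.mp
      ((mem_primeOf_iff _).mp hmem)).symm)
  rwa [A.ι_X, u_fl'_of_ne h] at h1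

theorem ι_monomial (ε : Fin 3 → Bool) (m : Fin 3 →₀ ℕ) (c : k) :
    A.ι ε (MvPolynomial.monomial m c) =
      algebraMap k A.X.functionField c * ∏ j, A.u ε j ^ m j := by
  rw [ι_eq_aeval, MvPolynomial.aeval_monomial, Finsupp.prod_fintype _ _ fun _ => pow_zero _]

theorem ι_rev (i : Fin 3) (P : MvPolynomial (Fin 3) k) :
    A.ι (fl' i) (rev i P) = (A.x i)⁻¹ ^ P.degreeOf i * A.ι tt P := by
  have hsum : A.ι tt P = ∑ m ∈ P.support, A.ι tt (MvPolynomial.monomial m (P.coeff m)) := by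
    rw [← map_sum, ← P.as_sum]
  unfold rev
  rw [hsum, map_sum, Finset.mul_sum]
  refine Finset.sum_congr rfl fun m hm => ?_
  have hmd : m i ≤ P.degreeOf i := MvPolynomial.monomial_le_degreeOf i hm
  rw [ι_monomial, ι_monomial, ← Finset.mul_prod_erase Finset.univ _ (Finset.mem_univ i),
    ← Finset.mul_prod_erase Finset.univ (fun j => A.u tt j ^ m j) (Finset.mem_univ i),
    revExp_self, u_fl'_self, u_tt]
  have h1 : ∏ j ∈ Finset.univ.erase i, A.u (fl' i) j ^ revExp i (P.degreeOf i) m j =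
      ∏ j ∈ Finset.univ.erase i, A.u tt j ^ m j := by
    refine Finset.prod_congr rfl fun j hj => ?_
    have hji : j ≠ i := Finset.ne_of_mem_erase hj
    rw [revExp_of_ne hji, u_fl'_of_ne hji, u_tt]
  have h2 : (A.x i)⁻¹ ^ P.degreeOf i * A.x i ^ m i = (A.x i)⁻¹ ^ (P.degreeOf i - m i) := by
    obtain ⟨e, he⟩ := Nat.exists_eq_add_of_le hmd
    rw [he, Nat.add_sub_cancel_left, add_comm, pow_add, mul_assoc, ← mul_pow,
      inv_mul_cancel₀ (A.x_ne_zero i), one_pow, mul_one]
  rw [h1, ← h2]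
  ring

/-- A polynomial of degree `d` in `x i` has a pole of order `d` along `{x i = ∞}`. -/
theorem ord_ι_ptInf (i : Fin 3) {P : MvPolynomial (Fin 3) k} (hP : P ≠ 0) :
    Scheme.ord (A.ι tt P) (A.ptInf i) = - (P.degreeOf i : ℤ) := by
  have h1 := ord_ι_of_notMem (A := A) (ε := fl' i) (𝔭 := primeOf (prime_X' (k := k) i))
    (a := rev i P) (fun hmem => not_X_dvd_rev i hP ((mem_primeOf_iff _).mp hmem))
  have hx : (A.x i)⁻¹ ≠ 0 := inv_ne_zero (A.x_ne_zero i)
  rw [ι_rev, Scheme.ord_mul (pow_ne_zero _ hx) (ι_ne_zero hP), ord_pow hx,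
    ord_inv _ (A.x_ne_zero i)] at h1
  have h2 := ord_x_ptInf_self (A := A) i
  unfold ptInf at h2 ⊢
  rw [h2] at h1
  linarith

/-- **The global sections of `𝒪(∑ᵢ aᵢ {xᵢ = ∞})`** are the polynomials in `x₀, x₁, x₂` of degree at
most `aᵢ` in `xᵢ`. -/
theorem exists_polynomial_of_section {a : Fin 3 → ℤ} {s : A.X.functionField} (hs : s ≠ 0)
    (h : ∀ z : A.X, coheight z = 1 →
      0 ≤ Scheme.ord s z + ∑ i, a i * max (- Scheme.ord (A.x i) z) 0) :
    ∃ P : MvPolynomial (Fin 3) k, P ≠ 0 ∧ s = A.ι tt P ∧ ∀ i, (P.degreeOf i : ℤ) ≤ a i := by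
  obtain ⟨P, rfl⟩ := exists_eq_ι_of_ord_nonneg tt s fun z hzU hz => by
    have h1 := h z hz
    have h2 : ∑ i, a i * max (- Scheme.ord (A.x i) z) 0 = 0 := by
      refine Finset.sum_eq_zero fun i _ => ?_
      have h3 : 0 ≤ Scheme.ord (A.x i) z := by
        rw [← u_tt]
        exact ord_nonneg_of_mem (A.u_mem tt hzU i)
      rw [max_eq_right (by omega), mul_zero]
    rwa [h2, add_zero] at h1
  have hP : P ≠ 0 := fun h0 => hs (by rw [h0, map_zero])
  refine ⟨P, hP, rfl, fun i => ?_⟩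
  have h1 := h (A.ptInf i) (coheight_ptInf i)
  rw [ord_ι_ptInf i hP, Finset.sum_eq_single i] at h1
  · rw [ord_x_ptInf_self] at h1
    simp at h1
    linarith
  · intro j _ hji
    rw [ord_x_ptInf_of_ne hji]
    simp
  · intro h0
    exact absurd (Finset.mem_univ i) h0

/-! ### The canonical divisor: no sections, not semiample -/

/-- No positive multiple of `K_X` has a nonzero global section. -/
theorem eq_zero_of_isSection_Kdiv {m : ℕ} {D : A.X → ℤ} {s : A.X.functionField}
    (hm : IsMultiple m (fun z => (A.Kdiv z : ℚ)) D) (hs : IsSection D s) : s = 0 := by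
  by_contra hs0
  have hD : ∀ z, D z = m * A.Kdiv z := fun z => by
    have h0 : (D z : ℚ) = m * (A.Kdiv z : ℚ) := hm.2 z
    exact_mod_cast h0
  obtain ⟨P, -, -, hdeg⟩ := exists_polynomial_of_section (a := fun _ => -(m : ℤ)) hs0
    fun z hz => by
      have h1 := hs hs0 z hz
      rw [hD] at h1
      have h2 : ∑ i, max (- Scheme.ord (A.x i) z) 0 ≤ ∑ i, |Scheme.ord (A.x i) z| :=
        Finset.sum_le_sum fun i _ => max_le (neg_le_abs _) (abs_nonneg _)
      have h3 : (m : ℤ) * ∑ i, max (- Scheme.ord (A.x i) z) 0 ≤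
          m * ∑ i, |Scheme.ord (A.x i) z| := mul_le_mul_of_nonneg_left h2 (Int.natCast_nonneg m)
      rw [← Finset.mul_sum]
      unfold Kdiv at h1
      linarith
  have h1 := hdeg 0
  have h2 := hm.1
  omega

/-- **A non-example:** the canonical divisor of `(ℙ¹)³` is not semiample. -/
theorem not_isSemiample_Kdiv (A : CubeAtlas k) : ¬ IsSemiample (fun z => (A.Kdiv z : ℚ)) := by
  rintro ⟨m, D, hm, -, hgg⟩
  obtain ⟨s, hs, hs0, -⟩ := hgg (genericPoint A.X)
  exact hs0 (eq_zero_of_isSection_Kdiv hm hs)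

/-- `κ((ℙ¹)³, K) = -∞`. -/
theorem iitakaDim_Kdiv (A : CubeAtlas k) : iitakaDim A.π (fun z => (A.Kdiv z : ℚ)) = ⊥ :=
  iitakaDim_eq_bot fun _ _ _ hm hs => eq_zero_of_isSection_Kdiv hm hs

/-! ### The fibre `K + B = {x₀ = 1}`: Iitaka dimension one -/

/-- `{x₀ = 1} = div (x₀ - 1) + {x₀ = ∞}`. -/
theorem Sdiv_eq (z : A.X) :
    A.Sdiv z = Scheme.ord (A.x 0 - 1) z + max (- Scheme.ord (A.x 0) z) 0 := by
  unfold Sdiv
  by_cases h : A.x 0 ∈ stalkSubring z
  · have h1 := ord_nonneg_of_mem h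
    have h2 := ord_nonneg_of_mem (sub_mem h (one_mem _))
    rw [max_eq_left h2, max_eq_right (by omega), add_zero]
  · have h1 : (A.x 0)⁻¹ ∈ stalkSubring z := (A.x_mem_or_inv_mem z 0).resolve_left h
    have h2 : (1 - (A.x 0)⁻¹)⁻¹ ∈ stalkSubring z :=
      inv_one_sub_mem_stalkSubring h1 (by rwa [inv_inv])
    have h3 : 1 - (A.x 0)⁻¹ ∈ stalkSubring z := sub_mem (one_mem _) h1
    have hx := A.x_ne_zero 0
    have h4 : 1 - (A.x 0)⁻¹ ≠ 0 := by
      intro h0
      apply A.x_sub_one_ne_zero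
      field_simp at h0
      simpa using h0
    have h5 : A.x 0 - 1 = A.x 0 * (1 - (A.x 0)⁻¹) := by field_simp
    rw [h5, Scheme.ord_mul hx h4, ord_eq_zero_of_unit h3 h2, add_zero]
    have h6 := ord_nonneg_of_mem h1
    rw [ord_inv z hx] at h6
    rw [max_eq_right (by omega), max_eq_left h6]
    omega

theorem ι_tt_mem_adjoin {P : MvPolynomial (Fin 3) k} (h1 : P.degreeOf 1 = 0)
    (h2 : P.degreeOf 2 = 0) : A.ι tt P ∈ IntermediateField.adjoin k {A.x 0} := by
  have hsum : A.ι tt P = ∑ m ∈ P.support, A.ι tt (MvPolynomial.monomial m (P.coeff m)) := by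
    rw [← map_sum, ← P.as_sum]
  rw [hsum]
  refine sum_mem fun m hm => ?_
  have e1 : m 1 = 0 := Nat.le_zero.mp (h1 ▸ MvPolynomial.monomial_le_degreeOf 1 hm)
  have e2 : m 2 = 0 := Nat.le_zero.mp (h2 ▸ MvPolynomial.monomial_le_degreeOf 2 hm)
  rw [ι_monomial, Fin.prod_univ_three, e1, e2, pow_zero, pow_zero, mul_one, mul_one, u_tt]
  exact mul_mem (IntermediateField.algebraMap_mem _ _)
    (pow_mem (IntermediateField.mem_adjoin_simple_self k _) _)

/-- The sections of the multiples of the fibre `{x₀ = 1}` are rational functions of `x₀`. -/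
theorem mem_adjoin_of_isSection_Sdiv {m : ℕ} {D : A.X → ℤ} {s : A.X.functionField}
    (hD : ∀ z, D z = m * A.Sdiv z) (hs : IsSection D s) :
    s ∈ IntermediateField.adjoin k {A.x 0} := by
  by_cases hs0 : s = 0
  · rw [hs0]
    exact zero_mem _
  have hx1 : (A.x 0 - 1) ^ m ≠ 0 := pow_ne_zero _ A.x_sub_one_ne_zero
  obtain ⟨P, -, hP, hdeg⟩ := exists_polynomial_of_section (a := ![(m : ℤ), 0, 0])
    (s := s * (A.x 0 - 1) ^ m) (mul_ne_zero hs0 hx1) fun z hz => by
      have h1 := hs hs0 z hz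
      rw [hD, Sdiv_eq] at h1
      rw [Scheme.ord_mul hs0 hx1, ord_pow A.x_sub_one_ne_zero, Fin.sum_univ_three]
      simp only [Matrix.cons_val_zero, Matrix.cons_val_one, Matrix.cons_val, zero_mul, add_zero]
      linarith
  have h1 : P.degreeOf 1 = 0 := by
    have := hdeg 1
    simp at this
    exact this
  have h2 : P.degreeOf 2 = 0 := by
    have := hdeg 2
    simp at this
    exact this
  have h3 : s = A.ι tt P / (A.x 0 - 1) ^ m := by rw [← hP, mul_div_cancel_right₀ _ hx1]
  rw [h3]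
  exact div_mem (ι_tt_mem_adjoin h1 h2) (pow_mem (sub_mem
    (IntermediateField.mem_adjoin_simple_self k _) (one_mem _)) _)

theorem transcendental_inv_x_sub_one : Transcendental k (A.x 0 - 1)⁻¹ := by
  intro h
  have h1 : IsAlgebraic k (A.x 0 - 1) := by simpa using h.inv
  have h2 : IsAlgebraic k (A.x 0) := by simpa using h1.add isAlgebraic_one
  have h3 := (A.algebraicIndependent_u tt).transcendental 0
  rw [u_tt] at h3
  exact h3 h2

theorem iitakaDimGE_one (A : CubeAtlas k) :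
    IitakaDimGE A.π (fun z => (A.Kdiv z : ℚ) + A.Bdiv z) 1 :=
  ⟨1, A.Sdiv, 1, fun _ => (A.x 0 - 1)⁻¹, A.isMultiple_Sdiv, one_ne_zero, isSection_one_Sdiv,
    fun _ => by simpa using isSection_inv_Sdiv,
    algebraicIndependent_unique_type_iff.mpr transcendental_inv_x_sub_one⟩

theorem not_iitakaDimGE_two (A : CubeAtlas k) :
    ¬ IitakaDimGE A.π (fun z => (A.Kdiv z : ℚ) + A.Bdiv z) 2 := by
  rintro ⟨m, D, s, t, hm, hs0, hs, ht, hind⟩
  have hD : ∀ z, D z = m * A.Sdiv z := fun z => by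
    have h0 : (D z : ℚ) = m * ((A.Kdiv z : ℚ) + A.Bdiv z) := hm.2 z
    rw [A.Kdiv_add_Bdiv] at h0
    exact_mod_cast h0
  refine not_algebraicIndependent_of_mem_adjoin_simple (x := A.x 0) (fun i => ?_) hind
  have h1 : t i = t i * s / s := by rw [mul_div_cancel_right₀ _ hs0]
  rw [h1]
  exact div_mem (mem_adjoin_of_isSection_Sdiv hD (ht i)) (mem_adjoin_of_isSection_Sdiv hD hs)

/-- **`κ(X, K_X + B) = 1`** for the example of `Sanity.lean`. -/
theorem iitakaDim_eq_one (A : CubeAtlas k) :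
    iitakaDim A.π (fun z => (A.Kdiv z : ℚ) + A.Bdiv z) = 1 :=
  iitakaDim_eq_of_iff A.iitakaDimGE_one A.not_iitakaDimGE_two

/-! ### The ample divisor `H`: Iitaka dimension three -/

theorem trdeg_functionField_le (A : CubeAtlas k) : Algebra.trdeg k A.X.functionField ≤ 3 := by
  have halg : Algebra.IsAlgebraic (Algebra.adjoin k (Set.range (A.u tt))) A.X.functionField := by
    refine ⟨fun g => ?_⟩
    obtain ⟨p, q, rfl⟩ := A.exists_fraction tt g
    have hmem : ∀ r : MvPolynomial (Fin 3) k,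
        MvPolynomial.aeval (A.u tt) r ∈ Algebra.adjoin k (Set.range (A.u tt)) := fun r => by
      rw [Algebra.adjoin_range_eq_range_aeval]
      exact ⟨r, rfl⟩
    have h1 : ∀ r : MvPolynomial (Fin 3) k, IsAlgebraic (Algebra.adjoin k (Set.range (A.u tt)))
        (MvPolynomial.aeval (A.u tt) r) := fun r =>
      isAlgebraic_algebraMap (⟨_, hmem r⟩ : Algebra.adjoin k (Set.range (A.u tt)))
    rw [div_eq_mul_inv]
    exact (h1 p).mul (h1 q).inv
  refine (Algebra.IsAlgebraic.trdeg_le_cardinalMk k (Set.range (A.u tt))).trans ?_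
  have h := Cardinal.mk_range_le_lift (f := A.u tt)
  simpa using h

theorem iitakaDimGE_Hdiv (A : CubeAtlas k) : IitakaDimGE A.π (fun z => (A.Hdiv z : ℚ)) 3 := by
  have hnn : ∀ (z : A.X) (i : Fin 3), 0 ≤ max (- Scheme.ord (A.x i) z) 0 :=
    fun z i => le_max_right _ _
  refine ⟨1, A.Hdiv, 1, A.x, ⟨one_pos, fun z => by simp⟩, one_ne_zero, fun _ z _ => ?_,
    fun i _ z _ => ?_, ?_⟩
  · rw [ord_one, zero_add]
    exact Finset.sum_nonneg fun i _ => hnn z i
  · rw [mul_one]
    have h1 : max (- Scheme.ord (A.x i) z) 0 ≤ A.Hdiv z :=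
      Finset.single_le_sum (f := fun i => max (- Scheme.ord (A.x i) z) 0)
        (fun j _ => hnn z j) (Finset.mem_univ i)
    have h2 : - Scheme.ord (A.x i) z ≤ max (- Scheme.ord (A.x i) z) 0 := le_max_left _ _
    omega
  · have h := A.algebraicIndependent_u tt
    have hu : A.u tt = A.x := funext u_tt
    rwa [hu] at h

theorem not_iitakaDimGE_four (A : CubeAtlas k) (L : A.X → ℚ) : ¬ IitakaDimGE A.π L 4 := by
  rintro ⟨m, D, s, t, -, -, -, -, hind⟩
  have h1 := hind.lift_cardinalMk_le_trdeg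
  have h2 := A.trdeg_functionField_le
  simp at h1
  have h3 := h1.trans h2
  norm_num at h3

/-- **`κ(X, H) = 3`** for the ample divisor `H` of `(ℙ¹)³`. -/
theorem iitakaDim_Hdiv (A : CubeAtlas k) : iitakaDim A.π (fun z => (A.Hdiv z : ℚ)) = 3 :=
  iitakaDim_eq_of_iff A.iitakaDimGE_Hdiv (A.not_iitakaDimGE_four _)

end

end CubeAtlas

end Claimed.Open.R035
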