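import Claimed.Open.R035.SanityTerminal
import Claimed.Open.R035.SanityQFactorial

/-!
# Sanity check: the two conjuncts of `Statement` fit together

The log paper says of its Theorem 1.1: "Neither terminality nor `ℚ`-factoriality of `X` is required".
So the semiampleness asserted by the companion's Theorem 1.1 must be the case `B = 0` of the log
theorem.  This file checks that the Lean definitions agree with this, for **every** scheme `X`:

* `IsTerminal.isLogCanonical` : if `X` is normal, `K = div ω` is `ℚ`-Cartier and `X` is terminal in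
  the sense of `IsTerminal`, then `(X, 0)` is log canonical in the sense of `IsLogCanonical`
  (Kollár-Mori, Definition 2.34: terminal ⟹ canonical ⟹ lc).  `IsTerminal` only speaks of the
  exceptional divisors; for a prime divisor `E` of a model whose centre `z = f E` is a prime divisor
  of `X` the proof computes with the definitions: `ord_E ∘ f^* = e · ord_z`
  (`TerminalLc.exists_ord_pullbackFn_eq`), forms regular at `z` are regular at `E`
  (`TerminalLc.regularForms_mono`), so `a(E, X, 0) ≥ 0`.
* `terminalAbundance_semiample_of_logAbundance` : `LogAbundance` implies the third conclusion of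
  `TerminalAbundance` (all hypotheses of `LogAbundance` at `B = 0` follow from those of
  `TerminalAbundance`).
* `iitakaDimGE_one_of_two_sections` : the first conclusion of `TerminalAbundance` (two linearly
  independent sections of a multiple of `K`) implies `κ(X, K) ≥ 1`, the "in particular" of the
  companion's theorem.
-/

set_option autoImplicit false

open AlgebraicGeometry CategoryTheory Order

universe u

namespace Claimed.Open.R035

namespace TerminalLc

section Forms

variable (k : Type u) [Field k] {F : Type u} [Field F] [Algebra k F]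

/-- Forms that are regular on a ring are regular on every larger ring. -/
theorem regularForms_mono (n : ℕ) {R S : Subring F} (h : R ≤ S) :
    regularForms k n R ≤ regularForms k n S := by
  unfold regularForms
  refine AddSubgroup.closure_mono ?_
  rintro η ⟨a, b, ha, hb, rfl⟩
  exact ⟨a, b, h ha, fun j => h (hb j), rfl⟩

end Forms

section Models

variable {X Y : Scheme.{u}} [IsIntegral X] [IsIntegral Y] [IsLocallyNoetherian X]
  [IsLocallyNoetherian Y]

/-- Let `E` be a point of `Y` whose image `z = f E` is a prime divisor of the normal scheme `X`.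
Then `ord_E (f^* g) = e · ord_z g` for all rational functions `g ≠ 0`, with a constant `e ≥ 0`. -/
theorem exists_ord_pullbackFn_eq (hX : IsNormalScheme X) (f : Y ⟶ X)
    (hη : f (genericPoint Y) = genericPoint X) {E : Y} (hz : coheight (f E) = 1) :
    ∃ e : ℤ, 0 ≤ e ∧ ∀ g : X.functionField, g ≠ 0 →
      Scheme.ord (pullbackFn f hη g) E = e * Scheme.ord g (f E) := by
  have hdvr := isDiscreteValuationRing_stalk hX hz
  obtain ⟨ϖ, hϖ⟩ := IsDiscreteValuationRing.exists_irreducible (X.presheaf.stalk (f E))
  have hτ0 : algebraMap (X.presheaf.stalk (f E)) X.functionField ϖ ≠ 0 := by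
    simpa using (IsFractionRing.injective (X.presheaf.stalk (f E)) X.functionField).ne hϖ.ne_zero
  refine ⟨Scheme.ord (pullbackFn f hη (algebraMap _ X.functionField ϖ)) E,
    ord_nonneg_of_mem (pullbackFn_mem_stalkSubring f hη ⟨ϖ, rfl⟩), fun g hg => ?_⟩
  obtain ⟨u, i, hu⟩ := exists_unit_mul_zpow_of_isDVR (K := X.functionField) hϖ g hg
  have hu0 : algebraMap (X.presheaf.stalk (f E)) X.functionField u ≠ 0 := by simp
  have hmem : algebraMap (X.presheaf.stalk (f E)) X.functionField u ∈ stalkSubring (f E) :=
    ⟨u, rfl⟩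
  have hmem' : (algebraMap (X.presheaf.stalk (f E)) X.functionField u)⁻¹ ∈ stalkSubring (f E) := by
    refine ⟨((u⁻¹ : (X.presheaf.stalk (f E))ˣ) : X.presheaf.stalk (f E)), ?_⟩
    apply eq_inv_of_mul_eq_one_left
    rw [← map_mul]
    simp
  have h1 : Scheme.ord g (f E) = i := by
    rw [hu, Scheme.ord_mul hu0 (zpow_ne_zero _ hτ0), ord_zpow hτ0,
      ord_algebraMap_irreducible hX hz hϖ, ord_eq_zero_of_unit hmem hmem']
    ring
  have hp0 : ∀ a : X.functionField, a ≠ 0 → pullbackFn f hη a ≠ 0 := fun a ha =>
    (map_ne_zero (pullbackFn f hη)).mpr ha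
  have h2 : Scheme.ord (pullbackFn f hη g) E =
      i * Scheme.ord (pullbackFn f hη (algebraMap _ X.functionField ϖ)) E := by
    have h3 : Scheme.ord (pullbackFn f hη
        (algebraMap (X.presheaf.stalk (f E)) X.functionField u)) E = 0 := by
      refine ord_eq_zero_of_unit (pullbackFn_mem_stalkSubring f hη hmem) ?_
      rw [← map_inv₀]
      exact pullbackFn_mem_stalkSubring f hη hmem'
    rw [hu, map_mul, map_zpow₀, Scheme.ord_mul (hp0 _ hu0) (zpow_ne_zero _ (hp0 _ hτ0)),
      ord_zpow (hp0 _ hτ0), h3, zero_add]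
  rw [h1, h2]
  ring

end Models

end TerminalLc

section Singularities

variable {k : Type u} [Field k] {X : Scheme.{u}} [IsIntegral X] [IsLocallyNoetherian X]

/-- `a(E, X, B) ≥ t` and `t' ≤ t` imply `a(E, X, B) ≥ t'`. -/
theorem DiscrepancyGE.mono {Y : Scheme.{u}} [IsIntegral Y] [IsLocallyNoetherian Y]
    {π : X ⟶ Spec (CommRingCat.of k)} {n : ℕ} {ω : RatForm π n} {L : X → ℚ} {f : Y ⟶ X}
    {hη : f (genericPoint Y) = genericPoint X} {E : Y} {t t' : ℚ}
    (h : DiscrepancyGE π n ω L f hη E t) (htt : t' ≤ t) : DiscrepancyGE π n ω L f hη E t' := by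
  let _ := fnFieldAlgebra π
  obtain ⟨m, D, φ, c, h1, h2, h3, h4⟩ := h
  exact ⟨m, D, φ, c, h1, h2, h3, htt.trans h4⟩

/-- **Terminal singularities are log canonical** (with `B = 0`), for the definitions of
`Statement.lean` and every normal `X` with `ℚ`-Cartier `K_X = div ω`. -/
theorem IsTerminal.isLogCanonical {π : X ⟶ Spec (CommRingCat.of k)} {n : ℕ} {ω : RatForm π n}
    {K : X → ℤ} (hT : IsTerminal π n ω (fun z => (K z : ℚ))) (hX : IsNormalScheme X)
    (hK : IsDivisorOfForm π n ω K) (hQ : IsQCartier (fun z => (K z : ℚ))) :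
    IsLogCanonical π n ω (fun z => (K z : ℚ)) := by
  let _ := fnFieldAlgebra π
  intro Y _ _ f hf E hE
  by_cases hz : coheight (f E) = 1
  · obtain ⟨m, D, hm, hD⟩ := hQ
    obtain ⟨φ, hφ⟩ := hD.2 (f E)
    obtain ⟨e, he, hord⟩ := TerminalLc.exists_ord_pullbackFn_eq hX f hf.generic hz
    obtain ⟨⟨g, hg, hKg, η, hη, hω⟩, -⟩ := hK.2 (f E) hz
    refine ⟨m, D, φ, e * Scheme.ord g (f E), hm, hφ,
      ⟨g, hg, (hord g hg).ge, η, TerminalLc.regularForms_mono k n ?_ hη, hω⟩, ?_⟩
    · intro a ha
      exact Subring.mem_comap.mpr (pullbackFn_mem_stalkSubring f hf.generic ha)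
    · rw [hord φ hφ.1, hφ.2 (f E) hz specializes_rfl]
      have hDz : (D (f E) : ℚ) = m * (K (f E) : ℚ) := hm.2 (f E)
      have hm0 : (m : ℚ) ≠ 0 := by exact_mod_cast hm.1.ne'
      have h1 : e * K (f E) ≤ e * Scheme.ord g (f E) := mul_le_mul_of_nonneg_left hKg he
      have h2 : (e : ℚ) * (K (f E) : ℚ) ≤ (e : ℚ) * (Scheme.ord g (f E) : ℚ) := by
        exact_mod_cast h1
      have h3 : ((e * D (f E) : ℤ) : ℚ) / m = (e : ℚ) * (K (f E) : ℚ) := by
        push_cast
        rw [hDz]
        field_simp
      rw [h3]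
      push_cast
      linarith
  · obtain ⟨t, ht, hd⟩ := hT Y f hf E hE hz
    exact hd.mono (by linarith)

end Singularities

/-- **`LogAbundance` contains the semiampleness part of `TerminalAbundance`**: the hypotheses of
`TerminalAbundance` imply those of `LogAbundance` for the boundary `B = 0`. -/
theorem terminalAbundance_semiample_of_logAbundance (h : LogAbundance.{u}) :
    ∀ (k : Type u) [Field k] [IsAlgClosed k] (p : ℕ) [CharP k p], 3 < p →
    ∀ (X : Scheme.{u}) [IsIntegral X] [IsLocallyNoetherian X] (π : X ⟶ Spec (CommRingCat.of k)),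
      IsProjective π → IsNormalScheme X → topologicalKrullDim X = 3 → IsQFactorial X →
    ∀ (ω : RatForm π 3) (K : X → ℤ), ω ≠ 0 → IsDivisorOfForm π 3 ω K →
      IsTerminal π 3 ω (fun z => (K z : ℚ)) →
      IsNef (fun z => (K z : ℚ)) →
      HasNumericalDimensionOne (fun z => (K z : ℚ)) →
      IsSemiample (fun z => (K z : ℚ)) := by
  intro k _ _ p _ hp X _ _ π hproj hnorm hdim hQF ω K hω hK hT hnef hν
  have hQ : IsQCartier (fun z => (K z : ℚ)) := hQF K hK.1
  have hlc := hT.isLogCanonical hnorm hK hQ
  have heq : (fun z => (K z : ℚ) + (0 : X → ℚ) z) = fun z => (K z : ℚ) := by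
    funext z
    simp
  have hB : IsWeilDivisor (0 : X → ℚ) := ⟨by simp, fun z hz => absurd rfl hz⟩
  have key := h k p hp X π hproj hnorm hdim ω K 0 hω hK hB (fun _ => le_rfl)
  rw [heq] at key
  exact key hQ hlc hnef hν

section Sections

variable {k : Type u} [Field k] {X : Scheme.{u}} [IsIntegral X] [IsLocallyNoetherian X]

/-- Over an algebraically closed field, two linearly independent sections of a positive multiple of
`K` give `κ(X, K) ≥ 1`. -/
theorem iitakaDimGE_one_of_two_sections [IsAlgClosed k] {π : X ⟶ Spec (CommRingCat.of k)}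
    {K : X → ℤ} {m : ℕ} {s t : X.functionField} (hm : 0 < m) (hs : IsSection (m • K) s)
    (ht : IsSection (m • K) t)
    (hlin : letI := fnFieldAlgebra π; LinearIndependent k ![s, t]) :
    IitakaDimGE π (fun z => (K z : ℚ)) 1 := by
  let _ := fnFieldAlgebra π
  have hs0 : s ≠ 0 := by simpa using hlin.ne_zero 0
  refine ⟨m, m • K, s, fun _ => t / s, ⟨hm, fun z => by simp⟩, hs0, hs,
    fun _ => by rwa [div_mul_cancel₀ _ hs0], ?_⟩
  rw [algebraicIndependent_unique_type_iff]
  intro halg
  have hint : IsIntegral k (t / s) := halg.isIntegral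
  have hdeg := IsAlgClosed.degree_eq_one_of_irreducible k (minpoly.irreducible hint)
  obtain ⟨c, hc⟩ := minpoly.mem_range_of_degree_eq_one k (t / s) hdeg
  have h1 : t = c • s := by
    rw [Algebra.smul_def, hc, div_mul_cancel₀ _ hs0]
  have h2 := LinearIndependent.pair_iff.mp hlin c (-1) (by rw [h1]; simp)
  exact absurd h2.2 (by norm_num)

end Sections

end Claimed.Open.R035
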