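import Claimed.Open.R035.SanityNotAmple
import Claimed.Open.R035.SanityTerminalLc
import Claimed.Open.R035.SanityFiniteSum

/-!
# Sanity check: the notions of `Statement.lean` depend only on the linear equivalence class

In both theorems the canonical divisor is `K = div ω` for an arbitrary non-zero rational 3-form `ω`, and the theorems
quantify over all `ω`.  Another form is `g • ω` with `g ∈ k(X)ˣ`, and its divisor is `K + div g`.  This file proves, for
**every** integral locally Noetherian scheme `X` (quasi-compact where finiteness of the support of `div g` is needed) and every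
`g ≠ 0`, that nothing in the two theorems depends on this choice:

* `IsLocalEquation.add_principalDiv`, `IsCartierDivisor.add_principalDiv`: `φ g` is a local equation of `D + div g`;
* `isSection_add_principalDiv_iff`, `isNonvanishingAt_add_principalDiv_iff`, `isGloballyGenerated_add_principalDiv_iff`:
  `s ↦ s g` identifies `H⁰(D + div g)` with `H⁰(D)`;
* `isAmpleDivisor_add_principalDiv_iff`;
* `isIntersectionNumber_cons_add_principalDiv_iff`, `isIntersectionNumber_iff_of_linEquiv`: linearly equivalent Cartier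
  divisors have the same intersection numbers (the same computations, with the local equations multiplied by `g`);
* for `ℚ`-divisors `L` and `L + div g`: `isQCartier_addDiv_iff`, `isSemiample_addDiv_iff`, `isNef_addDiv_iff`,
  `hasNumericalDimensionOne_addDiv_iff`, `iitakaDimGE_addDiv_iff`, `iitakaDim_addDiv`;
* `IsDivisorOfForm.smul`: `div (g • ω) = div ω + div g`; `discrepancyGE_smul_iff`, `isLogCanonical_smul_iff`,
  `isTerminal_smul_iff`: discrepancies computed with `(g • ω, L + div g)` and with `(ω, L)` agree;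
* `logAbundance_independent_of_form`, `terminalAbundance_independent_of_form`: every hypothesis and every conclusion of
  the two theorems holds for `(g • ω, K + div g)` if and only if it holds for `(ω, K)`.

Two more facts on multiples and sums of divisors:

* `iitakaDimGE_iff_cartier`: for a `ℚ`-Cartier `L` the Iitaka dimension may be computed with the Cartier multiples only
  (`IsSection.pow`, `IsSection.mul_pow`: if `s, t s ∈ H⁰(D)` then `s^j, t s^j ∈ H⁰(jD)`);
* `IsIntersectionNumber.cons_neg`, `IsIntersectionNumber.cons_add`, `IsIntersectionNumber.curve_add`,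
  `IsIntersectionNumber.curve_nsmul`: the intersection number is additive in the first divisor (on a normal quasi-compact
  `X`, where the sums are finite; for `(D · C)` without any further hypothesis, in higher dimension if the numbers of the
  remaining divisors on the prime divisors of `V` are unique).
-/

set_option autoImplicit false

open AlgebraicGeometry CategoryTheory Order

universe u

namespace Claimed.Open.R035

section Divisors

variable {X : Scheme.{u}} [IsIntegral X] [IsLocallyNoetherian X]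

/-- The principal divisor `div g` of a rational function (`Scheme.ord g z = 0` if `z` is not of codimension one). -/
noncomputable def principalDiv (g : X.functionField) : X → ℤ := fun z => Scheme.ord g z

theorem principalDiv_apply (g : X.functionField) (z : X) : principalDiv g z = Scheme.ord g z := rfl

theorem principalDiv_inv {g : X.functionField} (hg : g ≠ 0) : principalDiv g⁻¹ = - principalDiv g :=
  funext fun z => ord_inv z hg

theorem principalDiv_pow {g : X.functionField} (hg : g ≠ 0) (n : ℕ) : principalDiv (g ^ n) = n • principalDiv g :=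
  funext fun z => by
    rw [principalDiv_apply, ord_pow hg, Pi.smul_apply, principalDiv_apply, nsmul_eq_mul]

theorem add_principalDiv_inv_cancel (D : X → ℤ) {g : X.functionField} (hg : g ≠ 0) :
    D + principalDiv g + principalDiv g⁻¹ = D := by
  rw [principalDiv_inv hg, add_neg_cancel_right]

theorem isWeilDivisor_principalDiv [CompactSpace X] (g : X.functionField) : IsWeilDivisor (principalDiv g) :=
  ⟨NotAmple.finite_ord_support g, fun z hz => by
    by_contra h
    exact hz (Scheme.ord_eq_zero_of_coheight_neq_one h _)⟩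

omit [IsIntegral X] [IsLocallyNoetherian X] in
theorem IsWeilDivisor.add_int {D E : X → ℤ} (hD : IsWeilDivisor D) (hE : IsWeilDivisor E) : IsWeilDivisor (D + E) := by
  refine ⟨(hD.1.union hE.1).subset fun z hz => ?_, fun z hz => ?_⟩
  · by_contra hcon
    rw [Set.mem_union, not_or, Function.notMem_support, Function.notMem_support] at hcon
    exact hz (by rw [Pi.add_apply, hcon.1, hcon.2, add_zero])
  · by_cases h : D z = 0
    · refine hE.2 z fun h' => hz ?_
      rw [Pi.add_apply, h, h', add_zero]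
    · exact hD.2 z h

theorem IsLocalEquation.add_principalDiv {D : X → ℤ} {x : X} {φ g : X.functionField} (h : IsLocalEquation D x φ)
    (hg : g ≠ 0) : IsLocalEquation (D + principalDiv g) x (φ * g) :=
  ⟨mul_ne_zero h.1 hg, fun z hz hzx => by
    rw [Scheme.ord_mul h.1 hg, h.2 z hz hzx, Pi.add_apply, principalDiv_apply]⟩

theorem IsCartierDivisor.add_principalDiv [CompactSpace X] {D : X → ℤ} (h : IsCartierDivisor D) {g : X.functionField}
    (hg : g ≠ 0) : IsCartierDivisor (D + principalDiv g) :=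
  ⟨h.1.add_int (isWeilDivisor_principalDiv g), fun x => by
    obtain ⟨φ, hφ⟩ := h.2 x
    exact ⟨_, hφ.add_principalDiv hg⟩⟩

theorem isCartierDivisor_add_principalDiv_iff [CompactSpace X] {D : X → ℤ} {g : X.functionField} (hg : g ≠ 0) :
    IsCartierDivisor (D + principalDiv g) ↔ IsCartierDivisor D :=
  ⟨fun h => by
    have := h.add_principalDiv (inv_ne_zero hg)
    rwa [add_principalDiv_inv_cancel D hg] at this, fun h => h.add_principalDiv hg⟩

/-- `s ↦ s g` identifies the sections of `𝒪_X(D + div g)` with the sections of `𝒪_X(D)`. -/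
theorem isSection_add_principalDiv_iff {D : X → ℤ} {g s : X.functionField} (hg : g ≠ 0) :
    IsSection (D + principalDiv g) s ↔ IsSection D (s * g) := by
  constructor
  · intro h hs z hz
    have hs0 : s ≠ 0 := left_ne_zero_of_mul hs
    have := h hs0 z hz
    rw [Pi.add_apply, principalDiv_apply] at this
    rw [Scheme.ord_mul hs0 hg]
    omega
  · intro h hs z hz
    have := h (mul_ne_zero hs hg) z hz
    rw [Scheme.ord_mul hs hg] at this
    rw [Pi.add_apply, principalDiv_apply]
    omega

theorem isNonvanishingAt_add_principalDiv_iff {D : X → ℤ} {g s : X.functionField} (hg : g ≠ 0) (x : X) :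
    IsNonvanishingAt (D + principalDiv g) s x ↔ IsNonvanishingAt D (s * g) x := by
  constructor
  · rintro ⟨hs, h⟩
    refine ⟨mul_ne_zero hs hg, fun z hz hzx => ?_⟩
    have := h z hz hzx
    rw [Pi.add_apply, principalDiv_apply] at this
    rw [Scheme.ord_mul hs hg]
    omega
  · rintro ⟨hs, h⟩
    have hs0 : s ≠ 0 := left_ne_zero_of_mul hs
    refine ⟨hs0, fun z hz hzx => ?_⟩
    have := h z hz hzx
    rw [Scheme.ord_mul hs0 hg] at this
    rw [Pi.add_apply, principalDiv_apply]
    omega

theorem IsGloballyGenerated.add_principalDiv {D : X → ℤ} (h : IsGloballyGenerated D) {g : X.functionField}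
    (hg : g ≠ 0) : IsGloballyGenerated (D + principalDiv g) := by
  intro x
  obtain ⟨s, hs, hsx⟩ := h x
  refine ⟨s * g⁻¹, (isSection_add_principalDiv_iff hg).2 ?_, (isNonvanishingAt_add_principalDiv_iff hg x).2 ?_⟩
  · rwa [inv_mul_cancel_right₀ hg]
  · rwa [inv_mul_cancel_right₀ hg]

theorem isGloballyGenerated_add_principalDiv_iff {D : X → ℤ} {g : X.functionField} (hg : g ≠ 0) :
    IsGloballyGenerated (D + principalDiv g) ↔ IsGloballyGenerated D :=
  ⟨fun h => by
    have := h.add_principalDiv (inv_ne_zero hg)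
    rwa [add_principalDiv_inv_cancel D hg] at this, fun h => h.add_principalDiv hg⟩

theorem nsmul_add_principalDiv (n : ℕ) (D : X → ℤ) {g : X.functionField} (hg : g ≠ 0) :
    n • (D + principalDiv g) = n • D + principalDiv (g ^ n) := by
  rw [principalDiv_pow hg, smul_add]

theorem IsAmpleDivisor.add_principalDiv {H : X → ℤ} (h : IsAmpleDivisor H) {g : X.functionField} (hg : g ≠ 0) :
    IsAmpleDivisor (H + principalDiv g) := by
  obtain ⟨hC, hcomp, hx⟩ := h
  refine ⟨hC.add_principalDiv hg, hcomp, fun x => ?_⟩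
  obtain ⟨n, s, U, hn, hs, hU, hxU, hy⟩ := hx x
  have hgn : g ^ n ≠ 0 := pow_ne_zero n hg
  refine ⟨n, s * (g ^ n)⁻¹, U, hn, ?_, hU, hxU, fun y => ?_⟩
  · rw [nsmul_add_principalDiv n H hg, isSection_add_principalDiv_iff hgn, inv_mul_cancel_right₀ hgn]
    exact hs
  · rw [nsmul_add_principalDiv n H hg, isNonvanishingAt_add_principalDiv_iff hgn, inv_mul_cancel_right₀ hgn]
    exact hy y

theorem isAmpleDivisor_add_principalDiv_iff {H : X → ℤ} {g : X.functionField} (hg : g ≠ 0) :
    IsAmpleDivisor (H + principalDiv g) ↔ IsAmpleDivisor H :=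
  ⟨fun h => by
    have := h.add_principalDiv (inv_ne_zero hg)
    rwa [add_principalDiv_inv_cancel H hg] at this, fun h => h.add_principalDiv hg⟩

/-! ### Intersection numbers -/

omit [IsLocallyNoetherian X] in
theorem IsRestrictionOrder.mul_right {φv φw g : X.functionField} {v w : X} {μ : ℤ}
    (h : IsRestrictionOrder φv φw v w μ) (hg : g ≠ 0) : IsRestrictionOrder (φv * g) (φw * g) v w μ := by
  obtain ⟨hs, u, hu, hord⟩ := h
  exact ⟨hs, u, by rw [hu, mul_div_mul_right _ _ hg], hord⟩

theorem IsIntersectionNumber.cons_add_principalDiv {D : X → ℤ} {l : List (X → ℤ)} {v : X} {n : ℤ}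
    (h : IsIntersectionNumber (D :: l) v n) {g : X.functionField} (hg : g ≠ 0) :
    IsIntersectionNumber ((D + principalDiv g) :: l) v n := by
  obtain ⟨φ, μ, N, hφ, hμ, hN, hn⟩ := h
  exact ⟨fun x => φ x * g, μ, N, fun x => (hφ x).add_principalDiv hg, fun w hw => (hμ w hw).mul_right hg, hN, hn⟩

/-- `(D + div g) · D₂ ⋯ D_r · V = D · D₂ ⋯ D_r · V`: the same computations, with the local equations multiplied by `g`. -/
theorem isIntersectionNumber_cons_add_principalDiv_iff {D : X → ℤ} {l : List (X → ℤ)} {v : X} {n : ℤ}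
    {g : X.functionField} (hg : g ≠ 0) :
    IsIntersectionNumber ((D + principalDiv g) :: l) v n ↔ IsIntersectionNumber (D :: l) v n :=
  ⟨fun h => by
    have := h.cons_add_principalDiv (inv_ne_zero hg)
    rwa [add_principalDiv_inv_cancel D hg] at this, fun h => h.cons_add_principalDiv hg⟩

/-- Linear equivalence of divisors. -/
def IsLinEquiv (D D' : X → ℤ) : Prop := ∃ g : X.functionField, g ≠ 0 ∧ D' = D + principalDiv g

theorem isIntersectionNumber_tail_congr {D : X → ℤ} {l l' : List (X → ℤ)}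
    (h : ∀ (w : X) (n : ℤ), IsIntersectionNumber l w n → IsIntersectionNumber l' w n) {v : X} {n : ℤ}
    (hn : IsIntersectionNumber (D :: l) v n) : IsIntersectionNumber (D :: l') v n := by
  obtain ⟨φ, μ, N, hφ, hμ, hN, hn⟩ := hn
  exact ⟨φ, μ, N, hφ, hμ, fun w hw hμw => h w _ (hN w hw hμw), hn⟩

/-- **Intersection numbers depend only on the linear equivalence classes** of the divisors. -/
theorem isIntersectionNumber_iff_of_linEquiv {l l' : List (X → ℤ)} (h : List.Forall₂ IsLinEquiv l l') (v : X) (n : ℤ) :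
    IsIntersectionNumber l v n ↔ IsIntersectionNumber l' v n := by
  induction h generalizing v n with
  | nil => exact Iff.rfl
  | @cons D D' l l' hD _ ih =>
    obtain ⟨g, hg, rfl⟩ := hD
    rw [isIntersectionNumber_cons_add_principalDiv_iff hg]
    exact ⟨isIntersectionNumber_tail_congr fun w n => (ih w n).1,
      isIntersectionNumber_tail_congr fun w n => (ih w n).2⟩

theorem IsLinEquiv.refl (D : X → ℤ) : IsLinEquiv D D :=
  ⟨1, one_ne_zero, by
    funext z
    rw [Pi.add_apply, principalDiv_apply, ord_one, add_zero]⟩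

/-! ### `ℚ`-divisors -/

/-- `L + div g` for a `ℚ`-divisor `L`. -/
noncomputable def addDiv (L : X → ℚ) (g : X.functionField) : X → ℚ := fun z => L z + (Scheme.ord g z : ℚ)

theorem addDiv_addDiv_inv (L : X → ℚ) {g : X.functionField} (hg : g ≠ 0) : addDiv (addDiv L g) g⁻¹ = L := by
  funext z
  simp only [addDiv, ord_inv z hg]
  push_cast
  ring

theorem IsMultiple.addDiv {m : ℕ} {L : X → ℚ} {D : X → ℤ} (h : IsMultiple m L D) {g : X.functionField} (hg : g ≠ 0) :
    IsMultiple m (addDiv L g) (D + principalDiv (g ^ m)) :=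
  ⟨h.1, fun z => by
    rw [Pi.add_apply, principalDiv_apply, ord_pow hg]
    push_cast
    rw [h.2 z]
    simp only [Claimed.Open.R035.addDiv]
    ring⟩

/-- a property of `ℚ`-divisors which passes from `L` to `L + div g` for all `g ≠ 0` is invariant -/
theorem addDiv_iff_of_imp {P : (X → ℚ) → Prop}
    (h : ∀ (L : X → ℚ) (g : X.functionField), g ≠ 0 → P L → P (addDiv L g)) (L : X → ℚ) {g : X.functionField}
    (hg : g ≠ 0) : P (addDiv L g) ↔ P L :=
  ⟨fun hp => by
    have := h _ _ (inv_ne_zero hg) hp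
    rwa [addDiv_addDiv_inv L hg] at this, h L g hg⟩

variable [CompactSpace X]

theorem isQCartier_addDiv_iff (L : X → ℚ) {g : X.functionField} (hg : g ≠ 0) :
    IsQCartier (addDiv L g) ↔ IsQCartier L := by
  refine addDiv_iff_of_imp (P := IsQCartier) ?_ L hg
  rintro L g hg ⟨m, E, hm, hE⟩
  exact ⟨m, _, hm.addDiv hg, hE.add_principalDiv (pow_ne_zero m hg)⟩

theorem isSemiample_addDiv_iff (L : X → ℚ) {g : X.functionField} (hg : g ≠ 0) :
    IsSemiample (addDiv L g) ↔ IsSemiample L := by
  refine addDiv_iff_of_imp (P := IsSemiample) ?_ L hg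
  rintro L g hg ⟨m, D, hm, hD, hgg⟩
  exact ⟨m, _, hm.addDiv hg, hD.add_principalDiv (pow_ne_zero m hg), hgg.add_principalDiv (pow_ne_zero m hg)⟩

theorem isNef_addDiv_iff (L : X → ℚ) {g : X.functionField} (hg : g ≠ 0) : IsNef (addDiv L g) ↔ IsNef L := by
  refine addDiv_iff_of_imp (P := IsNef) ?_ L hg
  rintro L g hg ⟨m, D, hm, hD, hc⟩
  refine ⟨m, _, hm.addDiv hg, hD.add_principalDiv (pow_ne_zero m hg), fun c hcc => ?_⟩
  obtain ⟨n, hn, h0⟩ := hc c hcc
  exact ⟨n, hn.cons_add_principalDiv (pow_ne_zero m hg), h0⟩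

theorem hasNumericalDimensionOne_addDiv_iff (L : X → ℚ) {g : X.functionField} (hg : g ≠ 0) :
    HasNumericalDimensionOne (addDiv L g) ↔ HasNumericalDimensionOne L := by
  refine addDiv_iff_of_imp (P := HasNumericalDimensionOne) ?_ L hg
  rintro L g hg ⟨m, D, H, a, hm, hD, hH, ha, ha0, h0⟩
  have hgm : g ^ m ≠ 0 := pow_ne_zero m hg
  refine ⟨m, _, H, a, hm.addDiv hg, hD.add_principalDiv hgm, hH, ha.cons_add_principalDiv hgm, ha0, ?_⟩
  refine (isIntersectionNumber_iff_of_linEquiv ?_ _ _).1 h0
  exact .cons ⟨_, hgm, rfl⟩ (.cons ⟨_, hgm, rfl⟩ (.cons (IsLinEquiv.refl H) .nil))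

end Divisors

section Iitaka

variable {k : Type u} [Field k] {X : Scheme.{u}} [IsIntegral X] [IsLocallyNoetherian X]

theorem iitakaDimGE_addDiv_iff (π : X ⟶ Spec (CommRingCat.of k)) (L : X → ℚ) {g : X.functionField} (hg : g ≠ 0)
    (r : ℕ) : IitakaDimGE π (addDiv L g) r ↔ IitakaDimGE π L r := by
  refine addDiv_iff_of_imp (P := fun L => IitakaDimGE π L r) ?_ L hg
  rintro L g hg ⟨m, D, s, t, hm, hs, hsD, ht, hind⟩
  have hgm : g ^ m ≠ 0 := pow_ne_zero m hg
  refine ⟨m, _, s * (g ^ m)⁻¹, t, hm.addDiv hg, mul_ne_zero hs (inv_ne_zero hgm), ?_, fun i => ?_, hind⟩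
  · rw [isSection_add_principalDiv_iff hgm, inv_mul_cancel_right₀ hgm]
    exact hsD
  · rw [isSection_add_principalDiv_iff hgm, ← mul_assoc, inv_mul_cancel_right₀ hgm]
    exact ht i

/-- The Iitaka dimension depends only on the linear equivalence class. -/
theorem iitakaDim_addDiv (π : X ⟶ Spec (CommRingCat.of k)) (L : X → ℚ) {g : X.functionField} (hg : g ≠ 0) :
    iitakaDim π (addDiv L g) = iitakaDim π L := by
  unfold iitakaDim
  simp only [iitakaDimGE_addDiv_iff π L hg]

end Iitaka

/-! ### Change of the rational form -/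

section Forms

variable {k : Type u} [Field k] {F : Type u} [Field F] [Algebra k F]

theorem FormOrdGE.smul {n : ℕ} {R : Subring F} {v : F → ℤ} {ω : ⋀[F]^n Ω[F⁄k]} {m : ℤ}
    (hv : ∀ a b : F, a ≠ 0 → b ≠ 0 → v (a * b) = v a + v b) (h : FormOrdGE k n R v ω m) {g : F} (hg : g ≠ 0) :
    FormOrdGE k n R v (g • ω) (m + v g) := by
  obtain ⟨a, ha, hm, η, hη, rfl⟩ := h
  exact ⟨g * a, mul_ne_zero hg ha, by rw [hv g a hg ha]; omega, η, hη, by rw [smul_smul]⟩

theorem IsFormOrd.smul {n : ℕ} {R : Subring F} {v : F → ℤ} {ω : ⋀[F]^n Ω[F⁄k]} {m : ℤ}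
    (hv : ∀ a b : F, a ≠ 0 → b ≠ 0 → v (a * b) = v a + v b) (h : IsFormOrd k n R v ω m) {g : F} (hg : g ≠ 0) :
    IsFormOrd k n R v (g • ω) (m + v g) := by
  have h1 : v 1 = 0 := by
    have := hv 1 1 one_ne_zero one_ne_zero
    rw [mul_one] at this
    omega
  have hinv : v g⁻¹ = - v g := by
    have := hv g g⁻¹ hg (inv_ne_zero hg)
    rw [mul_inv_cancel₀ hg, h1] at this
    omega
  refine ⟨h.1.smul hv hg, fun hcon => h.2 ?_⟩
  have := hcon.smul hv (inv_ne_zero hg)
  rw [smul_smul, inv_mul_cancel₀ hg, one_smul, hinv] at this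
  have e : m + v g + 1 + -v g = m + 1 := by ring
  rwa [e] at this

end Forms

section Canonical

variable {k : Type u} [Field k] {X : Scheme.{u}} [IsIntegral X] [IsLocallyNoetherian X]

/-- `div (g • ω) = div ω + div g`. -/
theorem IsDivisorOfForm.smul [CompactSpace X] {π : X ⟶ Spec (CommRingCat.of k)} {n : ℕ} {ω : RatForm π n} {K : X → ℤ}
    (h : IsDivisorOfForm π n ω K) {g : X.functionField} (hg : g ≠ 0) :
    IsDivisorOfForm π n (g • ω) (K + principalDiv g) := by
  let := fnFieldAlgebra π
  refine ⟨h.1.add_int (isWeilDivisor_principalDiv g), fun z hz => ?_⟩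
  have h1 : IsFormOrd k n (stalkSubring z) (fun g => Scheme.ord g z) ω (K z) := h.2 z hz
  exact IsFormOrd.smul (v := fun g => Scheme.ord g z) (fun _ _ ha hb => Scheme.ord_mul ha hb) h1 hg

theorem isDivisorOfForm_smul_iff [CompactSpace X] {π : X ⟶ Spec (CommRingCat.of k)} {n : ℕ} {ω : RatForm π n}
    {K : X → ℤ} {g : X.functionField} (hg : g ≠ 0) :
    IsDivisorOfForm π n (g • ω) (K + principalDiv g) ↔ IsDivisorOfForm π n ω K :=
  ⟨fun h => by
    have := h.smul (inv_ne_zero hg)
    rwa [smul_smul, inv_mul_cancel₀ hg, one_smul, add_principalDiv_inv_cancel K hg] at this, fun h => h.smul hg⟩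

variable {Y : Scheme.{u}} [IsIntegral Y] [IsLocallyNoetherian Y]

/-- The discrepancy `a(E, X, B)` computed with `(g • ω, K + div g + B)` is the one computed with `(ω, K + B)`. -/
theorem DiscrepancyGE.smul {π : X ⟶ Spec (CommRingCat.of k)} {n : ℕ} {ω : RatForm π n} {L : X → ℚ} {f : Y ⟶ X}
    {hη : f (genericPoint Y) = genericPoint X} {E : Y} {t : ℚ} (h : DiscrepancyGE π n ω L f hη E t)
    {g : X.functionField} (hg : g ≠ 0) : DiscrepancyGE π n (g • ω) (addDiv L g) f hη E t := by
  let := fnFieldAlgebra π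
  obtain ⟨m, D, φ, c, hm, hφ, hc, ht⟩ := h
  have hinj : ∀ a : X.functionField, a ≠ 0 → pullbackFn f hη a ≠ 0 := fun a ha => (map_ne_zero _).2 ha
  have hv : ∀ a b : X.functionField, a ≠ 0 → b ≠ 0 →
      Scheme.ord (pullbackFn f hη (a * b)) E = Scheme.ord (pullbackFn f hη a) E + Scheme.ord (pullbackFn f hη b) E := by
    intro a b ha hb
    rw [map_mul, Scheme.ord_mul (hinj a ha) (hinj b hb)]
  have hgm : g ^ m ≠ 0 := pow_ne_zero m hg
  refine ⟨m, D + principalDiv (g ^ m), φ * g ^ m, c + Scheme.ord (pullbackFn f hη g) E, hm.addDiv hg,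
    hφ.add_principalDiv hgm,
    FormOrdGE.smul (v := fun a => Scheme.ord (pullbackFn f hη a) E) hv hc hg, ?_⟩
  rw [hv φ (g ^ m) hφ.1 hgm, map_pow, ord_pow (hinj g hg)]
  have hm0 : (m : ℚ) ≠ 0 := by exact_mod_cast hm.1.ne'
  push_cast
  have e : ((c : ℚ) + (Scheme.ord (pullbackFn f hη g) E : ℚ)) -
      ((Scheme.ord (pullbackFn f hη φ) E : ℚ) + (m : ℚ) * (Scheme.ord (pullbackFn f hη g) E : ℚ)) / m
      = (c : ℚ) - (Scheme.ord (pullbackFn f hη φ) E : ℚ) / m := by
    field_simp
    ring
  rw [e]
  exact ht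

theorem discrepancyGE_smul_iff {π : X ⟶ Spec (CommRingCat.of k)} {n : ℕ} {ω : RatForm π n} {L : X → ℚ} {f : Y ⟶ X}
    {hη : f (genericPoint Y) = genericPoint X} {E : Y} {t : ℚ} {g : X.functionField} (hg : g ≠ 0) :
    DiscrepancyGE π n (g • ω) (addDiv L g) f hη E t ↔ DiscrepancyGE π n ω L f hη E t :=
  ⟨fun h => by
    have := h.smul (inv_ne_zero hg)
    rwa [smul_smul, inv_mul_cancel₀ hg, one_smul, addDiv_addDiv_inv L hg] at this, fun h => h.smul hg⟩

omit Y [IsIntegral Y] [IsLocallyNoetherian Y] in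
theorem isLogCanonical_smul_iff {π : X ⟶ Spec (CommRingCat.of k)} {n : ℕ} {ω : RatForm π n} {L : X → ℚ}
    {g : X.functionField} (hg : g ≠ 0) : IsLogCanonical π n (g • ω) (addDiv L g) ↔ IsLogCanonical π n ω L :=
  ⟨fun h Y _ _ f hf E hE => (discrepancyGE_smul_iff hg).1 (h Y f hf E hE),
    fun h Y _ _ f hf E hE => (discrepancyGE_smul_iff hg).2 (h Y f hf E hE)⟩

omit Y [IsIntegral Y] [IsLocallyNoetherian Y] in
theorem isTerminal_smul_iff {π : X ⟶ Spec (CommRingCat.of k)} {n : ℕ} {ω : RatForm π n} {L : X → ℚ}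
    {g : X.functionField} (hg : g ≠ 0) : IsTerminal π n (g • ω) (addDiv L g) ↔ IsTerminal π n ω L :=
  ⟨fun h Y _ _ f hf E hE hE' => by
    obtain ⟨t, ht, hd⟩ := h Y f hf E hE hE'
    exact ⟨t, ht, (discrepancyGE_smul_iff hg).1 hd⟩,
    fun h Y _ _ f hf E hE hE' => by
    obtain ⟨t, ht, hd⟩ := h Y f hf E hE hE'
    exact ⟨t, ht, (discrepancyGE_smul_iff hg).2 hd⟩⟩

end Canonical

/-! ### The two theorems do not depend on the choice of the form -/

section Headline

variable {k : Type u} [Field k] {X : Scheme.{u}} [IsIntegral X] [IsLocallyNoetherian X]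

theorem cast_add_principalDiv_add (K : X → ℤ) (B : X → ℚ) (g : X.functionField) :
    (fun z => ((K + principalDiv g) z : ℚ) + B z) = addDiv (fun z => (K z : ℚ) + B z) g := by
  funext z
  simp only [addDiv, Pi.add_apply, principalDiv_apply]
  push_cast
  ring

theorem cast_add_principalDiv (K : X → ℤ) (g : X.functionField) :
    (fun z => ((K + principalDiv g) z : ℚ)) = addDiv (fun z => (K z : ℚ)) g := by
  funext z
  simp only [addDiv, Pi.add_apply, principalDiv_apply]
  push_cast
  ring

/-- The first conclusion of `TerminalAbundance` (verbatim): some positive Cartier multiple of `K` has two linearly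
independent global sections. -/
def HasTwoSections (π : X ⟶ Spec (CommRingCat.of k)) (K : X → ℤ) : Prop :=
  letI := fnFieldAlgebra π
  ∃ (m : ℕ) (s t : X.functionField), 0 < m ∧ IsCartierDivisor (m • K) ∧
    IsSection (m • K) s ∧ IsSection (m • K) t ∧ LinearIndependent k ![s, t]

variable [CompactSpace X]

theorem HasTwoSections.add_principalDiv {π : X ⟶ Spec (CommRingCat.of k)} {K : X → ℤ} (h : HasTwoSections π K)
    {g : X.functionField} (hg : g ≠ 0) : HasTwoSections π (K + principalDiv g) := by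
  let := fnFieldAlgebra π
  obtain ⟨m, s, t, hm, hC, hs, ht, hlin⟩ := h
  have hgm : g ^ m ≠ 0 := pow_ne_zero m hg
  refine ⟨m, s * (g ^ m)⁻¹, t * (g ^ m)⁻¹, hm, ?_, ?_, ?_, ?_⟩
  · rw [nsmul_add_principalDiv m K hg]
    exact hC.add_principalDiv hgm
  · rw [nsmul_add_principalDiv m K hg, isSection_add_principalDiv_iff hgm, inv_mul_cancel_right₀ hgm]
    exact hs
  · rw [nsmul_add_principalDiv m K hg, isSection_add_principalDiv_iff hgm, inv_mul_cancel_right₀ hgm]
    exact ht
  · rw [LinearIndependent.pair_iff] at hlin ⊢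
    intro a b hab
    refine hlin a b ?_
    have h0 : (a • s + b • t) * (g ^ m)⁻¹ = 0 := by
      rw [add_mul, smul_mul_assoc, smul_mul_assoc]
      exact hab
    exact (mul_eq_zero.1 h0).resolve_right (inv_ne_zero hgm)

theorem hasTwoSections_add_principalDiv_iff {π : X ⟶ Spec (CommRingCat.of k)} {K : X → ℤ} {g : X.functionField}
    (hg : g ≠ 0) : HasTwoSections π (K + principalDiv g) ↔ HasTwoSections π K :=
  ⟨fun h => by
    have := h.add_principalDiv (inv_ne_zero hg)
    rwa [add_principalDiv_inv_cancel K hg] at this, fun h => h.add_principalDiv hg⟩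

/-- **`LogAbundance` does not depend on the choice of the rational form.**  Replace `ω` by `g • ω`, hence `K = div ω` by
`K + div g`: each hypothesis on `(ω, K, B)` and the conclusion hold for the new data iff they hold for the old data. -/
theorem logAbundance_independent_of_form (π : X ⟶ Spec (CommRingCat.of k)) (ω : RatForm π 3) (K : X → ℤ) (B : X → ℚ)
    {g : X.functionField} (hg : g ≠ 0) :
    (g • ω ≠ 0 ↔ ω ≠ 0) ∧
    (IsDivisorOfForm π 3 (g • ω) (K + principalDiv g) ↔ IsDivisorOfForm π 3 ω K) ∧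
    (IsQCartier (fun z => ((K + principalDiv g) z : ℚ) + B z) ↔ IsQCartier (fun z => (K z : ℚ) + B z)) ∧
    (IsLogCanonical π 3 (g • ω) (fun z => ((K + principalDiv g) z : ℚ) + B z) ↔
      IsLogCanonical π 3 ω (fun z => (K z : ℚ) + B z)) ∧
    (IsNef (fun z => ((K + principalDiv g) z : ℚ) + B z) ↔ IsNef (fun z => (K z : ℚ) + B z)) ∧
    (HasNumericalDimensionOne (fun z => ((K + principalDiv g) z : ℚ) + B z) ↔
      HasNumericalDimensionOne (fun z => (K z : ℚ) + B z)) ∧
    (IsSemiample (fun z => ((K + principalDiv g) z : ℚ) + B z) ↔ IsSemiample (fun z => (K z : ℚ) + B z)) := by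
  rw [cast_add_principalDiv_add]
  exact ⟨by simp [hg], isDivisorOfForm_smul_iff hg, isQCartier_addDiv_iff _ hg, isLogCanonical_smul_iff hg,
    isNef_addDiv_iff _ hg, hasNumericalDimensionOne_addDiv_iff _ hg, isSemiample_addDiv_iff _ hg⟩

/-- **`TerminalAbundance` does not depend on the choice of the rational form**: the same for its hypotheses on `(ω, K)` and
for its three conclusions. -/
theorem terminalAbundance_independent_of_form (π : X ⟶ Spec (CommRingCat.of k)) (ω : RatForm π 3) (K : X → ℤ)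
    {g : X.functionField} (hg : g ≠ 0) :
    (IsDivisorOfForm π 3 (g • ω) (K + principalDiv g) ↔ IsDivisorOfForm π 3 ω K) ∧
    (IsTerminal π 3 (g • ω) (fun z => ((K + principalDiv g) z : ℚ)) ↔ IsTerminal π 3 ω (fun z => (K z : ℚ))) ∧
    (IsNef (fun z => ((K + principalDiv g) z : ℚ)) ↔ IsNef (fun z => (K z : ℚ))) ∧
    (HasNumericalDimensionOne (fun z => ((K + principalDiv g) z : ℚ)) ↔
      HasNumericalDimensionOne (fun z => (K z : ℚ))) ∧
    (HasTwoSections π (K + principalDiv g) ↔ HasTwoSections π K) ∧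
    iitakaDim π (fun z => ((K + principalDiv g) z : ℚ)) = iitakaDim π (fun z => (K z : ℚ)) ∧
    (IsSemiample (fun z => ((K + principalDiv g) z : ℚ)) ↔ IsSemiample (fun z => (K z : ℚ))) := by
  rw [cast_add_principalDiv]
  exact ⟨isDivisorOfForm_smul_iff hg, isTerminal_smul_iff hg, isNef_addDiv_iff _ hg,
    hasNumericalDimensionOne_addDiv_iff _ hg, hasTwoSections_add_principalDiv_iff hg, iitakaDim_addDiv π _ hg,
    isSemiample_addDiv_iff _ hg⟩

end Headline

/-! ### Multiples: the Iitaka dimension may be computed with Cartier multiples -/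

section Multiples

variable {k : Type u} [Field k] {X : Scheme.{u}} [IsIntegral X] [IsLocallyNoetherian X]

theorem IsLocalEquation.nsmul {D : X → ℤ} {x : X} {φ : X.functionField} (h : IsLocalEquation D x φ) (j : ℕ) :
    IsLocalEquation (j • D) x (φ ^ j) :=
  ⟨pow_ne_zero j h.1, fun z hz hzx => by rw [ord_pow h.1, h.2 z hz hzx, Pi.smul_apply, nsmul_eq_mul]⟩

omit [IsIntegral X] [IsLocallyNoetherian X] in
theorem IsWeilDivisor.nsmul_int {D : X → ℤ} (h : IsWeilDivisor D) (j : ℕ) : IsWeilDivisor (j • D) :=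
  ⟨h.1.subset fun z hz hD => hz (by rw [Pi.smul_apply, hD, smul_zero]),
    fun z hz => h.2 z fun hD => hz (by rw [Pi.smul_apply, hD, smul_zero])⟩

theorem IsCartierDivisor.nsmul {D : X → ℤ} (h : IsCartierDivisor D) (j : ℕ) : IsCartierDivisor (j • D) :=
  ⟨h.1.nsmul_int j, fun x => by
    obtain ⟨φ, hφ⟩ := h.2 x
    exact ⟨_, hφ.nsmul j⟩⟩

theorem IsSection.pow {D : X → ℤ} {s : X.functionField} (hs0 : s ≠ 0) (h : IsSection D s) (j : ℕ) :
    IsSection (j • D) (s ^ j) := by
  intro _ z hz
  have := h hs0 z hz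
  rw [ord_pow hs0, Pi.smul_apply, nsmul_eq_mul, ← mul_add]
  exact mul_nonneg (Int.natCast_nonneg j) this

theorem IsSection.mul_pow {D : X → ℤ} {s a : X.functionField} (hs0 : s ≠ 0) (hs : IsSection D s)
    (ha : IsSection D (a * s)) (j : ℕ) : IsSection ((j + 1) • D) (a * s ^ (j + 1)) := by
  intro h0 z hz
  have ha0 : a ≠ 0 := left_ne_zero_of_mul h0
  have h1 := hs hs0 z hz
  have h2 := ha (mul_ne_zero ha0 hs0) z hz
  rw [Scheme.ord_mul ha0 hs0] at h2
  rw [Scheme.ord_mul ha0 (pow_ne_zero _ hs0), ord_pow hs0, Pi.smul_apply, nsmul_eq_mul]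
  push_cast
  nlinarith [mul_nonneg (Int.natCast_nonneg j) h1]

omit [IsIntegral X] [IsLocallyNoetherian X] in
theorem IsMultiple.nsmul {m : ℕ} {L : X → ℚ} {D : X → ℤ} (h : IsMultiple m L D) {j : ℕ} (hj : 0 < j) :
    IsMultiple (j * m) L (j • D) :=
  ⟨Nat.mul_pos hj h.1, fun z => by
    rw [Pi.smul_apply, nsmul_eq_mul]
    push_cast
    rw [h.2 z]
    ring⟩

omit [IsIntegral X] [IsLocallyNoetherian X] in
theorem IsMultiple.unique {m : ℕ} {L : X → ℚ} {D D' : X → ℤ} (h : IsMultiple m L D) (h' : IsMultiple m L D') :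
    D = D' :=
  funext fun z => by exact_mod_cast (h.2 z).trans (h'.2 z).symm

/-- `IitakaDimGE` uses all integral multiples `D = mL`; for a `ℚ`-Cartier `L` the Cartier multiples give the same notion. -/
theorem iitakaDimGE_iff_cartier (π : X ⟶ Spec (CommRingCat.of k)) {L : X → ℚ} (hL : IsQCartier L) (r : ℕ) :
    IitakaDimGE π L r ↔
      (letI := fnFieldAlgebra π
       ∃ (m : ℕ) (D : X → ℤ) (s : X.functionField) (t : Fin r → X.functionField),
        IsMultiple m L D ∧ IsCartierDivisor D ∧ s ≠ 0 ∧ IsSection D s ∧ (∀ i, IsSection D (t i * s)) ∧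
        AlgebraicIndependent k t) := by
  constructor
  · rintro ⟨m, D, s, t, hm, hs, hsD, ht, hind⟩
    obtain ⟨m', E, hm', hE⟩ := hL
    obtain ⟨j, rfl⟩ : ∃ j, m' = j + 1 := ⟨m' - 1, by have := hm'.1; omega⟩
    have e : (j + 1) • D = m • E :=
      (hm.nsmul (Nat.succ_pos j)).unique (by rw [mul_comm]; exact hm'.nsmul hm.1)
    exact ⟨(j + 1) * m, (j + 1) • D, s ^ (j + 1), t, hm.nsmul (Nat.succ_pos j), by rw [e]; exact hE.nsmul m,
      pow_ne_zero _ hs, hsD.pow hs _, fun i => IsSection.mul_pow hs hsD (ht i) j, hind⟩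
  · rintro ⟨m, D, s, t, hm, -, hs, hsD, ht, hind⟩
    exact ⟨m, D, s, t, hm, hs, hsD, ht, hind⟩

end Multiples

/-! ### Additivity of the intersection number in the first divisor -/

section Additivity

variable {X : Scheme.{u}} [IsIntegral X] [IsLocallyNoetherian X]

theorem IsLocalEquation.add {D D' : X → ℤ} {x : X} {φ φ' : X.functionField} (h : IsLocalEquation D x φ)
    (h' : IsLocalEquation D' x φ') : IsLocalEquation (D + D') x (φ * φ') :=
  ⟨mul_ne_zero h.1 h'.1, fun z hz hzx => by
    rw [Scheme.ord_mul h.1 h'.1, h.2 z hz hzx, h'.2 z hz hzx, Pi.add_apply]⟩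

theorem IsLocalEquation.neg {D : X → ℤ} {x : X} {φ : X.functionField} (h : IsLocalEquation D x φ) :
    IsLocalEquation (-D) x φ⁻¹ :=
  ⟨inv_ne_zero h.1, fun z hz hzx => by rw [ord_inv z h.1, h.2 z hz hzx, Pi.neg_apply]⟩

/-- `(-D) · D₂ ⋯ D_r · V = - (D · D₂ ⋯ D_r · V)`. -/
theorem IsIntersectionNumber.cons_neg {D : X → ℤ} {l : List (X → ℤ)} {v : X} {n : ℤ}
    (h : IsIntersectionNumber (D :: l) v n) : IsIntersectionNumber ((-D) :: l) v (-n) := by
  obtain ⟨φ, μ, N, hφ, hμ, hN, rfl⟩ := h
  refine ⟨fun x => (φ x)⁻¹, fun w => - μ w, N, fun x => (hφ x).neg, fun w hw => ?_,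
    fun w hw hne => hN w hw fun h0 => hne (by show - μ w = 0; rw [h0, neg_zero]), ?_⟩
  · have h1 : IsRestrictionOrder 1 (φ w / φ v) v w (μ w) := (hμ w hw).of_ratio (div_one _).symm
    exact h1.inv.of_ratio (by rw [div_one, inv_div, inv_div_inv])
  · rw [← finsum_neg_distrib]
    refine finsum_congr fun w => ?_
    rw [← finsum_neg_distrib]
    refine finsum_congr fun _ => ?_
    ring

/-- **Additivity**: `(D + D') · D₂ ⋯ D_r · V = D · D₂ ⋯ D_r · V + D' · D₂ ⋯ D_r · V`, on a normal quasi-compact scheme (so that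
the sums are finite), if the numbers `(D₂ ⋯ D_r · W)` on the prime divisors `W` of `V` are unique. -/
theorem IsIntersectionNumber.cons_add [CompactSpace X] (hX : IsNormalScheme X) {D D' : X → ℤ} (hD : IsWeilDivisor D)
    (hD' : IsWeilDivisor D') {l : List (X → ℤ)} {v : X} {n n' : ℤ}
    (huniq : ∀ (w : X) (a b : ℤ), w ⋖ v → IsIntersectionNumber l w a → IsIntersectionNumber l w b → a = b)
    (h : IsIntersectionNumber (D :: l) v n) (h' : IsIntersectionNumber (D' :: l) v n') :
    IsIntersectionNumber ((D + D') :: l) v (n + n') := by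
  classical
  obtain ⟨φ, μ, N, hφ, hμ, hN, rfl⟩ := h
  obtain ⟨φ', μ', N', hφ', hμ', hN', rfl⟩ := h'
  refine ⟨fun x => φ x * φ' x, fun w => μ w + μ' w, fun w => if μ w ≠ 0 then N w else N' w,
    fun x => (hφ x).add (hφ' x), fun w hw => ?_, fun w hw hne => ?_, ?_⟩
  · have h1 : IsRestrictionOrder 1 (φ w / φ v) v w (μ w) := (hμ w hw).of_ratio (div_one _).symm
    have h2 : IsRestrictionOrder 1 (φ' w / φ' v) v w (μ' w) := (hμ' w hw).of_ratio (div_one _).symm
    exact (h1.mul h2).of_ratio (by rw [div_one, div_mul_div_comm])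
  · by_cases h0 : μ w ≠ 0
    · simp only [if_pos h0]
      exact hN w hw h0
    · simp only [if_neg h0]
      refine hN' w hw fun h0' => hne ?_
      show μ w + μ' w = 0
      rw [not_not.1 h0, h0', add_zero]
  · rw [← finsum_add_distrib (hX.finite_support_summand hD hφ v hμ N) (hX.finite_support_summand hD' hφ' v hμ' N')]
    refine finsum_congr fun w => ?_
    by_cases hw : w ⋖ v
    · simp only [hw, finsum_true]
      by_cases h0 : μ w ≠ 0
      · simp only [if_pos h0]
        by_cases h0' : μ' w = 0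
        · rw [h0']
          ring
        · rw [huniq w _ _ hw (hN w hw h0) (hN' w hw h0')]
          ring
      · simp only [if_neg h0]
        rw [not_not.1 h0]
        ring
    · simp only [hw, finsum_false, add_zero]

/-- `(D + D') · C = D · C + D' · C` for every integral curve (indeed for every `v`) on a normal quasi-compact scheme. -/
theorem IsIntersectionNumber.curve_add [CompactSpace X] (hX : IsNormalScheme X) {D D' : X → ℤ} (hD : IsWeilDivisor D)
    (hD' : IsWeilDivisor D') {c : X} {n n' : ℤ} (h : IsIntersectionNumber [D] c n)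
    (h' : IsIntersectionNumber [D'] c n') : IsIntersectionNumber [D + D'] c (n + n') :=
  IsIntersectionNumber.cons_add hX hD hD' (fun _ _ _ _ ha hb => ha.2.trans hb.2.symm) h h'

/-- `(j D) · C = j (D · C)`, `j ≥ 1`. -/
theorem IsIntersectionNumber.curve_nsmul [CompactSpace X] (hX : IsNormalScheme X) {D : X → ℤ} (hD : IsWeilDivisor D)
    {c : X} {n : ℤ} (h : IsIntersectionNumber [D] c n) (j : ℕ) :
    IsIntersectionNumber [(j + 1) • D] c ((j + 1 : ℕ) * n) := by
  induction j with
  | zero => simpa using h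
  | succ j ih =>
    have := IsIntersectionNumber.curve_add hX (hD.nsmul_int (j + 1)) hD ih h
    rw [← succ_nsmul] at this
    convert this using 1
    push_cast
    ring

end Additivity

end Claimed.Open.R035
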