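import Claimed.Open.R035.SanityMultiples
import Claimed.Open.R035.SanityFiniteSum

/-!
# Sanity check: the nef `ℚ`-divisors form a convex cone

`IsNef` of `Statement.lean` is checked in the other files on one example and one non-example on
`(ℙ¹)³`.  Here are the first structural facts, for **every** normal integral quasi-compact locally
Noetherian scheme `X`, i.e. for every `X` of `Statement.lean`:

* `NefCone.isIntersectionNumber_add_curve` : the degree of a Cartier divisor on a curve is additive,
  `((D + D') · C) = (D · C) + (D' · C)`, in the relational form of `IsIntersectionNumber`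
  (local equations `φ φ'`; the two `finsum`s are finite sums by
  `IsNormalScheme.finite_support_summand`);
* `NefCone.isCartierDivisor_add` : the sum of two Cartier divisors is Cartier;
* `NefCone.isNef_add` : `L`, `L'` nef `→ L + L'` nef.  Together with `Multiples.isNef_smul_iff` the nef
  `ℚ`-divisors are closed under sums and positive integral multiples;
* `NefCone.isSemiample_add` : the same for `IsSemiample` (on every integral locally Noetherian `X`).
-/

set_option autoImplicit false

open AlgebraicGeometry CategoryTheory Order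

universe u

namespace Claimed.Open.R035

namespace NefCone

variable {X : Scheme.{u}} [IsIntegral X] [IsLocallyNoetherian X]

omit [IsIntegral X] [IsLocallyNoetherian X] in
/-- The sum of two Weil divisors is a Weil divisor. -/
theorem isWeilDivisor_add {D D' : X → ℤ} (hD : IsWeilDivisor D) (hD' : IsWeilDivisor D') :
    IsWeilDivisor (D + D') := by
  have key : ∀ z, (D + D') z ≠ 0 → D z ≠ 0 ∨ D' z ≠ 0 := by
    intro z hz
    by_contra hcon
    rw [not_or, not_not, not_not] at hcon
    exact hz (by simp [hcon.1, hcon.2])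
  refine ⟨(hD.1.union hD'.1).subset fun z hz => key z hz, fun z hz => ?_⟩
  rcases key z hz with h | h
  · exact hD.2 z h
  · exact hD'.2 z h

/-- `φ φ'` is a local equation of `D + D'`. -/
theorem isLocalEquation_mul {D D' : X → ℤ} {x : X} {φ φ' : X.functionField}
    (h : IsLocalEquation D x φ) (h' : IsLocalEquation D' x φ') :
    IsLocalEquation (D + D') x (φ * φ') := by
  refine ⟨mul_ne_zero h.1 h'.1, fun z hz hzx => ?_⟩
  rw [Scheme.ord_mul h.1 h'.1, h.2 z hz hzx, h'.2 z hz hzx, Pi.add_apply]

/-- The sum of two Cartier divisors is a Cartier divisor. -/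
theorem isCartierDivisor_add {D D' : X → ℤ} (hD : IsCartierDivisor D)
    (hD' : IsCartierDivisor D') : IsCartierDivisor (D + D') := by
  refine ⟨isWeilDivisor_add hD.1 hD'.1, fun x => ?_⟩
  obtain ⟨φ, hφ⟩ := hD.2 x
  obtain ⟨φ', hφ'⟩ := hD'.2 x
  exact ⟨φ * φ', isLocalEquation_mul hφ hφ'⟩

omit [IsLocallyNoetherian X] in
/-- The multiplicities of the restriction of `D + D'` are the sums of the multiplicities. -/
theorem isRestrictionOrder_mul {φv φw φv' φw' : X.functionField} {v w : X} {μ μ' : ℤ}
    (h : IsRestrictionOrder φv φw v w μ) (h' : IsRestrictionOrder φv' φw' v w μ') :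
    IsRestrictionOrder (φv * φv') (φw * φw') v w (μ + μ') := by
  obtain ⟨hs, u, hu, ho⟩ := h
  obtain ⟨hs', u', hu', ho'⟩ := h'
  refine ⟨hs, u * u', ?_, ?_⟩
  · rw [map_mul, hu, hu', div_mul_div_comm]
  · rw [map_mul]
    exact ho.mul ho'

/-- **The degree on a curve is additive.** -/
theorem isIntersectionNumber_add_curve [CompactSpace X] (hX : IsNormalScheme X) {D D' : X → ℤ}
    (hD : IsWeilDivisor D) (hD' : IsWeilDivisor D') {c : X} {n n' : ℤ}
    (h : IsIntersectionNumber [D] c n) (h' : IsIntersectionNumber [D'] c n') :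
    IsIntersectionNumber [D + D'] c (n + n') := by
  obtain ⟨φ, μ, N, h1, h2, h3, rfl⟩ := h
  obtain ⟨φ', μ', N', h1', h2', h3', rfl⟩ := h'
  refine ⟨fun x => φ x * φ' x, fun w => μ w + μ' w, fun _ => 1,
    fun x => isLocalEquation_mul (h1 x) (h1' x),
    fun w hw => isRestrictionOrder_mul (h2 w hw) (h2' w hw), fun w hw hμ => ?_, ?_⟩
  · by_cases h0 : μ w = 0
    · have h0' : μ' w ≠ 0 := fun h00 => hμ (by simp [h0, h00])
      exact ⟨(h3' w hw h0').1, rfl⟩
    · exact ⟨(h3 w hw h0).1, rfl⟩
  · rw [← finsum_add_distrib (hX.finite_support_summand hD h1 c h2 N)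
      (hX.finite_support_summand hD' h1' c h2' N')]
    refine finsum_congr fun w => ?_
    by_cases hw : w ⋖ c
    · have e1 : μ w * N w = μ w := by
        by_cases h0 : μ w = 0
        · simp [h0]
        · rw [(h3 w hw h0).2, mul_one]
      have e2 : μ' w * N' w = μ' w := by
        by_cases h0 : μ' w = 0
        · simp [h0]
        · rw [(h3' w hw h0).2, mul_one]
      simp [hw, e1, e2]
    · simp [hw]

omit [IsIntegral X] [IsLocallyNoetherian X] in
/-- `m' (m L) + m (m' L') = (m' m) (L + L')`. -/
theorem isMultiple_add {m m' : ℕ} {L L' : X → ℚ} {D D' : X → ℤ} (h : IsMultiple m L D)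
    (h' : IsMultiple m' L' D') :
    IsMultiple (m' * m) (fun z => L z + L' z) (m' • D + m • D') := by
  refine ⟨Nat.mul_pos h'.1 h.1, fun z => ?_⟩
  have e := h.2 z
  have e' := h'.2 z
  have e3 : (m' • D + m • D') z = m' * D z + m * D' z := by
    simp [Pi.add_apply]
  rw [e3]
  push_cast
  rw [e, e']
  ring

/-- **The sum of two nef `ℚ`-divisors is nef.** -/
theorem isNef_add [CompactSpace X] (hX : IsNormalScheme X) {L L' : X → ℚ} (h : IsNef L)
    (h' : IsNef L') : IsNef (fun z => L z + L' z) := by
  obtain ⟨m, D, hm, hD, hn⟩ := h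
  obtain ⟨m', D', hm', hD', hn'⟩ := h'
  obtain ⟨i, rfl⟩ : ∃ i, m = i + 1 := ⟨m - 1, by have := hm.1; omega⟩
  obtain ⟨i', rfl⟩ : ∃ i', m' = i' + 1 := ⟨m' - 1, by have := hm'.1; omega⟩
  have c1 := IitakaCartier.isCartierDivisor_nsmul hD (i' + 1)
  have c2 := IitakaCartier.isCartierDivisor_nsmul hD' (i + 1)
  refine ⟨_, _, isMultiple_add hm hm', isCartierDivisor_add c1 c2, fun c hc => ?_⟩
  obtain ⟨n, a1, a2⟩ := hn c hc
  obtain ⟨n', a1', a2'⟩ := hn' c hc
  exact ⟨_, isIntersectionNumber_add_curve hX c1.1 c2.1
    (Multiples.isIntersectionNumber_nsmul_head a1 i')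
    (Multiples.isIntersectionNumber_nsmul_head a1' i), by positivity⟩

/-- `s s'` does not vanish where `s` and `s'` do not vanish. -/
theorem isNonvanishingAt_mul {D D' : X → ℤ} {s s' : X.functionField} {x : X}
    (h : IsNonvanishingAt D s x) (h' : IsNonvanishingAt D' s' x) :
    IsNonvanishingAt (D + D') (s * s') x := by
  refine ⟨mul_ne_zero h.1 h'.1, fun z hz hzx => ?_⟩
  have e := h.2 z hz hzx
  have e' := h'.2 z hz hzx
  rw [Scheme.ord_mul h.1 h'.1, Pi.add_apply]
  omega

/-- The sum of two globally generated divisors is globally generated. -/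
theorem isGloballyGenerated_add {D D' : X → ℤ} (h : IsGloballyGenerated D)
    (h' : IsGloballyGenerated D') : IsGloballyGenerated (D + D') := by
  intro x
  obtain ⟨s, a1, a2⟩ := h x
  obtain ⟨s', a1', a2'⟩ := h' x
  exact ⟨s * s', IitakaCartier.isSection_mul a1 a1', isNonvanishingAt_mul a2 a2'⟩

/-- **The sum of two semiample `ℚ`-divisors is semiample.** -/
theorem isSemiample_add {L L' : X → ℚ} (h : IsSemiample L) (h' : IsSemiample L') :
    IsSemiample (fun z => L z + L' z) := by
  obtain ⟨m, D, hm, hD, hg⟩ := h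
  obtain ⟨m', D', hm', hD', hg'⟩ := h'
  exact ⟨_, _, isMultiple_add hm hm',
    isCartierDivisor_add (IitakaCartier.isCartierDivisor_nsmul hD m')
      (IitakaCartier.isCartierDivisor_nsmul hD' m),
    isGloballyGenerated_add (Multiples.semiample_witness_nsmul hg m')
      (Multiples.semiample_witness_nsmul hg' m)⟩

end NefCone

end Claimed.Open.R035
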