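import Claimed.Open.R035.Statement

/-!
# Sanity checks for the definitions of `Claimed.Open.R035.Statement`: first properties
-/

set_option autoImplicit false

open AlgebraicGeometry CategoryTheory Order

universe u

namespace Claimed.Open.R035

section Forms

variable (k : Type u) [Field k] {F : Type u} [Field F] [Algebra k F]

/-- Vanishing to order at least `m` implies vanishing to order at least `m' ≤ m`. -/
theorem FormOrdGE.mono {n : ℕ} {R : Subring F} {v : F → ℤ} {ω : ⋀[F]^n Ω[F⁄k]} {m m' : ℤ}
    (h : FormOrdGE k n R v ω m) (hm : m' ≤ m) : FormOrdGE k n R v ω m' := by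
  obtain ⟨g, hg, hmg, η, hη, rfl⟩ := h
  exact ⟨g, hg, hm.trans hmg, η, hη, rfl⟩

/-- The order of a form along `(R, v)` is unique. -/
theorem IsFormOrd.unique {n : ℕ} {R : Subring F} {v : F → ℤ} {ω : ⋀[F]^n Ω[F⁄k]} {m m' : ℤ}
    (h : IsFormOrd k n R v ω m) (h' : IsFormOrd k n R v ω m') : m = m' := by
  by_contra hne
  rcases lt_or_gt_of_ne hne with hlt | hlt
  · exact h.2 (FormOrdGE.mono k h'.1 hlt)
  · exact h'.2 (FormOrdGE.mono k h.1 hlt)

end Forms

/-- A unit of `A` has order `0`. -/
theorem isOrdAlong_of_isUnit {F : Type u} [Field F] (A : Subring F) (a : A) (ha : IsUnit a) :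
    IsOrdAlong A (a : F) 0 := by
  refine ⟨a, 1, 0, 0, ha.ne_zero, one_ne_zero, by simp, ?_, ?_, by simp⟩
  · simpa using Ring.ord_of_isUnit ha
  · simp

section Divisors

variable {X : Scheme.{u}} [IsIntegral X] [IsLocallyNoetherian X]

/-- The zero divisor is Cartier, with local equation `1`. -/
theorem isCartierDivisor_zero : IsCartierDivisor (0 : X → ℤ) := by
  refine ⟨⟨by simp, by simp⟩, fun x => ⟨1, one_ne_zero, fun z hz _ => ?_⟩⟩
  have h := Scheme.ord_mul (X := X) (x := z) (f := 1) (g := 1) one_ne_zero one_ne_zero
  simp only [mul_one, Pi.zero_apply] at h ⊢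
  omega

/-- `0` is a section of every `𝒪_X(D)`. -/
theorem isSection_zero (D : X → ℤ) : IsSection D 0 := fun h => absurd rfl h

/-- The intersection number of the empty list of divisors with a closed point is `1`. -/
theorem isIntersectionNumber_nil {v : X} (hv : IsClosed {v}) :
    IsIntersectionNumber [] v 1 := ⟨hv, rfl⟩

end Divisors

/-- The identity of a normal scheme is a birational model. -/
theorem isBirationalModel_id {X : Scheme.{u}} [IsIntegral X] (hX : IsNormalScheme X) :
    IsBirationalModel (𝟙 X) where
  normal := hX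
  proper := inferInstance
  generic := rfl
  iso := inferInstance

end Claimed.Open.R035
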