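import Claimed.Open.R035.SanityAmple
import Claimed.Open.R035.SanityBasic

/-!
# Sanity check: `IsLogCanonical` is a real restriction (a non-example)

* `IsLogCanonical.coeff_le_one`: on a normal scheme `X` with `K = div ω`, if the pair with
  `L = K + B` is log canonical then every coefficient `B z = L z - K z` is at most `1`
  (the identity of `X` is a birational model, and the discrepancy of a prime divisor `z` of `X` is
  `- B z`).  This uses the exactness of `IsFormOrd`.
* `CubeAtlas.not_isLogCanonical`: on `(ℙ¹)³` the pair `(X, B + S)`, in which the fibre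
  `S = {x₀ = 1}` has coefficient `2`, is not log canonical, although `(X, B)` is
  (`CubeAtlas.isLogCanonical`).
-/

set_option autoImplicit false

open AlgebraicGeometry CategoryTheory Order

universe u

namespace Claimed.Open.R035

section General

variable {X : Scheme.{u}} [IsIntegral X]

theorem pullbackFn_id (hη : (𝟙 X : X ⟶ X) (genericPoint X) = genericPoint X)
    (g : X.functionField) : pullbackFn (𝟙 X) hη g = g := by
  unfold pullbackFn
  rw [Scheme.Hom.stalkMap_id]
  change (X.presheaf.stalkSpecializes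
    (specializes_rfl : genericPoint X ⤳ genericPoint X)).hom g = g
  rw [TopCat.Presheaf.stalkSpecializes_refl]
  rfl

theorem modelSubring_id (hη : (𝟙 X : X ⟶ X) (genericPoint X) = genericPoint X) (z : X) :
    modelSubring (𝟙 X) hη z = stalkSubring z := by
  ext g
  rw [modelSubring, Subring.mem_comap, pullbackFn_id]

variable [IsLocallyNoetherian X] {k : Type u} [Field k]

/-- **The coefficients of the boundary of a log canonical pair are at most `1`.** -/
theorem IsLogCanonical.coeff_le_one {π : X ⟶ Spec (CommRingCat.of k)} {n : ℕ} {ω : RatForm π n}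
    {K : X → ℤ} {L : X → ℚ} (hlc : IsLogCanonical π n ω L) (hX : IsNormalScheme X)
    (hK : IsDivisorOfForm π n ω K) {z : X} (hz : coheight z = 1) : L z - K z ≤ 1 := by
  let _ := fnFieldAlgebra π
  obtain ⟨m, D, φ, c, hm, hφ, hc, hle⟩ := hlc X (𝟙 X) (isBirationalModel_id hX) z hz
  rw [modelSubring_id] at hc
  simp only [pullbackFn_id] at hc hle
  have hcK : c ≤ K z := by
    by_contra hcon
    exact (hK.2 z hz).2 (FormOrdGE.mono k hc (by omega))
  have hD : Scheme.ord φ z = D z := hφ.2 z hz specializes_rfl
  have hm0 : (0 : ℚ) < m := by exact_mod_cast hm.1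
  rw [hD, hm.2 z, mul_div_cancel_left₀ _ hm0.ne'] at hle
  have : (c : ℚ) ≤ K z := by exact_mod_cast hcK
  linarith

end General

namespace CubeAtlas

variable {k : Type u} [Field k] (A : CubeAtlas k)

noncomputable section

/-- The generic point of the fibre `{x₀ = 1}`. -/
def ptS : A.X :=
  A.pt (fun _ => true) ⟨Ideal.span {(MvPolynomial.X 0 - 1 : MvPolynomial (Fin 3) k)},
    (Ideal.span_singleton_prime prime_X_sub_one.ne_zero).mpr prime_X_sub_one⟩

theorem coheight_ptS : coheight A.ptS = 1 :=
  coheight_pt.trans (Ideal.height_span_singleton_eq_one_of_mem_nonZeroDivisors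
    (mem_nonZeroDivisors_of_ne_zero prime_X_sub_one.ne_zero) prime_X_sub_one.not_isUnit)

/-- The fibre `{x₀ = 1}` is reduced: its coefficient in `Sdiv` is `1`. -/
theorem Sdiv_ptS : A.Sdiv A.ptS = 1 := by
  have h := ord_ι_of_prime (A := A) (ε := fun _ => true) (prime_X_sub_one (k := k))
    (𝔭 := ⟨Ideal.span {(MvPolynomial.X 0 - 1 : MvPolynomial (Fin 3) k)},
      (Ideal.span_singleton_prime prime_X_sub_one.ne_zero).mpr prime_X_sub_one⟩)
    (Ideal.height_span_singleton_eq_one_of_mem_nonZeroDivisors
      (mem_nonZeroDivisors_of_ne_zero prime_X_sub_one.ne_zero) prime_X_sub_one.not_isUnit)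
    (Ideal.mem_span_singleton_self _)
  rw [map_sub, map_one, A.ι_X, u, if_pos rfl] at h
  unfold Sdiv ptS
  rw [h]
  rfl

/-- **A non-example:** the pair `(X, B + S)`, where the fibre `S = {x₀ = 1}` gets the coefficient
`2`, is not log canonical. -/
theorem not_isLogCanonical :
    ¬ IsLogCanonical A.π 3 A.ω (fun z => (A.Kdiv z : ℚ) + (A.Bdiv z + A.Sdiv z)) := by
  intro h
  have h1 := h.coeff_le_one A.isNormalScheme A.isDivisorOfForm A.coheight_ptS
  have h2 : (1 : ℚ) ≤ A.Bdiv A.ptS := by
    unfold Bdiv
    rw [A.Sdiv_ptS]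
    have : (0 : ℤ) ≤ ∑ i, |Scheme.ord (A.x i) A.ptS| := Finset.sum_nonneg fun i _ => abs_nonneg _
    exact_mod_cast (by omega : (1 : ℤ) ≤ ∑ i, |Scheme.ord (A.x i) A.ptS| + 1)
  rw [A.Sdiv_ptS] at h1
  norm_num at h1
  linarith

end

end CubeAtlas

end Claimed.Open.R035
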