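import Claimed.Open.R035.SanityIitaka

/-!
# Sanity check: `IsAmpleDivisor` is not automatic (non-examples)

`IsAmpleDivisor` enters `Statement` twice: through `IsProjective` and through the ample divisor `H`
of `HasNumericalDimensionOne`.  `SanityAmple.lean` shows that `H = ∑ᵢ {xᵢ = ∞}` is ample on
`(ℙ¹)³`.  This file shows that the definition refuses what it has to refuse.

* `IsAmpleDivisor.iitakaDimGE` (any integral locally Noetherian `k`-scheme `X`): **an ample divisor
  is big**.  If `t₁, …, t_r ∈ k(X)` are algebraically independent over `k`, then `κ(X, H) ≥ r`.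
  Proof: let `X_s` be one of the affine sets of the definition, `s ∈ H⁰(nH)`.  The function field is
  the fraction field of `Γ(X_s)`, so `tᵢ = aᵢ / b` with `aᵢ, b` regular on `X_s`; a function `f`
  regular on `X_s` has poles only along the components of `div s + nH`, so `f s^N ∈ H⁰(N n H)` for
  `N ≫ 0` (`NotAmple.exists_isSection_mul_pow`; Hartshorne II 5.14).
* On `(ℙ¹)³`: every ample divisor has `κ = 3` (`CubeAtlas.iitakaDim_of_isAmpleDivisor`); hence
  * the fibre `S = K_X + B = {x₀ = 1}` of the example of `Sanity.lean`, which is effective, nonzero,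
    nef and semiample, is **not** ample, and no multiple `j S` is (`j = 0`: the zero divisor);
  * the canonical divisor `K_X` is **not** ample.
-/

set_option autoImplicit false

open AlgebraicGeometry CategoryTheory Order

universe u

namespace Claimed.Open.R035

namespace NotAmple

variable {X : Scheme.{u}} [IsIntegral X] [IsLocallyNoetherian X]

omit [IsIntegral X] [IsLocallyNoetherian X] in
/-- Two points of codimension one, one of which specialises to the other, are equal. -/
theorem eq_of_specializes {z z' : X} (h : z' ⤳ z) (hz : coheight z = 1)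
    (hz' : coheight z' = 1) : z' = z := by
  by_contra hne
  have hlt : z < z' := point_lt_of_le_of_ne (Scheme.le_iff_specializes.mpr h) (Ne.symm hne)
  have h1 := coheight_add_one_le hlt
  rw [hz, hz'] at h1
  have h3 : ((1 + 1 : ℕ) : ℕ∞) ≤ ((1 : ℕ) : ℕ∞) := by exact_mod_cast h1
  have h4 : 1 + 1 ≤ 1 := by exact_mod_cast h3
  omega

/-- At a point `z` of codimension one, the section `s` of `𝒪_X(D)` does not vanish iff the
coefficient of `div s + D` at `z` is zero. -/
theorem isNonvanishingAt_iff {D : X → ℤ} {s : X.functionField} (hs : s ≠ 0) {z : X}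
    (hz : coheight z = 1) : IsNonvanishingAt D s z ↔ Scheme.ord s z + D z = 0 := by
  constructor
  · exact fun h => h.2 z hz specializes_rfl
  · intro h
    refine ⟨hs, fun z' hz' hzz => ?_⟩
    rw [eq_of_specializes hzz hz hz']
    exact h

/-- On a quasi-compact scheme a rational function has finitely many zeros and poles. -/
theorem finite_ord_support [CompactSpace X] (g : X.functionField) :
    {z : X | Scheme.ord g z ≠ 0}.Finite := by
  by_cases hg : g = 0
  · simp [hg]
  have hex : ∀ x : X, ∃ W : X.Opens, IsAffineOpen W ∧ x ∈ W := fun x => by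
    obtain ⟨W, hW, hx, -⟩ := exists_isAffineOpen_mem_and_subset (U := ⊤) (x := x) trivial
    exact ⟨W, hW, hx⟩
  choose W hW hxW using hex
  obtain ⟨T, hT⟩ := isCompact_univ.elim_finite_subcover (fun x => (W x : Set X))
    (fun x => (W x).isOpen) fun x _ => Set.mem_iUnion.mpr ⟨x, hxW x⟩
  refine (isWeilDivisor_ord (ι := T) (V := fun i => W i.1) (fun i => hW i.1) (fun y => ?_) hg).1
  obtain ⟨i, hi, hy⟩ := Set.mem_iUnion₂.mp (hT (Set.mem_univ y))
  exact ⟨⟨i, hi⟩, hy⟩

/-- The pole orders of a rational function are bounded. -/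
theorem exists_neg_le_ord [CompactSpace X] (f : X.functionField) :
    ∃ N₀ : ℕ, ∀ z : X, - (N₀ : ℤ) ≤ Scheme.ord f z := by
  classical
  have hfin := finite_ord_support f
  refine ⟨∑ z ∈ hfin.toFinset, (Scheme.ord f z).natAbs, fun z => ?_⟩
  by_cases hz : Scheme.ord f z = 0
  · rw [hz]
    omega
  · have hmem : z ∈ hfin.toFinset := by simpa using hz
    have h1 := Finset.single_le_sum (f := fun z => (Scheme.ord f z).natAbs)
      (fun _ _ => Nat.zero_le _) hmem
    have h2 : ((Scheme.ord f z).natAbs : ℤ) ≤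
        ((∑ z ∈ hfin.toFinset, (Scheme.ord f z).natAbs : ℕ) : ℤ) := by exact_mod_cast h1
    omega

/-- Let `s` be a section of `𝒪_X(D)` with non-vanishing locus `U = X_s`.  If the rational function
`f` is regular on `U`, then `f s^N` is a section of `𝒪_X(N D)` for all large `N`
(Hartshorne II, Lemma 5.14 (b)). -/
theorem exists_isSection_mul_pow [CompactSpace X] {D : X → ℤ} {s : X.functionField} {U : X.Opens}
    (hs0 : s ≠ 0) (hs : IsSection D s) (hU : ∀ y : X, y ∈ U ↔ IsNonvanishingAt D s y)
    {f : X.functionField} (hf : ∀ z ∈ U, f ∈ stalkSubring z) :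
    ∃ N₀ : ℕ, ∀ N : ℕ, N₀ ≤ N → IsSection (N • D) (f * s ^ N) := by
  by_cases hf0 : f = 0
  · exact ⟨0, fun N _ => by rw [hf0, zero_mul]; exact fun h => absurd rfl h⟩
  obtain ⟨N₀, hN₀⟩ := exists_neg_le_ord f
  refine ⟨N₀, fun N hN _ z hz => ?_⟩
  have hsN : s ^ N ≠ 0 := pow_ne_zero _ hs0
  have h0 : 0 ≤ Scheme.ord s z + D z := hs hs0 z hz
  have hsm : (N • D) z = N * D z := by simp
  rw [Scheme.ord_mul hf0 hsN, ord_pow hs0, hsm]
  by_cases hzU : z ∈ U
  · have h1 := ord_nonneg_of_mem (hf z hzU)
    have h2 : 0 ≤ (N : ℤ) * (Scheme.ord s z + D z) := mul_nonneg (Int.natCast_nonneg N) h0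
    linarith
  · have h1 : Scheme.ord s z + D z ≠ 0 := fun h =>
      hzU ((hU z).mpr ((isNonvanishingAt_iff hs0 hz).mpr h))
    have h2 : 1 ≤ Scheme.ord s z + D z := by omega
    have h3 : (N : ℤ) * 1 ≤ (N : ℤ) * (Scheme.ord s z + D z) :=
      mul_le_mul_of_nonneg_left h2 (Int.natCast_nonneg N)
    have h4 := hN₀ z
    have h5 : (N₀ : ℤ) ≤ N := by exact_mod_cast hN
    linarith

end NotAmple

section General

variable {k : Type u} [Field k] {X : Scheme.{u}} [IsIntegral X] [IsLocallyNoetherian X]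

/-- **An ample divisor is big**: if the function field of `X` contains `r` algebraically independent
elements, then `κ(X, H) ≥ r` for every ample divisor `H`. -/
theorem IsAmpleDivisor.iitakaDimGE {π : X ⟶ Spec (CommRingCat.of k)} {H : X → ℤ}
    (hH : IsAmpleDivisor H) {r : ℕ} {t : Fin r → X.functionField}
    (ht : letI := fnFieldAlgebra π; AlgebraicIndependent k t) :
    IitakaDimGE π (fun z => (H z : ℚ)) r := by
  let _ := fnFieldAlgebra π
  obtain ⟨-, hcomp, hcov⟩ := hH
  obtain ⟨n, s, U, hn, hs, hU, hxU, hmem⟩ := hcov (genericPoint X)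
  have hs0 : s ≠ 0 := ((hmem _).mp hxU).1
  have hne : Nonempty U := ⟨⟨_, hxU⟩⟩
  have hfr := functionField_isFractionRing_of_isAffineOpen X U hU
  -- regular functions on `U`
  have hreg : ∀ (c : Γ(X, U)) (z : X), z ∈ U →
      algebraMap Γ(X, U) X.functionField c ∈ stalkSubring z := fun c z hz =>
    ⟨X.presheaf.germ U z hz c, algebraMap_germ hxU hz c⟩
  -- a common denominator of the `t i`
  obtain ⟨b, hb⟩ := IsLocalization.exist_integer_multiples_of_finite (nonZeroDivisors Γ(X, U)) t
  choose a ha using hb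
  set β : X.functionField := algebraMap Γ(X, U) X.functionField b with hβ
  have hβ0 : β ≠ 0 := by
    rw [hβ]
    exact (map_ne_zero_iff _ (IsFractionRing.injective Γ(X, U) X.functionField)).mpr
      (nonZeroDivisors.ne_zero b.2)
  have hat : ∀ i, algebraMap Γ(X, U) X.functionField (a i) = β * t i := fun i => by
    rw [ha i, Algebra.smul_def]
  obtain ⟨N₁, hN₁⟩ := NotAmple.exists_isSection_mul_pow hs0 hs hmem (f := β) (hreg b)
  have hex : ∀ i, ∃ N₀ : ℕ, ∀ N : ℕ, N₀ ≤ N → IsSection (N • n • H) (β * t i * s ^ N) := fun i =>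
    NotAmple.exists_isSection_mul_pow hs0 hs hmem (f := β * t i) (hat i ▸ hreg (a i))
  choose N₂ hN₂ using hex
  set N : ℕ := N₁ + ∑ i, N₂ i + 1 with hN
  have hle : ∀ i, N₂ i ≤ N := fun i => by
    have := Finset.single_le_sum (f := N₂) (fun _ _ => Nat.zero_le _) (Finset.mem_univ i)
    omega
  refine ⟨N * n, N • n • H, β * s ^ N, t, ⟨Nat.mul_pos (by omega) hn, fun z => ?_⟩,
    mul_ne_zero hβ0 (pow_ne_zero _ hs0), hN₁ N (by omega), fun i => ?_, ht⟩
  · have h1 : (N • n • H) z = (N : ℤ) * ((n : ℤ) * H z) := by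
      rw [Pi.smul_apply, Pi.smul_apply, nsmul_eq_mul, nsmul_eq_mul]
    rw [h1]
    push_cast
    ring
  · have := hN₂ i N (hle i)
    rwa [show t i * (β * s ^ N) = β * t i * s ^ N by ring]

end General

namespace CubeAtlas

variable {k : Type u} [Field k] {A : CubeAtlas k}

/-- On `(ℙ¹)³` an ample divisor has three algebraically independent ratios of sections. -/
theorem iitakaDimGE_three_of_isAmpleDivisor {H : A.X → ℤ} (hH : IsAmpleDivisor H) :
    IitakaDimGE A.π (fun z => (H z : ℚ)) 3 := by
  have h := A.algebraicIndependent_u tt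
  exact hH.iitakaDimGE (t := A.u tt) h

/-- **Every ample divisor on `(ℙ¹)³` has Iitaka dimension `3`.** -/
theorem iitakaDim_of_isAmpleDivisor {H : A.X → ℤ} (hH : IsAmpleDivisor H) :
    iitakaDim A.π (fun z => (H z : ℚ)) = 3 :=
  iitakaDim_eq_of_iff (iitakaDimGE_three_of_isAmpleDivisor hH) (A.not_iitakaDimGE_four _)

/-- **Non-example of `IsAmpleDivisor`:** no multiple `j S`, `j ≥ 0`, of the fibre
`S = {x₀ = 1} = K_X + B` is ample. -/
theorem not_isAmpleDivisor_nsmul_Sdiv (A : CubeAtlas k) (j : ℕ) :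
    ¬ IsAmpleDivisor (j • A.Sdiv) := by
  intro hH
  obtain ⟨m, D, s, t, hm, hs0, hs, ht, hind⟩ :=
    (iitakaDimGE_three_of_isAmpleDivisor hH).mono (r' := 2) (by norm_num)
  have hD : ∀ z, D z = ((m * j : ℕ) : ℤ) * A.Sdiv z := fun z => by
    have h0 : (D z : ℚ) = m * (((j • A.Sdiv) z : ℤ) : ℚ) := hm.2 z
    have h1 : (D z : ℚ) = (((m * j : ℕ) : ℤ) * A.Sdiv z : ℤ) := by
      rw [h0]
      simp only [Pi.smul_apply, nsmul_eq_mul]
      push_cast
      ring
    exact_mod_cast h1
  refine not_algebraicIndependent_of_mem_adjoin_simple (x := A.x 0) (fun i => ?_) hind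
  have h1 : t i = t i * s / s := by rw [mul_div_cancel_right₀ _ hs0]
  rw [h1]
  exact div_mem (mem_adjoin_of_isSection_Sdiv hD (ht i)) (mem_adjoin_of_isSection_Sdiv hD hs)

/-- **Non-example of `IsAmpleDivisor`:** the fibre `S = {x₀ = 1} = K_X + B` of the example of
`Sanity.lean` (effective, nonzero, nef, semiample, `ν = κ = 1`) is not ample. -/
theorem not_isAmpleDivisor_Sdiv (A : CubeAtlas k) : ¬ IsAmpleDivisor A.Sdiv := by
  have h := A.not_isAmpleDivisor_nsmul_Sdiv 1
  rwa [one_smul] at h

/-- **Non-example of `IsAmpleDivisor`:** the zero divisor of `(ℙ¹)³` is not ample. -/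
theorem not_isAmpleDivisor_zero (A : CubeAtlas k) : ¬ IsAmpleDivisor (0 : A.X → ℤ) := by
  have h := A.not_isAmpleDivisor_nsmul_Sdiv 0
  rwa [zero_smul] at h

/-- **Non-example of `IsAmpleDivisor`:** the canonical divisor of `(ℙ¹)³` is not ample. -/
theorem not_isAmpleDivisor_Kdiv (A : CubeAtlas k) : ¬ IsAmpleDivisor A.Kdiv := by
  intro hH
  obtain ⟨m, D, s, t, hm, hs0, hs, -⟩ := iitakaDimGE_three_of_isAmpleDivisor hH
  exact hs0 (eq_zero_of_isSection_Kdiv hm hs)

end CubeAtlas

end Claimed.Open.R035
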