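import Mathlib

/-!
# Commutative algebra of `k[x₀, x₁, x₂]` used by the sanity checks of `R035`

Krull dimension, heights, the catenary property, a complete flag of primes, and finiteness of
the primes covering a given prime and containing a given element.
-/

set_option autoImplicit false

universe u

namespace Claimed.Open.R035

variable {k : Type u} [Field k]

/-- `dim k[x₀, x₁, x₂] = 3`. -/
theorem ringKrullDim_mvPolynomial_three : ringKrullDim (MvPolynomial (Fin 3) k) = 3 := by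
  rw [MvPolynomial.ringKrullDim_of_isNoetherianRing, ringKrullDim_eq_zero_of_field]
  simp

/-- Every prime of `k[x₀, x₁, x₂]` has height at most `3`. -/
theorem height_le_three (𝔭 : PrimeSpectrum (MvPolynomial (Fin 3) k)) :
    𝔭.asIdeal.height ≤ 3 := by
  have h := Ideal.height_le_ringKrullDim_of_isPrime (I := 𝔭.asIdeal)
  rw [ringKrullDim_mvPolynomial_three] at h
  exact WithBot.coe_le_coe.mp (h.trans_eq (rfl : (3 : WithBot ℕ∞) = ((3 : ℕ∞) : WithBot ℕ∞)))

/-- A prime covering `⊥` has height at most one. -/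
private theorem height_le_one_of_bot_covBy {𝔭 𝔮 : PrimeSpectrum (MvPolynomial (Fin 3) k)}
    (h : 𝔭 ⋖ 𝔮) (h0 : 𝔭.asIdeal = ⊥) : 𝔮.asIdeal.height ≤ 1 := by
  have hlt : 𝔭.asIdeal < 𝔮.asIdeal := h.lt
  have hne : 𝔮.asIdeal ≠ ⊥ := by
    rw [h0] at hlt
    exact hlt.ne'
  obtain ⟨f, hf𝔮, hf⟩ := Ideal.IsPrime.exists_mem_prime_of_ne_bot 𝔮.isPrime hne
  have hfp : (Ideal.span {f}).IsPrime := by
    rw [Ideal.span_singleton_prime hf.ne_zero]; exact hf
  let 𝔯 : PrimeSpectrum (MvPolynomial (Fin 3) k) := ⟨Ideal.span {f}, hfp⟩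
  have h1 : 𝔭 < 𝔯 := by
    change 𝔭.asIdeal < Ideal.span {f}
    rw [h0]
    exact bot_lt_iff_ne_bot.mpr (by simpa using hf.ne_zero)
  have h2 : 𝔯 ≤ 𝔮 := by
    change Ideal.span {f} ≤ 𝔮.asIdeal
    simpa [Ideal.span_singleton_le_iff_mem] using hf𝔮
  have h3 : 𝔯 = 𝔮 := by
    rcases h2.lt_or_eq with h4 | h4
    · exact absurd h4 (h.2 h1)
    · exact h4
  rw [← h3]
  exact Ideal.height_span_singleton_le_one hf.not_isUnit

/-- A prime covering a prime of height one has height at most two. -/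
private theorem height_le_two_of_covBy {𝔭 𝔮 : PrimeSpectrum (MvPolynomial (Fin 3) k)}
    (h : 𝔭 ⋖ 𝔮) (h1 : 𝔭.asIdeal.height = 1) : 𝔮.asIdeal.height ≤ 2 := by
  have hlt : 𝔭.asIdeal < 𝔮.asIdeal := h.lt
  have hne : 𝔭.asIdeal ≠ ⊥ := Ideal.ne_bot_of_height_eq_one h1
  obtain ⟨f, hf𝔭, hf⟩ := Ideal.IsPrime.exists_mem_prime_of_ne_bot 𝔭.isPrime hne
  have h𝔭 : 𝔭.asIdeal = Ideal.span {f} := Ideal.eq_span_singleton_of_height_eq_one h1 hf𝔭 hf
  have hfp : (Ideal.span {f}).IsPrime := h𝔭 ▸ 𝔭.isPrime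
  have hf𝔮 : f ∈ 𝔮.asIdeal := hlt.le hf𝔭
  have hsurj : Function.Surjective (Ideal.Quotient.mk (Ideal.span {f})) :=
    Ideal.Quotient.mk_surjective
  have hker : RingHom.ker (Ideal.Quotient.mk (Ideal.span {f})) ≤ 𝔮.asIdeal := by
    rw [Ideal.mk_ker, ← h𝔭]; exact hlt.le
  have hprime : (𝔮.asIdeal.map (Ideal.Quotient.mk (Ideal.span {f}))).IsPrime :=
    Ideal.map_isPrime_of_surjective hsurj hker
  have hq : (𝔮.asIdeal.map (Ideal.Quotient.mk (Ideal.span {f}))).height ≤ 1 := by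
    have := (Ideal.height_le_iff (p := 𝔮.asIdeal.map (Ideal.Quotient.mk (Ideal.span {f})))
      (n := 1)).mpr ?_
    · exact_mod_cast this
    intro q' hq' hq'lt
    let 𝔯 : PrimeSpectrum (MvPolynomial (Fin 3) k) :=
      ⟨q'.comap (Ideal.Quotient.mk (Ideal.span {f})), Ideal.comap_isPrime _ _⟩
    have hle : 𝔭 ≤ 𝔯 := by
      change 𝔭.asIdeal ≤ q'.comap (Ideal.Quotient.mk (Ideal.span {f}))
      rw [h𝔭]
      intro x hx
      rw [Ideal.mem_comap, Ideal.Quotient.eq_zero_iff_mem.mpr hx]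
      exact q'.zero_mem
    have hlt' : 𝔯 < 𝔮 := by
      change q'.comap (Ideal.Quotient.mk (Ideal.span {f})) < 𝔮.asIdeal
      have hc : (𝔮.asIdeal.map (Ideal.Quotient.mk (Ideal.span {f}))).comap
          (Ideal.Quotient.mk (Ideal.span {f})) = 𝔮.asIdeal := by
        rw [Ideal.comap_map_of_surjective _ hsurj, ← RingHom.ker_eq_comap_bot]
        exact sup_eq_left.mpr hker
      refine lt_of_le_of_ne ?_ ?_
      · rw [← hc]; exact Ideal.comap_mono hq'lt.le
      · intro heq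
        apply hq'lt.ne
        rw [← heq, Ideal.map_comap_of_surjective _ hsurj]
    have heq : 𝔭 = 𝔯 := by
      rcases hle.lt_or_eq with h4 | h4
      · exact absurd hlt' (h.2 h4)
      · exact h4
    have hq'bot : q' = ⊥ := by
      have h5 : q'.comap (Ideal.Quotient.mk (Ideal.span {f})) = Ideal.span {f} := by
        have := congrArg PrimeSpectrum.asIdeal heq
        rw [h𝔭] at this
        exact this.symm
      rw [← Ideal.map_comap_of_surjective _ hsurj q', h5, Ideal.map_quotient_self]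
    have : IsDomain (MvPolynomial (Fin 3) k ⧸ Ideal.span {f}) :=
      (Ideal.Quotient.isDomain_iff_prime _).mpr hfp
    rw [hq'bot, Ideal.height_bot]
    exact zero_lt_one
  calc 𝔮.asIdeal.height
      ≤ (𝔮.asIdeal.map (Ideal.Quotient.mk (Ideal.span {f}))).height + 1 :=
        Ideal.height_le_height_add_one_of_mem hf𝔮
    _ ≤ 1 + 1 := by gcongr
    _ = 2 := by norm_num

/-- `k[x₀, x₁, x₂]` is catenary: along a covering of primes the height grows by exactly `1`. -/
theorem height_eq_of_covBy {𝔭 𝔮 : PrimeSpectrum (MvPolynomial (Fin 3) k)} (h : 𝔭 ⋖ 𝔮) :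
    𝔮.asIdeal.height = 𝔭.asIdeal.height + 1 := by
  have hlt : 𝔭.asIdeal < 𝔮.asIdeal := h.lt
  have hge : 𝔭.asIdeal.height + 1 ≤ 𝔮.asIdeal.height :=
    Ideal.height_add_one_le_of_lt_of_isPrime hlt
  refine le_antisymm ?_ hge
  have h3 := height_le_three 𝔭
  have h3' := height_le_three 𝔮
  obtain ⟨a, ha⟩ : ∃ a : ℕ, 𝔭.asIdeal.height = a :=
    ⟨_, (ENat.natCast_toNat (ne_top_of_le_ne_top (by simp) h3)).symm⟩
  rw [ha] at h3 hge ⊢
  have ha3 : a ≤ 3 := by exact_mod_cast h3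
  interval_cases a
  · have h0 : 𝔭.asIdeal = ⊥ := Ideal.height_eq_zero_iff_eq_bot.mp (by simpa using ha)
    simpa using height_le_one_of_bot_covBy h h0
  · have := height_le_two_of_covBy h (by simpa using ha)
    refine this.trans (le_of_eq ?_)
    norm_num
  · refine h3'.trans (le_of_eq ?_)
    norm_num
  · exfalso
    have h4 : ((3 : ℕ) : ℕ∞) + 1 ≤ 3 := hge.trans h3'
    have h5 : ((3 + 1 : ℕ) : ℕ∞) ≤ ((3 : ℕ) : ℕ∞) := by exact_mod_cast h4
    have h6 : 3 + 1 ≤ 3 := by exact_mod_cast h5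
    omega

/-- A prime of height `3` in `k[x₀, x₁, x₂]` is maximal. -/
theorem isMaximal_of_height_eq_three {𝔭 : PrimeSpectrum (MvPolynomial (Fin 3) k)}
    (h : 𝔭.asIdeal.height = 3) : 𝔭.asIdeal.IsMaximal := by
  have : FiniteRingKrullDim (MvPolynomial (Fin 3) k) := by
    rw [finiteRingKrullDim_iff_ne_bot_and_top, ringKrullDim_mvPolynomial_three]
    exact ⟨by decide, by decide⟩
  apply Ideal.isMaximal_of_height_eq_ringKrullDim
  rw [h, ringKrullDim_mvPolynomial_three]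
  rfl

/-- The variables are prime elements. -/
theorem prime_X' (i : Fin 3) : Prime (MvPolynomial.X i : MvPolynomial (Fin 3) k) :=
  MvPolynomial.X_prime

/-- The translation `x₀ ↦ x₀ + c`, used to show that `x₀ - 1` is prime. -/
private noncomputable def shiftHom (c : k) :
    MvPolynomial (Fin 3) k →ₐ[k] MvPolynomial (Fin 3) k :=
  MvPolynomial.aeval (fun i : Fin 3 =>
    if i = 0 then MvPolynomial.X 0 + MvPolynomial.C c else MvPolynomial.X i)

private theorem shiftHom_comp (c d : k) (h : c + d = 0) :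
    (shiftHom c).comp (shiftHom d) = AlgHom.id k (MvPolynomial (Fin 3) k) := by
  apply MvPolynomial.algHom_ext
  intro i
  by_cases hi : i = 0
  · subst hi
    simp only [shiftHom, AlgHom.comp_apply, MvPolynomial.aeval_X, if_true, map_add,
      AlgHom.id_apply, MvPolynomial.aeval_C, MvPolynomial.algebraMap_eq]
    rw [add_assoc, ← MvPolynomial.C_add, h]
    simp
  · simp [shiftHom, hi]

private noncomputable def shiftEquiv (c : k) :
    MvPolynomial (Fin 3) k ≃ₐ[k] MvPolynomial (Fin 3) k :=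
  AlgEquiv.ofAlgHom (shiftHom c) (shiftHom (-c)) (shiftHom_comp c (-c) (by simp))
    (shiftHom_comp (-c) c (by simp))

/-- `x₀ - 1` is a prime element. -/
theorem prime_X_sub_one : Prime (MvPolynomial.X 0 - 1 : MvPolynomial (Fin 3) k) := by
  have h : (shiftEquiv (-1 : k)) (MvPolynomial.X 0) = MvPolynomial.X 0 - 1 := by
    simp [shiftEquiv, shiftHom, sub_eq_add_neg]
  rw [← h]
  exact (MulEquiv.prime_iff (shiftEquiv (-1 : k)).toMulEquiv).mpr (prime_X' 0)

/-- The evaluation killing the first `j` variables. -/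
private noncomputable def flagHom (k : Type u) [Field k] (j : ℕ) :
    MvPolynomial (Fin 3) k →ₐ[k] MvPolynomial (Fin 3) k :=
  MvPolynomial.aeval (fun i : Fin 3 =>
    if i.val < j then (0 : MvPolynomial (Fin 3) k) else MvPolynomial.X i)

/-- The flag `0 ⊂ (x₀) ⊂ (x₀, x₁) ⊂ (x₀, x₁, x₂)` of primes of `k[x₀, x₁, x₂]`. -/
noncomputable def flag (k : Type u) [Field k] (j : ℕ) :
    PrimeSpectrum (MvPolynomial (Fin 3) k) :=
  ⟨RingHom.ker (MvPolynomial.aeval (fun i : Fin 3 =>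
    if i.val < j then (0 : MvPolynomial (Fin 3) k) else MvPolynomial.X i)).toRingHom,
    RingHom.ker_isPrime _⟩

theorem mem_flag_iff (j : ℕ) (f : MvPolynomial (Fin 3) k) :
    f ∈ (flag k j).asIdeal ↔ MvPolynomial.aeval (fun i : Fin 3 =>
      if i.val < j then (0 : MvPolynomial (Fin 3) k) else MvPolynomial.X i) f = 0 :=
  Iff.rfl

theorem flag_zero : flag k 0 = ⊥ := by
  apply PrimeSpectrum.ext
  change (flag k 0).asIdeal = ⊥
  rw [eq_bot_iff]
  intro f hf
  rw [mem_flag_iff] at hf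
  simpa [MvPolynomial.aeval_X_left] using hf

theorem X_mem_flag_iff (i : Fin 3) (j : ℕ) :
    MvPolynomial.X i ∈ (flag k j).asIdeal ↔ i.val < j := by
  rw [mem_flag_iff, MvPolynomial.aeval_X]
  by_cases h : i.val < j
  · simp [h]
  · simp [h, MvPolynomial.X_ne_zero]

theorem flag_le_succ (j : ℕ) : flag k j ≤ flag k (j + 1) := by
  change (flag k j).asIdeal ≤ (flag k (j + 1)).asIdeal
  intro f hf
  rw [mem_flag_iff] at hf ⊢
  have hcomp : (flagHom k (j + 1)).comp (flagHom k j) = flagHom k (j + 1) := by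
    apply MvPolynomial.algHom_ext
    intro i
    by_cases h : i.val < j
    · have h' : i.val < j + 1 := by omega
      simp only [flagHom, AlgHom.comp_apply, MvPolynomial.aeval_X, if_pos h, if_pos h', map_zero]
    · simp only [flagHom, AlgHom.comp_apply, MvPolynomial.aeval_X, if_neg h]
  have h1 : flagHom k (j + 1) (flagHom k j f) = flagHom k (j + 1) f := by
    rw [← AlgHom.comp_apply, hcomp]
  have h2 : flagHom k j f = 0 := hf
  rw [h2, map_zero] at h1
  exact h1.symm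

theorem flag_lt_succ {j : ℕ} (hj : j < 3) : flag k j < flag k (j + 1) := by
  refine lt_of_le_of_ne (flag_le_succ j) ?_
  intro h
  have h1 : (MvPolynomial.X ⟨j, hj⟩ : MvPolynomial (Fin 3) k) ∈ (flag k (j + 1)).asIdeal :=
    (X_mem_flag_iff _ _).mpr (by simp)
  rw [← h] at h1
  have := (X_mem_flag_iff _ _).mp h1
  simp at this

private theorem height_succ_le {𝔭 𝔮 : PrimeSpectrum (MvPolynomial (Fin 3) k)} (h : 𝔭 < 𝔮)
    {n : ℕ} (hn : (n : ℕ∞) ≤ 𝔭.asIdeal.height) : ((n + 1 : ℕ) : ℕ∞) ≤ 𝔮.asIdeal.height := by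
  have hlt : 𝔭.asIdeal < 𝔮.asIdeal := h
  have := Ideal.height_add_one_le_of_lt_of_isPrime hlt
  refine le_trans ?_ this
  push_cast
  gcongr

theorem flag_covBy {j : ℕ} (hj : j < 3) : flag k j ⋖ flag k (j + 1) := by
  refine ⟨flag_lt_succ hj, ?_⟩
  intro 𝔯 h1 h2
  have h0 : ((0 : ℕ) : ℕ∞) ≤ (flag k 0).asIdeal.height := by simp
  have key : ((4 : ℕ) : ℕ∞) ≤ (flag k 3).asIdeal.height := by
    interval_cases j
    · exact height_succ_le (flag_lt_succ (by norm_num)) (height_succ_le (flag_lt_succ (by norm_num))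
        (height_succ_le h2 (height_succ_le h1 h0)))
    · exact height_succ_le (flag_lt_succ (by norm_num)) (height_succ_le h2 (height_succ_le h1
        (height_succ_le (flag_lt_succ (by norm_num)) h0)))
    · exact height_succ_le h2 (height_succ_le h1 (height_succ_le (flag_lt_succ (by norm_num))
        (height_succ_le (flag_lt_succ (by norm_num)) h0)))
  have h3 : ((4 : ℕ) : ℕ∞) ≤ ((3 : ℕ) : ℕ∞) := key.trans (height_le_three _)
  have h4 : 4 ≤ 3 := by exact_mod_cast h3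
  omega

/-- Only finitely many primes cover `𝔭` and contain a given element outside `𝔭`. -/
theorem finite_covBy_of_mem (𝔭 : PrimeSpectrum (MvPolynomial (Fin 3) k))
    (b : MvPolynomial (Fin 3) k) (hb : b ∉ 𝔭.asIdeal) :
    {𝔮 : PrimeSpectrum (MvPolynomial (Fin 3) k) | 𝔭 ⋖ 𝔮 ∧ b ∈ 𝔮.asIdeal}.Finite := by
  have hfin := Ideal.finite_minimalPrimes_of_isNoetherianRing (MvPolynomial (Fin 3) k)
    (𝔭.asIdeal ⊔ Ideal.span {b})
  refine Set.Finite.of_finite_image (f := PrimeSpectrum.asIdeal) (hfin.subset ?_) ?_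
  · rintro _ ⟨𝔮, ⟨hcov, hb𝔮⟩, rfl⟩
    have hle : 𝔭.asIdeal ⊔ Ideal.span {b} ≤ 𝔮.asIdeal :=
      sup_le hcov.lt.le (by simpa [Ideal.span_singleton_le_iff_mem] using hb𝔮)
    refine ⟨⟨𝔮.isPrime, hle⟩, ?_⟩
    rintro J ⟨hJ, hJle⟩ hJ𝔮
    let 𝔯 : PrimeSpectrum (MvPolynomial (Fin 3) k) := ⟨J, hJ⟩
    have h1 : 𝔭 < 𝔯 := by
      refine lt_of_le_of_ne (le_sup_left.trans hJle : 𝔭.asIdeal ≤ J) ?_
      intro h
      apply hb
      rw [h]
      exact hJle (Ideal.mem_sup_right (Ideal.mem_span_singleton_self b))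
    have h2 : 𝔯 ≤ 𝔮 := hJ𝔮
    rcases h2.lt_or_eq with h3 | h3
    · exact absurd h3 (hcov.2 h1)
    · exact (congrArg PrimeSpectrum.asIdeal h3).ge
  · intro a _ b _ hab
    exact PrimeSpectrum.ext hab

end Claimed.Open.R035
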