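import Claimed.Open.R035.SanityChart
import Claimed.Open.R035.SanityPoly

/-!
# Sanity check: dimension theory of a `CubeAtlas`

Codimensions of points, the catenary property, the dimension of the scheme and a complete flag of
points.
-/

set_option autoImplicit false

open AlgebraicGeometry CategoryTheory Order

universe u

namespace Claimed.Open.R035

namespace CubeAtlas

variable {k : Type u} [Field k] {A : CubeAtlas k}

/-- Every point has codimension at most `3`. -/
theorem coheight_le_three (p : A.X) : coheight p ≤ 3 := by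
  obtain ⟨ε, hε⟩ := A.cover p
  obtain ⟨𝔭, rfl⟩ := exists_pt hε
  rw [coheight_pt]
  exact height_le_three 𝔭

/-- The scheme is catenary: a prime divisor of `closure {v}` has codimension one more. -/
theorem coheight_eq_of_covBy {v w : A.X} (h : w ⋖ v) : coheight w = coheight v + 1 := by
  obtain ⟨ε, hε⟩ := A.cover w
  have hv : v ∈ A.U ε := mem_of_specializes (Scheme.le_iff_specializes.mp h.le) hε
  obtain ⟨𝔮, rfl⟩ := exists_pt hε
  obtain ⟨𝔭, rfl⟩ := exists_pt hv
  rw [coheight_pt, coheight_pt]
  exact height_eq_of_covBy (pt_covBy_iff.mp h)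

/-- Points of codimension `3` are closed points. -/
theorem isMin_of_coheight_eq_three {w : A.X} (h : coheight w = 3) : IsMin w := by
  intro w' hw'
  by_contra hnot
  have hlt : w' < w := lt_of_le_not_ge hw' hnot
  have h1 := coheight_add_one_le hlt
  rw [h] at h1
  have h2 : (3 : ℕ∞) + 1 ≤ 3 := h1.trans (coheight_le_three w')
  have h3 : ((3 + 1 : ℕ) : ℕ∞) ≤ ((3 : ℕ) : ℕ∞) := by exact_mod_cast h2
  have h4 : 3 + 1 ≤ 3 := by exact_mod_cast h3
  omega

/-- The flag of points `X ⊃ {x₀ = ∞} ⊃ {x₀ = x₁ = ∞} ⊃ {(∞, ∞, ∞)}`. -/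
noncomputable def fl (A : CubeAtlas k) (j : ℕ) : A.X := A.pt (fun _ => false) (flag k j)

theorem fl_zero : A.fl 0 = genericPoint A.X := by
  rw [genericPoint_eq (fun _ => false), fl, flag_zero]

theorem fl_covBy {j : ℕ} (hj : j < 3) : A.fl (j + 1) ⋖ A.fl j :=
  pt_covBy_iff.mpr (flag_covBy hj)

theorem coheight_fl {j : ℕ} (hj : j ≤ 3) : coheight (A.fl j) = j := by
  induction j with
  | zero =>
    rw [fl, coheight_pt, flag_zero]
    simp
  | succ n ih =>
    rw [coheight_eq_of_covBy (fl_covBy (A := A) (by omega : n < 3)), ih (by omega)]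
    push_cast
    rfl

theorem x_mem_stalkSubring_fl_iff (i : Fin 3) (j : ℕ) :
    A.x i ∈ stalkSubring (A.fl j) ↔ ¬ (i.val < j) := by
  have h1 : A.x i = (A.ι (fun _ => false) (MvPolynomial.X i))⁻¹ := by
    rw [A.ι_X]
    simp [u]
  rw [h1, fl, inv_ι_mem_stalkSubring_iff (MvPolynomial.X_ne_zero i), X_mem_flag_iff]

/-- The scheme has dimension `3`. -/
theorem topologicalKrullDim_eq (A : CubeAtlas k) : topologicalKrullDim A.X = 3 := by
  have h0 : topologicalKrullDim A.X = krullDim A.X := by
    unfold topologicalKrullDim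
    let _ := specializationOrder A.X
    exact krullDim_eq_of_orderIso (irreducibleSetEquivPoints (α := A.X))
  rw [h0]
  apply le_antisymm
  · rw [krullDim_eq_iSup_coheight]
    refine iSup_le fun p => ?_
    exact WithBot.coe_le_coe.mpr (coheight_le_three p)
  · have h1 := coheight_le_krullDim (A.fl 3)
    rw [coheight_fl (A := A) le_rfl] at h1
    exact h1

end CubeAtlas

end Claimed.Open.R035
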