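import Claimed.Open.R035.SanityEquations
import Claimed.Open.R035.SanityDim

/-!
# Sanity check: intersection numbers on `(ℙ¹)³`

For a `CubeAtlas`, with `S = {x₀ = 1}` and `H = ∑ {xᵢ = ∞}`:

* `S` is nef;
* `(S · H · H) > 0` and `(S · S · H) = 0`, so `S` has numerical dimension one.
-/

set_option autoImplicit false

open AlgebraicGeometry CategoryTheory Order

universe u

namespace Claimed.Open.R035

namespace CubeAtlas

variable {k : Type u} [Field k] {A : CubeAtlas k}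

/-- Intersection numbers of divisors with good families of local equations exist and are `≥ 0`. -/
theorem exists_intersectionNumber (l : List (A.X → ℤ)) (hl : ∀ D ∈ l, ∃ φ, IsGoodFamily D φ)
    (v : A.X) (hv : coheight v + l.length = 3) :
    ∃ n : ℤ, 0 ≤ n ∧ IsIntersectionNumber l v n := by
  induction l generalizing v with
  | nil =>
    exact ⟨1, zero_le_one,
      isIntersectionNumber_nil_of_isMin (isMin_of_coheight_eq_three (by simpa using hv))⟩
  | cons D l ih =>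
    obtain ⟨φ, hφ⟩ := hl D List.mem_cons_self
    refine hφ.exists_intersectionNumber_cons l v fun w hw =>
      ih (fun D' hD' => hl D' (List.mem_cons_of_mem _ hD')) w ?_
    rw [coheight_eq_of_covBy hw, ← hv, List.length_cons]
    push_cast
    ring

/-- `K + B = S` is nef. -/
theorem isNef (A : CubeAtlas k) : IsNef (fun z => (A.Kdiv z : ℚ) + A.Bdiv z) :=
  isNef_of_isGoodFamily isGoodFamily_eqS A.isCartierDivisor_Sdiv A.isMultiple_Sdiv

theorem eqH_fl_div {j : ℕ} (hj : j < 3) : A.eqH (A.fl j) / A.eqH (A.fl (j + 1)) = A.x ⟨j, hj⟩ := by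
  classical
  rw [eqH_div_eqH (specializes_of_covBy (fl_covBy hj))]
  have : ∀ i : Fin 3, (A.x i ∈ stalkSubring (A.fl j) ∧ A.x i ∉ stalkSubring (A.fl (j + 1))) ↔
      i = ⟨j, hj⟩ := by
    intro i
    rw [x_mem_stalkSubring_fl_iff, x_mem_stalkSubring_fl_iff, Fin.ext_iff]
    simp only [not_not]
    omega
  simp only [this]
  rw [Finset.prod_ite_eq']
  simp

theorem eqH_fl_div_notMem {j : ℕ} (hj : j < 3) :
    A.eqH (A.fl j) / A.eqH (A.fl (j + 1)) ∉ stalkSubring (A.fl (j + 1)) := by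
  rw [eqH_fl_div hj, x_mem_stalkSubring_fl_iff]
  simp

theorem eqS_fl_div_notMem : A.eqS (A.fl 0) / A.eqS (A.fl 1) ∉ stalkSubring (A.fl 1) := by
  have h0 : A.x 0 ∈ stalkSubring (A.fl 0) := (x_mem_stalkSubring_fl_iff 0 0).mpr (by simp)
  have h1 : A.x 0 ∉ stalkSubring (A.fl 1) := fun h => (x_mem_stalkSubring_fl_iff 0 1).mp h (by simp)
  rw [A.eqS_of_mem h0, A.eqS_of_notMem h1, div_one]
  intro h
  apply h1
  have := add_mem h (one_mem _)
  simpa using this

theorem good_mem {l : List (A.X → ℤ)} (hl : ∀ D ∈ l, D = A.Sdiv ∨ D = A.Hdiv) :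
    ∀ D ∈ l, ∃ φ, IsGoodFamily D φ := by
  intro D hD
  rcases hl D hD with rfl | rfl
  · exact ⟨_, isGoodFamily_eqS⟩
  · exact ⟨_, isGoodFamily_eqH⟩

/-- One step of the positivity argument along the flag `fl 0 ⋗ fl 1 ⋗ fl 2 ⋗ fl 3`. -/
theorem exists_pos_step {D : A.X → ℤ} {φ : A.X → A.X.functionField} (hφ : IsGoodFamily D φ)
    {l : List (A.X → ℤ)} (hl : ∀ D ∈ l, D = A.Sdiv ∨ D = A.Hdiv) {j : ℕ} (hj : j < 3)
    (hlen : j + 1 + l.length = 3)
    (hnu : φ (A.fl j) / φ (A.fl (j + 1)) ∉ stalkSubring (A.fl (j + 1)))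
    (hpos : ∃ n : ℤ, 0 < n ∧ IsIntersectionNumber l (A.fl (j + 1)) n) :
    ∃ n : ℤ, 0 < n ∧ IsIntersectionNumber (D :: l) (A.fl j) n := by
  refine hφ.exists_pos_intersectionNumber_cons l (A.fl j) (fun w hw => ?_) (A.fl (j + 1))
    (fl_covBy hj) hnu hpos
  refine exists_intersectionNumber l (good_mem hl) w ?_
  rw [coheight_eq_of_covBy hw, coheight_fl hj.le]
  exact_mod_cast hlen

/-- `(S · H · H) > 0`. -/
theorem exists_pos_SHH (A : CubeAtlas k) :
    ∃ a : ℤ, 0 < a ∧ IsIntersectionNumber [A.Sdiv, A.Hdiv, A.Hdiv] (genericPoint A.X) a := by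
  have h3 : ∃ n : ℤ, 0 < n ∧ IsIntersectionNumber [] (A.fl 3) n :=
    ⟨1, one_pos, isIntersectionNumber_nil_of_isMin
      (isMin_of_coheight_eq_three (by simpa using coheight_fl (A := A) (le_refl 3)))⟩
  have h2 : ∃ n : ℤ, 0 < n ∧ IsIntersectionNumber [A.Hdiv] (A.fl 2) n :=
    exists_pos_step isGoodFamily_eqH (by simp) (by norm_num) (by simp)
      (eqH_fl_div_notMem (by norm_num)) h3
  have h1 : ∃ n : ℤ, 0 < n ∧ IsIntersectionNumber [A.Hdiv, A.Hdiv] (A.fl 1) n :=
    exists_pos_step isGoodFamily_eqH (by simp) (by norm_num) (by simp)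
      (eqH_fl_div_notMem (by norm_num)) h2
  have h0 : ∃ n : ℤ, 0 < n ∧ IsIntersectionNumber [A.Sdiv, A.Hdiv, A.Hdiv] (A.fl 0) n :=
    exists_pos_step isGoodFamily_eqS (by simp) (by norm_num) (by simp) eqS_fl_div_notMem h1
  rwa [fl_zero] at h0

/-- `(S · S · H) = 0`. -/
theorem SSH_eq_zero (A : CubeAtlas k) :
    IsIntersectionNumber [A.Sdiv, A.Sdiv, A.Hdiv] (genericPoint A.X) 0 := by
  refine isGoodFamily_eqS.intersectionNumber_cons_zero _ _ fun w hw => ?_
  rcases eqS_div_eqS (specializes_of_covBy hw) with h | ⟨_, hw0, _, _⟩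
  · left
    rw [h, div_self (A.eqS_ne_zero w)]
    exact one_mem _
  · right
    refine isGoodFamily_eqS.intersectionNumber_cons_zero _ _ fun w' hw' => ?_
    left
    have hw'0 : A.x 0 ∉ stalkSubring w' := fun h =>
      hw0 (stalkSubring_mono (specializes_of_covBy hw') h)
    rw [A.eqS_of_notMem hw0, A.eqS_of_notMem hw'0, div_one]
    exact one_mem _

/-- `K + B = S` has numerical dimension one. -/
theorem hasNumericalDimensionOne (A : CubeAtlas k) (hH : IsAmpleDivisor A.Hdiv) :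
    HasNumericalDimensionOne (fun z => (A.Kdiv z : ℚ) + A.Bdiv z) := by
  obtain ⟨a, ha, h⟩ := A.exists_pos_SHH
  exact ⟨1, A.Sdiv, A.Hdiv, a, A.isMultiple_Sdiv, A.isCartierDivisor_Sdiv, hH, h, ha, A.SSH_eq_zero⟩

end CubeAtlas

end Claimed.Open.R035
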