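import Mathlib

/-!
# Sanity check (pure algebra): the Jacobian criterion for prime ideals of `k[X₀, X₁, X₂]`

Let `k` be a perfect field and `𝔭` a prime ideal of height at least two of `k[X₀, X₁, X₂]`.  Then
there are `F, G ∈ 𝔭` such that a `2 × 2` minor of their Jacobian matrix does not lie in `𝔭`
(`exists_jacobian_minor_notMem`).

Proof.  Let `O` be the local ring at `𝔭`, with maximal ideal `𝔪` and residue field `κ`.  As `k` is
perfect, `κ / k` is formally smooth, hence `𝔪/𝔪² → κ ⊗ Ω_{O/k}` is injective: a polynomial `x ∈ 𝔭`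
all of whose partial derivatives lie in `𝔭` lies in `𝔪²`.  If all the minors were in `𝔭`, then `𝔪`
would be generated by at most one element modulo `𝔪²`, so by Nakayama's lemma `𝔪` would be
principal, and `𝔭` of height at most one by Krull's principal ideal theorem.

This is used in `SanityTerminal.lean` to show that `(ℙ¹)³` has terminal singularities in the sense
of `IsTerminal`.
-/

set_option autoImplicit false
set_option linter.unusedSectionVars false

universe u

namespace Claimed.Open.R035

open MvPolynomial KaehlerDifferential TensorProduct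

variable {k : Type u} [Field k]

section Jacobian

variable (𝔭 : Ideal (MvPolynomial (Fin 3) k)) [𝔭.IsPrime]
variable (O : Type u) [CommRing O] [IsLocalRing O] [Algebra k O] [Algebra (MvPolynomial (Fin 3) k) O]
  [IsScalarTower k (MvPolynomial (Fin 3) k) O] [IsLocalization.AtPrime O 𝔭]

include 𝔭 in
theorem formallySmooth_loc : Algebra.FormallySmooth k O :=
  have : Algebra.FormallySmooth (MvPolynomial (Fin 3) k) O := Algebra.FormallySmooth.of_isLocalization 𝔭.primeCompl
  Algebra.FormallySmooth.comp k (MvPolynomial (Fin 3) k) O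

include 𝔭 in
theorem essFiniteType_residue : Algebra.EssFiniteType k (IsLocalRing.ResidueField O) := by
  have h1 : Algebra.EssFiniteType (MvPolynomial (Fin 3) k) O := Algebra.EssFiniteType.of_isLocalization O 𝔭.primeCompl
  have h2 : Algebra.EssFiniteType k O := Algebra.EssFiniteType.comp k (MvPolynomial (Fin 3) k) O
  have h3 : Algebra.FiniteType O (IsLocalRing.ResidueField O) := 
    Algebra.FiniteType.of_surjective (Algebra.ofId O _) IsLocalRing.residue_surjective
  exact Algebra.EssFiniteType.comp k O _

theorem D_algebraMap_eq_sum (x : MvPolynomial (Fin 3) k) :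
    D k O (algebraMap _ O x) = ∑ j, algebraMap (MvPolynomial (Fin 3) k) O (pderiv j x) •
      D k O (algebraMap (MvPolynomial (Fin 3) k) O (X j)) := by
  have h := (KaehlerDifferential.mvPolynomialBasis k (Fin 3)).sum_repr (D k _ x)
  have h2 := congrArg (KaehlerDifferential.map k k (MvPolynomial (Fin 3) k) O) h
  rw [map_sum, KaehlerDifferential.map_D] at h2
  rw [← h2]
  refine Finset.sum_congr rfl fun i _ => ?_
  rw [map_smul, KaehlerDifferential.mvPolynomialBasis_repr_apply,
    KaehlerDifferential.mvPolynomialBasis_apply, KaehlerDifferential.map_D,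
    algebra_compatible_smul O]

theorem algebraMap_mem_maximalIdeal_iff (x : MvPolynomial (Fin 3) k) :
    algebraMap _ O x ∈ IsLocalRing.maximalIdeal O ↔ x ∈ 𝔭 := by
  rw [IsLocalRing.mem_maximalIdeal, mem_nonunits_iff, IsLocalization.AtPrime.isUnit_to_map_iff O 𝔭]
  simp [Ideal.primeCompl]

/-- A polynomial in `𝔭` all of whose partial derivatives lie in `𝔭` lies in `𝔪²`. -/
theorem algebraMap_mem_sq [PerfectField k] {x : MvPolynomial (Fin 3) k} (hx : x ∈ 𝔭)
    (hx' : ∀ j, pderiv j x ∈ 𝔭) : algebraMap _ O x ∈ IsLocalRing.maximalIdeal O ^ 2 := by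
  have h1 := formallySmooth_loc 𝔭 O
  have h2 := essFiniteType_residue 𝔭 O
  have h3 : Algebra.FormallySmooth k (IsLocalRing.ResidueField O) := inferInstance
  have hsurj : Function.Surjective (algebraMap O (IsLocalRing.ResidueField O)) :=
    IsLocalRing.residue_surjective
  obtain ⟨l, hl⟩ := (Algebra.FormallySmooth.iff_split_injection (R := k) hsurj).mp h3
  have hker : RingHom.ker (algebraMap O (IsLocalRing.ResidueField O)) = IsLocalRing.maximalIdeal O :=
    IsLocalRing.ker_residue
  have hxk : algebraMap _ O x ∈ RingHom.ker (algebraMap O (IsLocalRing.ResidueField O)) := by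
    rw [hker, algebraMap_mem_maximalIdeal_iff 𝔭]; exact hx
  have h4 : kerCotangentToTensor k O (IsLocalRing.ResidueField O)
      (Ideal.toCotangent _ ⟨_, hxk⟩) = 0 := by
    rw [kerCotangentToTensor_toCotangent, D_algebraMap_eq_sum, TensorProduct.tmul_sum]
    refine Finset.sum_eq_zero fun j _ => ?_
    rw [← TensorProduct.smul_tmul, Algebra.smul_def, mul_one]
    have : algebraMap O (IsLocalRing.ResidueField O) (algebraMap _ O (pderiv j x)) = 0 := by
      rw [← RingHom.mem_ker, hker, algebraMap_mem_maximalIdeal_iff 𝔭]; exact hx' j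
    rw [this, TensorProduct.zero_tmul]
  have h5 := congrArg l h4
  rw [map_zero] at h5
  have h6 := LinearMap.congr_fun hl (Ideal.toCotangent _ ⟨_, hxk⟩)
  rw [LinearMap.comp_apply, h5, LinearMap.id_apply] at h6
  have h7 : algebraMap _ O x ∈ RingHom.ker (algebraMap O (IsLocalRing.ResidueField O)) ^ 2 :=
    (Ideal.toCotangent_eq_zero _ _).mp h6.symm
  rwa [hker] at h7

theorem maximalIdeal_le_of_forall {N : Ideal O} 
    (h : ∀ G ∈ 𝔭, algebraMap (MvPolynomial (Fin 3) k) O G ∈ N ⊔ IsLocalRing.maximalIdeal O ^ 2) :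
    IsLocalRing.maximalIdeal O ≤ N := by
  have hNoeth : IsNoetherianRing O := IsLocalization.isNoetherianRing 𝔭.primeCompl O inferInstance
  refine Submodule.le_of_le_smul_of_le_jacobson_bot (I := IsLocalRing.maximalIdeal O)
    (IsNoetherian.noetherian _) (IsLocalRing.maximalIdeal_le_jacobson _) ?_
  rw [← IsLocalization.AtPrime.map_eq_maximalIdeal 𝔭 O, Ideal.map_le_iff_le_comap]
  intro G hG
  have := h G hG
  rw [IsLocalization.AtPrime.map_eq_maximalIdeal 𝔭 O, Ideal.mem_comap, smul_eq_mul, ← pow_two]
  exact this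

theorem height_maximalIdeal_eq : (IsLocalRing.maximalIdeal O).height = 𝔭.height := by
  have h1 := IsLocalization.AtPrime.ringKrullDim_eq_height 𝔭 O
  have h2 := IsLocalRing.maximalIdeal_height_eq_ringKrullDim (R := O)
  rw [h1] at h2
  exact_mod_cast h2

/-- **The Jacobian criterion** for a prime ideal of height at least two of `k[X₀, X₁, X₂]`, over a
perfect field `k`. -/
theorem exists_jacobian_minor_notMem [PerfectField k] (h𝔭 : 2 ≤ 𝔭.height) :
    ∃ F ∈ 𝔭, ∃ G ∈ 𝔭, ∃ i j : Fin 3,
      pderiv i F * pderiv j G - pderiv j F * pderiv i G ∉ 𝔭 := by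
  by_contra hcon
  push Not at hcon
  let O := Localization.AtPrime 𝔭
  have hNoeth : IsNoetherianRing O := IsLocalization.isNoetherianRing 𝔭.primeCompl O inferInstance
  have hht : 2 ≤ (IsLocalRing.maximalIdeal O).height := by
    rw [height_maximalIdeal_eq 𝔭 O]; exact h𝔭
  by_cases hc : ∀ F ∈ 𝔭, ∀ i, pderiv i F ∈ 𝔭
  · have h1 : IsLocalRing.maximalIdeal O ≤ ⊥ := by
      refine maximalIdeal_le_of_forall 𝔭 O fun G hG => ?_
      exact Ideal.mem_sup_right (algebraMap_mem_sq 𝔭 O hG (hc G hG))
    rw [le_bot_iff] at h1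
    rw [h1, Ideal.height_bot] at hht
    exact absurd hht (by norm_num)
  · push Not at hc
    obtain ⟨F, hF, i, hi⟩ := hc
    have hu : IsUnit (algebraMap (MvPolynomial (Fin 3) k) O (pderiv i F)) :=
      (IsLocalization.AtPrime.isUnit_to_map_iff O 𝔭 _).mpr hi
    have h1 : IsLocalRing.maximalIdeal O ≤ Ideal.span {algebraMap (MvPolynomial (Fin 3) k) O F} := by
      refine maximalIdeal_le_of_forall 𝔭 O fun G hG => ?_
      have hx : pderiv i F * G - pderiv i G * F ∈ 𝔭 :=
        sub_mem (𝔭.mul_mem_left _ hG) (𝔭.mul_mem_left _ hF)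
      have hx' : ∀ j, pderiv j (pderiv i F * G - pderiv i G * F) ∈ 𝔭 := by
        intro j
        have e : pderiv j (pderiv i F * G - pderiv i G * F) =
            (pderiv i F * pderiv j G - pderiv j F * pderiv i G) +
              (pderiv j (pderiv i F) * G - pderiv j (pderiv i G) * F) := by
          rw [map_sub, pderiv_mul, pderiv_mul]
          ring
        rw [e]
        exact add_mem (hcon F hF G hG i j)
          (sub_mem (𝔭.mul_mem_left _ hG) (𝔭.mul_mem_left _ hF))
      have h2 := algebraMap_mem_sq 𝔭 O hx hx'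
      obtain ⟨u, hu'⟩ := hu
      have e : algebraMap (MvPolynomial (Fin 3) k) O G =
          (↑u⁻¹ * algebraMap _ O (pderiv i G)) * algebraMap _ O F +
            ↑u⁻¹ * algebraMap _ O (pderiv i F * G - pderiv i G * F) := by
        rw [map_sub, map_mul, map_mul, ← hu']
        have : (↑u⁻¹ : O) * ↑u = 1 := Units.inv_mul u
        linear_combination (-(algebraMap (MvPolynomial (Fin 3) k) O G)) * this
      rw [e]
      exact add_mem (Ideal.mem_sup_left (Ideal.mul_mem_left _ _ (Ideal.mem_span_singleton_self _)))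
        (Ideal.mem_sup_right (Ideal.mul_mem_left _ _ h2))
    have hFm : ¬ IsUnit (algebraMap (MvPolynomial (Fin 3) k) O F) := by
      rw [IsLocalization.AtPrime.isUnit_to_map_iff O 𝔭]
      exact fun h => h hF
    have h3 := (Ideal.height_mono h1).trans (Ideal.height_span_singleton_le_one hFm)
    have := hht.trans h3
    exact absurd this (by norm_num)

end Jacobian
end Claimed.Open.R035
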