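import Claimed.Open.R035.SanityCanonical
import Claimed.Open.R035.SanityJacobian

/-!
# Sanity check: `(ℙ¹)³` has terminal singularities

For a `CubeAtlas A` over a perfect field, `IsTerminal A.π 3 A.ω (fun z => (A.Kdiv z : ℚ))` holds:
every exceptional prime divisor `E` on every birational model has discrepancy at least `1`.  So the
hypothesis `IsTerminal` of `TerminalAbundance` can be met (by a smooth threefold), and the
quantification over all birational models in its definition can be handled.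

The proof: let `p` be the centre of `E`, a point of codimension at least two in a chart with
coordinates `u₀, u₁, u₂`.  By the Jacobian criterion (`SanityJacobian.lean`) there are functions
`F, G` vanishing at `p` with `dF ∧ dG ∧ du_l = J · du₀ ∧ du₁ ∧ du₂`, `J` a unit at `p`.  As
`dlog F ∧ dlog G ∧ dlog u_l` has at most a simple pole along `E` (`SanityDlog.lean`), the form
`dF ∧ dG ∧ du_l` vanishes along `E` to order at least `ord_E F + ord_E G - 1 ≥ 1`.
-/

set_option autoImplicit false

open AlgebraicGeometry CategoryTheory Order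

universe u

namespace Claimed.Open.R035

noncomputable section

/-! ### Wedge products -/

section Wedge

open KaehlerDifferential

variable (k : Type u) [Field k] {F : Type u} [Field F] [Algebra k F]

theorem wedge3_swap_left (x y z : Ω[F⁄k]) : wedge3 k y x z = - wedge3 k x y z := by
  have h := wedge3_self_left k (x + y) z
  rw [wedge3_add_left, wedge3_add_mid, wedge3_add_mid, wedge3_self_left, wedge3_self_left,
    zero_add, add_zero] at h
  exact eq_neg_of_add_eq_zero_right h

theorem wedge3_swap_right (x y z : Ω[F⁄k]) : wedge3 k x z y = - wedge3 k x y z := by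
  have h := wedge3_self_right k x (y + z)
  rw [wedge3_add_mid, wedge3_add_right, wedge3_add_right, wedge3_self_right, wedge3_self_right,
    zero_add, add_zero] at h
  exact eq_neg_of_add_eq_zero_right h

/-- `(∑ xₐ eₐ) ∧ (∑ yₐ eₐ) ∧ e_l` is `±` a `2 × 2` minor times `e₀ ∧ e₁ ∧ e₂`. -/
theorem exists_wedge3_eq_minor (x y : Fin 3 → F) (e : Fin 3 → Ω[F⁄k]) {i j : Fin 3}
    (hij : i ≠ j) :
    ∃ (l : Fin 3) (s : F), (s = 1 ∨ s = -1) ∧
      wedge3 k (∑ a, x a • e a) (∑ a, y a • e a) (e l) =
        (s * (x i * y j - x j * y i)) • wedge3 k (e 0) (e 1) (e 2) := by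
  have key : ∀ l : Fin 3, wedge3 k (∑ a, x a • e a) (∑ a, y a • e a) (e l) =
      ∑ a, ∑ b, (x a * y b) • wedge3 k (e a) (e b) (e l) := by
    intro l
    simp only [Fin.sum_univ_three, wedge3_add_left, wedge3_add_mid, wedge3_smul_left,
      wedge3_smul_mid, smul_add, smul_smul]
    module
  have e102 : wedge3 k (e 1) (e 0) (e 2) = - wedge3 k (e 0) (e 1) (e 2) := wedge3_swap_left k _ _ _
  have e021 : wedge3 k (e 0) (e 2) (e 1) = - wedge3 k (e 0) (e 1) (e 2) := wedge3_swap_right k _ _ _
  have e201 : wedge3 k (e 2) (e 0) (e 1) = wedge3 k (e 0) (e 1) (e 2) := by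
    rw [wedge3_swap_left, e021, neg_neg]
  have e120 : wedge3 k (e 1) (e 2) (e 0) = wedge3 k (e 0) (e 1) (e 2) := by
    rw [wedge3_swap_right, e102, neg_neg]
  have e210 : wedge3 k (e 2) (e 1) (e 0) = - wedge3 k (e 0) (e 1) (e 2) := by
    rw [wedge3_swap_left, e120]
  have k2 : wedge3 k (∑ a, x a • e a) (∑ a, y a • e a) (e 2) =
      (x 0 * y 1 - x 1 * y 0) • wedge3 k (e 0) (e 1) (e 2) := by
    rw [key]
    simp only [Fin.sum_univ_three, wedge3_self_left, wedge3_self_right, wedge3_self_outer, e102,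
      smul_zero, add_zero, zero_add, smul_neg]
    module
  have k1 : wedge3 k (∑ a, x a • e a) (∑ a, y a • e a) (e 1) =
      (x 2 * y 0 - x 0 * y 2) • wedge3 k (e 0) (e 1) (e 2) := by
    rw [key]
    simp only [Fin.sum_univ_three, wedge3_self_left, wedge3_self_right, wedge3_self_outer, e021,
      e201, smul_zero, add_zero, zero_add, smul_neg]
    module
  have k0 : wedge3 k (∑ a, x a • e a) (∑ a, y a • e a) (e 0) =
      (x 1 * y 2 - x 2 * y 1) • wedge3 k (e 0) (e 1) (e 2) := by
    rw [key]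
    simp only [Fin.sum_univ_three, wedge3_self_left, wedge3_self_right, wedge3_self_outer, e120,
      e210, smul_zero, add_zero, zero_add, smul_neg]
    module
  fin_cases i <;> fin_cases j
  · exact absurd rfl hij
  · exact ⟨2, 1, Or.inl rfl, by rw [k2, one_mul]; rfl⟩
  · exact ⟨1, -1, Or.inr rfl, by rw [k1]; congr 1; simp⟩
  · exact ⟨2, -1, Or.inr rfl, by rw [k2]; congr 1; simp⟩
  · exact absurd rfl hij
  · exact ⟨0, 1, Or.inl rfl, by rw [k0, one_mul]; rfl⟩
  · exact ⟨1, 1, Or.inl rfl, by rw [k1, one_mul]; rfl⟩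
  · exact ⟨0, -1, Or.inr rfl, by rw [k0]; congr 1; simp⟩
  · exact absurd rfl hij

/-- `da ∧ db ∧ dc` vanishes to order at least `v a + v b + v c - 1` along a discrete valuation
ring. -/
theorem formOrdGE_wedge3_D {R : Subring F} {v : F → ℤ} (h : IsDVRDatum R v)
    (hmul : ∀ a b : F, a ≠ 0 → b ≠ 0 → v (a * b) = v a + v b) {a b c : F}
    (ha : a ≠ 0) (hb : b ≠ 0) (hc : c ≠ 0) :
    FormOrdGE k 3 R v (wedge3 k (D k F a) (D k F b) (D k F c)) (v a + v b + v c - 1) := by
  obtain ⟨g, hg, hvg, η, hη, heq⟩ := formOrdGE_dlog k h ha hb hc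
  refine ⟨a * b * c * g, mul_ne_zero (mul_ne_zero (mul_ne_zero ha hb) hc) hg, ?_, η, hη, ?_⟩
  · rw [hmul _ _ (mul_ne_zero (mul_ne_zero ha hb) hc) hg, hmul _ _ (mul_ne_zero ha hb) hc,
      hmul _ _ ha hb]
    omega
  · rw [mul_smul, ← heq]
    change _ = _ • wedge3 k (dlog k a) (dlog k b) (dlog k c)
    unfold dlog
    rw [wedge3_smul_left, wedge3_smul_mid, wedge3_smul_right, smul_smul, smul_smul, smul_smul]
    have : a * b * c * a⁻¹ * b⁻¹ * c⁻¹ = 1 := by field_simp
    rw [this, one_smul]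

end Wedge

/-! ### The centre of a prime divisor on a birational model -/

section Models

variable {X Y : Scheme.{u}} [IsIntegral X] [IsIntegral Y]

/-- `f^*` on rational functions is compatible with `f^* : 𝒪_{X, f E} → 𝒪_{Y, E}`. -/
theorem pullbackFn_algebraMap (f : Y ⟶ X) (hη : f (genericPoint Y) = genericPoint X) (E : Y)
    (a : X.presheaf.stalk (f E)) :
    pullbackFn f hη (algebraMap _ X.functionField a) =
      algebraMap _ Y.functionField ((f.stalkMap E).hom a) := by
  have h : genericPoint Y ⤳ E := (genericPoint_spec Y).specializes (Set.mem_univ E)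
  have h1 := f.stalkSpecializes_stalkMap_apply (genericPoint Y) E h a
  change _ = (Y.presheaf.stalkSpecializes h).hom ((f.stalkMap E).hom a)
  refine Eq.trans ?_ h1
  unfold pullbackFn
  have hs1 : f (genericPoint Y) ⤳ genericPoint X := (Inseparable.of_eq hη.symm).ge
  have hs2 : genericPoint X ⤳ f E := (genericPoint_spec X).specializes (Set.mem_univ _)
  change (f.stalkMap (genericPoint Y)).hom ((X.presheaf.stalkSpecializes hs1).hom
    ((X.presheaf.stalkSpecializes hs2).hom a)) = _
  congr 1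
  have hcomp := X.presheaf.stalkSpecializes_comp hs1 hs2
  exact congrArg (fun φ => φ.hom a) hcomp

/-- Functions regular at the centre `f E` are regular at `E`. -/
theorem pullbackFn_mem_stalkSubring (f : Y ⟶ X) (hη : f (genericPoint Y) = genericPoint X) {E : Y}
    {g : X.functionField} (hg : g ∈ stalkSubring (f E)) :
    pullbackFn f hη g ∈ stalkSubring E := by
  obtain ⟨a, rfl⟩ := hg
  exact ⟨_, (pullbackFn_algebraMap f hη E a).symm⟩

/-- Functions vanishing at the centre `f E` vanish at `E`. -/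
theorem inv_pullbackFn_notMem_stalkSubring (f : Y ⟶ X) (hη : f (genericPoint Y) = genericPoint X)
    {E : Y} {g : X.functionField} (hg : g ∈ stalkSubring (f E))
    (hg' : g⁻¹ ∉ stalkSubring (f E)) : (pullbackFn f hη g)⁻¹ ∉ stalkSubring E := by
  obtain ⟨a, rfl⟩ := hg
  have ha : a ≠ 0 := by
    rintro rfl
    apply hg'
    rw [map_zero, inv_zero]
    exact zero_mem _
  have hnu : ¬ IsUnit a := fun h => hg' ((isUnit_iff_inv_mem_stalkSubring ha).mp h)
  have hnu' : ¬ IsUnit ((f.stalkMap E).hom a) := fun h => hnu (isUnit_of_map_unit _ a h)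
  have hne : (f.stalkMap E).hom a ≠ 0 := by
    intro h0
    have h1 := pullbackFn_algebraMap f hη E a
    rw [h0, map_zero, map_eq_zero] at h1
    exact ha (algebraMap_stalk_injective _ (by rw [h1, map_zero]))
  rw [pullbackFn_algebraMap, ← isUnit_iff_inv_mem_stalkSubring hne]
  exact hnu'

end Models

/-! ### The cube is terminal -/

namespace CubeAtlas

open KaehlerDifferential

variable {k : Type u} [Field k] (A : CubeAtlas k)

/-- In the chart `ε`, the coefficient `± (u₀ u₁ u₂)⁻¹` of `ω` is a local equation of `K = div ω`. -/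
theorem isLocalEquation_coeff (ε : Fin 3 → Bool) {p : A.X} (hp : p ∈ A.U ε) :
    IsLocalEquation A.Kdiv p (A.coeff ε) :=
  ⟨A.coeff_ne_zero ε, fun _ _ hz => A.ord_coeff ε (mem_of_specializes hz hp)⟩

theorem isCartierDivisor_Kdiv : IsCartierDivisor A.Kdiv :=
  ⟨A.isWeilDivisor_Kdiv, fun p => by
    obtain ⟨ε, hε⟩ := A.cover p
    exact ⟨_, A.isLocalEquation_coeff ε hε⟩⟩

theorem D_ι (ε : Fin 3 → Bool) (a : MvPolynomial (Fin 3) k) :
    D k A.X.functionField (A.ι ε a) =
      ∑ j, A.ι ε (MvPolynomial.pderiv j a) • D k A.X.functionField (A.u ε j) := by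
  simp only [ι_eq_aeval]
  exact D_aeval_eq_sum _ _

theorem ω_eq_wedge3 (ε : Fin 3 → Bool) :
    A.ω = A.coeff ε • wedge3 k (D k A.X.functionField (A.u ε 0)) (D k A.X.functionField (A.u ε 1))
      (D k A.X.functionField (A.u ε 2)) := by
  rw [A.ω_eq ε]
  congr 2
  funext i
  fin_cases i <;> rfl

/-- **`(ℙ¹)³` has terminal singularities**: every exceptional prime divisor on every birational
model has discrepancy at least `1`. -/
theorem isTerminal [PerfectField k] : IsTerminal A.π 3 A.ω (fun z => (A.Kdiv z : ℚ)) := by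
  intro Y _ _ f hf E hE hex
  obtain ⟨ε, hε⟩ := A.cover (f E)
  obtain ⟨𝔭, hp⟩ := exists_pt hε
  have hdvr := isDVRDatum_model f hf hE
  have hinj := (pullbackFn_bijective f hf).1
  have hne : ∀ g : A.X.functionField, g ≠ 0 → pullbackFn f hf.generic g ≠ 0 := fun g hg => by
    simpa using hinj.ne hg
  have hmul : ∀ a b : A.X.functionField, a ≠ 0 → b ≠ 0 →
      Scheme.ord (pullbackFn f hf.generic (a * b)) E =
        Scheme.ord (pullbackFn f hf.generic a) E + Scheme.ord (pullbackFn f hf.generic b) E := by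
    intro a b ha hb
    rw [map_mul, Scheme.ord_mul (hne a ha) (hne b hb)]
  -- regular functions, units and non-units at the centre
  have hreg : ∀ g ∈ stalkSubring (f E), 0 ≤ Scheme.ord (pullbackFn f hf.generic g) E :=
    fun g hg => ord_nonneg_of_mem (pullbackFn_mem_stalkSubring f hf.generic hg)
  have hunit : ∀ g ∈ stalkSubring (f E), g⁻¹ ∈ stalkSubring (f E) →
      Scheme.ord (pullbackFn f hf.generic g) E = 0 := by
    intro g hg hg'
    apply ord_eq_zero_of_unit (pullbackFn_mem_stalkSubring f hf.generic hg)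
    rw [← map_inv₀]
    exact pullbackFn_mem_stalkSubring f hf.generic hg'
  have hpos : ∀ g ∈ stalkSubring (f E), g⁻¹ ∉ stalkSubring (f E) →
      1 ≤ Scheme.ord (pullbackFn f hf.generic g) E := fun g hg hg' =>
    ord_pos_of_nonunit hE (pullbackFn_mem_stalkSubring f hf.generic hg)
      (inv_pullbackFn_notMem_stalkSubring f hf.generic hg hg')
  -- the centre has codimension at least two
  have hco : coheight (f E) = 𝔭.asIdeal.height := hp ▸ coheight_pt
  have hht : 2 ≤ 𝔭.asIdeal.height := by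
    have h1 : 𝔭.asIdeal.height ≠ 1 := fun h => hex (hco.trans h)
    have h0 : 𝔭.asIdeal.height ≠ 0 := by
      intro h
      rw [Ideal.height_eq_zero_iff_eq_bot] at h
      have h𝔭 : 𝔭 = ⊥ := PrimeSpectrum.ext h
      have hgen : f E = genericPoint A.X := by rw [← hp, h𝔭, ← genericPoint_eq]
      obtain ⟨t, -, ht0, hvt, -⟩ := hdvr.exists_uniformizer
      have := hunit t⁻¹ (hgen ▸ mem_stalkSubring_genericPoint _)
        (hgen ▸ mem_stalkSubring_genericPoint _)
      have hvt' : Scheme.ord (pullbackFn f hf.generic t⁻¹) E = -1 := hvt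
      omega
    generalize 𝔭.asIdeal.height = n at h0 h1
    cases n with
    | top => exact le_top
    | coe n =>
      have h0' : n ≠ 0 := fun h => h0 (by rw [h]; rfl)
      have h1' : n ≠ 1 := fun h => h1 (by rw [h]; rfl)
      exact_mod_cast (by omega : 2 ≤ n)
  -- the Jacobian criterion
  obtain ⟨F, hF, G, hG, i, j, hJ⟩ := exists_jacobian_minor_notMem 𝔭.asIdeal hht
  have hij : i ≠ j := by
    rintro rfl
    apply hJ
    rw [sub_self]
    exact zero_mem _
  have hF0 : F ≠ 0 := by
    rintro rfl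
    apply hJ
    simp
  have hG0 : G ≠ 0 := by
    rintro rfl
    apply hJ
    simp
  obtain ⟨l, s, hs, hw⟩ := exists_wedge3_eq_minor k (fun a => A.ι ε (MvPolynomial.pderiv a F))
    (fun a => A.ι ε (MvPolynomial.pderiv a G)) (fun a => D k A.X.functionField (A.u ε a)) hij
  rw [← A.D_ι ε F, ← A.D_ι ε G] at hw
  simp only [← map_mul, ← map_sub] at hw
  set M := MvPolynomial.pderiv i F * MvPolynomial.pderiv j G -
    MvPolynomial.pderiv j F * MvPolynomial.pderiv i G with hM
  have hM0 : M ≠ 0 := fun h => hJ (h ▸ zero_mem _)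
  have hs0 : s ≠ 0 := by rcases hs with rfl | rfl <;> simp
  -- orders along `E`
  have hvF : 1 ≤ Scheme.ord (pullbackFn f hf.generic (A.ι ε F)) E :=
    hpos _ (hp ▸ ι_mem_stalkSubring F) (hp ▸ fun h => (inv_ι_mem_stalkSubring_iff hF0).mp h hF)
  have hvG : 1 ≤ Scheme.ord (pullbackFn f hf.generic (A.ι ε G)) E :=
    hpos _ (hp ▸ ι_mem_stalkSubring G) (hp ▸ fun h => (inv_ι_mem_stalkSubring_iff hG0).mp h hG)
  have hvu : 0 ≤ Scheme.ord (pullbackFn f hf.generic (A.u ε l)) E := hreg _ (A.u_mem ε hε l)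
  have hvM : Scheme.ord (pullbackFn f hf.generic (A.ι ε M)) E = 0 :=
    hunit _ (hp ▸ ι_mem_stalkSubring M) (hp ▸ (inv_ι_mem_stalkSubring_iff hM0).mpr hJ)
  have hvs : Scheme.ord (pullbackFn f hf.generic s) E = 0 := by
    apply hunit
    · rcases hs with rfl | rfl
      · exact one_mem _
      · exact neg_mem (one_mem _)
    · rcases hs with rfl | rfl
      · rw [inv_one]; exact one_mem _
      · rw [inv_neg, inv_one]; exact neg_mem (one_mem _)
  obtain ⟨g, hg, hvg, η, hη, heq⟩ := formOrdGE_wedge3_D k hdvr hmul (ι_ne_zero hF0)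
    (ι_ne_zero hG0) (A.u_ne_zero ε l)
  have hJ0 : s * A.ι ε M ≠ 0 := mul_ne_zero hs0 (ι_ne_zero hM0)
  refine ⟨1, one_pos, 1, A.Kdiv, A.coeff ε,
    Scheme.ord (pullbackFn f hf.generic (A.coeff ε)) E + 1, ⟨one_pos, fun z => by simp⟩,
    A.isLocalEquation_coeff ε hε,
    ⟨A.coeff ε * (s * A.ι ε M)⁻¹ * g,
      mul_ne_zero (mul_ne_zero (A.coeff_ne_zero ε) (inv_ne_zero hJ0)) hg, ?_, η, hη, ?_⟩, by simp⟩
  · change _ ≤ Scheme.ord (pullbackFn f hf.generic (A.coeff ε * (s * A.ι ε M)⁻¹ * g)) E
    have hvg' : Scheme.ord (pullbackFn f hf.generic (A.ι ε F)) E +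
        Scheme.ord (pullbackFn f hf.generic (A.ι ε G)) E +
        Scheme.ord (pullbackFn f hf.generic (A.u ε l)) E - 1 ≤
        Scheme.ord (pullbackFn f hf.generic g) E := hvg
    have hvJ : Scheme.ord (pullbackFn f hf.generic (s * A.ι ε M)⁻¹) E = 0 := by
      rw [map_inv₀, ord_inv E (hne _ hJ0), hmul _ _ hs0 (ι_ne_zero hM0), hvs, hvM]
      rfl
    rw [hmul _ _ (mul_ne_zero (A.coeff_ne_zero ε) (inv_ne_zero hJ0)) hg,
      hmul _ _ (A.coeff_ne_zero ε) (inv_ne_zero hJ0), hvJ]
    omega
  · rw [mul_smul, ← heq, hw, mul_smul, smul_smul _ (s * A.ι ε M), inv_mul_cancel₀ hJ0, one_smul]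
    exact A.ω_eq_wedge3 ε

end CubeAtlas

end

end Claimed.Open.R035
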