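import Claimed.Open.R035.SanityNotNef

/-!
# Sanity check: `IsIntersectionNumber` is well behaved for all Cartier divisors on `(ℙ¹)³`

`IsIntersectionNumber (D :: l) v n` quantifies over a family `φ` of local equations of `D`, and its value
is a `finsum`.  For a `CubeAtlas` this file shows, for **every** Cartier divisor and **every** family of
local equations:

* `CubeAtlas.exists_isRestrictionOrder` : the multiplicities `μ w` exist;
* `CubeAtlas.finite_support_restrictionOrder` : `{w | w ⋖ v ∧ μ w ≠ 0}` is finite, so that the `finsum` in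
  `IsIntersectionNumber` is an honest finite sum (it never takes the default value of an infinite sum);
* `CubeAtlas.exists_isIntersectionNumber` : intersection numbers of Cartier divisors exist;
* `CubeAtlas.isIntersectionNumber_line_unique` : over an algebraically closed field the degree `(D · ℓ)` on
  the line `ℓ = {x₀ = x₁ = ∞}` is unique.
-/

set_option autoImplicit false
set_option linter.unusedSectionVars false

open AlgebraicGeometry CategoryTheory Order

universe u

namespace Claimed.Open.R035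

namespace CubeAtlas

variable {k : Type u} [Field k] {A : CubeAtlas k}

/-- A prime divisor `z` of `X` that does not contain `V = closure {v}` contains only finitely many prime
divisors `w` of `V`. -/
theorem finite_covBy_specializes (v z : A.X) (hz : coheight z = 1) (hzv : ¬ z ⤳ v) :
    {w | w ⋖ v ∧ z ⤳ w}.Finite := by
  classical
  have key : ∀ ε : Fin 3 → Bool, {w | w ∈ A.U ε ∧ w ⋖ v ∧ z ⤳ w}.Finite := by
    intro ε
    by_cases hv : v ∈ A.U ε
    · obtain ⟨g, hg0, hg⟩ := exists_equation (A := A) ε z hz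
      have hgv : g⁻¹ ∈ stalkSubring v := by
        refine mem_stalkSubring_of_ord_nonneg fun z' hz' hz'v => ?_
        rw [ord_inv z' hg0, hg z' (mem_of_specializes hz'v hv) hz', if_neg]
        · simp
        · rintro rfl
          exact hzv hz'v
      refine (finite_covBy_notMem v g⁻¹ hgv).subset ?_
      rintro w ⟨hwU, hwv, hzw⟩
      refine ⟨hwv, fun hmem => ?_⟩
      have h1 := ord_nonneg_of_mem (stalkSubring_mono hzw hmem)
      rw [ord_inv z hg0, hg z (mem_of_specializes hzw hwU) hz, if_pos rfl] at h1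
      omega
    · refine Set.finite_empty.subset ?_
      rintro w ⟨hwU, hwv, -⟩
      exact hv (mem_of_specializes (specializes_of_covBy hwv) hwU)
  refine (Set.finite_iUnion key).subset ?_
  rintro w ⟨hwv, hzw⟩
  obtain ⟨ε, hε⟩ := A.cover w
  exact Set.mem_iUnion.mpr ⟨ε, hε, hwv, hzw⟩

/-- For every family `φ` of local equations of a Weil divisor `D`, the ratio `φ w / φ v` is a unit of
`𝒪_{X,w}` for all but finitely many prime divisors `w` of the closure of `v`. -/
theorem finite_covBy_nonunit {D : A.X → ℤ} (hD : IsWeilDivisor D) {φ : A.X → A.X.functionField}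
    (hφ : ∀ x, IsLocalEquation D x (φ x)) (v : A.X) :
    {w | w ⋖ v ∧ ¬ (φ w / φ v ∈ stalkSubring w ∧ φ v / φ w ∈ stalkSubring w)}.Finite := by
  have hZ : {z : A.X | D z ≠ Scheme.ord (φ v) z}.Finite := by
    refine (hD.1.union (finite_ord_support (φ v))).subset fun z hz => ?_
    by_contra hcon
    rw [Set.mem_union, not_or] at hcon
    have h1 : D z = 0 := by simpa using hcon.1
    have h2 : Scheme.ord (φ v) z = 0 := by simpa using hcon.2
    exact hz (h1.trans h2.symm)
  refine (hZ.biUnion (t := fun z => {w | w ⋖ v ∧ coheight z = 1 ∧ z ⤳ w}) ?_).subset ?_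
  · intro z hzZ
    by_cases hz : coheight z = 1
    · have hzv : ¬ z ⤳ v := fun h => hzZ ((hφ v).2 z hz h).symm
      exact (finite_covBy_specializes v z hz hzv).subset fun w hw => ⟨hw.1, hw.2.2⟩
    · exact Set.finite_empty.subset fun w hw => hz hw.2.1
  · rintro w ⟨hwv, hw⟩
    by_contra hcon
    apply hw
    have hall : ∀ z : A.X, coheight z = 1 → z ⤳ w → Scheme.ord (φ v) z = D z := by
      intro z hz hzw
      by_contra hne
      exact hcon (Set.mem_biUnion (show z ∈ {z : A.X | D z ≠ Scheme.ord (φ v) z} from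
        fun h => hne h.symm) ⟨hwv, hz, hzw⟩)
    have hloc : IsLocalEquation D w (φ v) := ⟨(hφ v).1, hall⟩
    exact ⟨div_mem_stalkSubring_of_isLocalEquation (hφ w) hloc,
      div_mem_stalkSubring_of_isLocalEquation hloc (hφ w)⟩

/-- **The sums in `IsIntersectionNumber` are finite sums**: for every family `φ` of local equations of a
Weil divisor `D`, only finitely many of the multiplicities `μ w`, `w ⋖ v`, are non-zero. -/
theorem finite_support_restrictionOrder {D : A.X → ℤ} (hD : IsWeilDivisor D)
    {φ : A.X → A.X.functionField} (hφ : ∀ x, IsLocalEquation D x (φ x)) (v : A.X) {μ : A.X → ℤ}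
    (hμ : ∀ w, w ⋖ v → IsRestrictionOrder (φ v) (φ w) v w (μ w)) :
    {w | w ⋖ v ∧ μ w ≠ 0}.Finite := by
  refine (finite_covBy_nonunit hD hφ v).subset ?_
  rintro w ⟨hwv, hw⟩
  refine ⟨hwv, fun h => hw ?_⟩
  have h0 : IsRestrictionOrder 1 (φ w / φ v) v w 0 :=
    isRestrictionOrder_of_unit (specializes_of_covBy hwv) (div_ne_zero (hφ w).1 (hφ v).1) h.1
      (by rw [inv_div]; exact h.2)
  exact (hμ w hwv).unique (h0.of_ratio (by rw [div_one]))

/-- The restriction to `V = closure {v}` of a polynomial that does not vanish on `V` has an order along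
every prime divisor of `V` in the chart. -/
theorem exists_isRestrictionOrder_ι {ε : Fin 3 → Bool}
    {𝔭 𝔮 : PrimeSpectrum (MvPolynomial (Fin 3) k)} (hcov : A.pt ε 𝔮 ⋖ A.pt ε 𝔭)
    {f : MvPolynomial (Fin 3) k} (hf : f ∉ 𝔭.asIdeal) :
    ∃ μ : ℤ, IsRestrictionOrder 1 (A.ι ε f) (A.pt ε 𝔭) (A.pt ε 𝔮) μ := by
  have h : A.pt ε 𝔭 ⤳ A.pt ε 𝔮 := specializes_of_covBy hcov
  obtain ⟨n, hn⟩ := exists_isOrdAlong_restriction h hcov (A.germ ε 𝔮 f)
    (fun h0 => hf ((restrictionHom_germ_eq_zero_iff h f).mp h0))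
  exact ⟨n, isRestrictionOrder_of_stalk h (A.germ ε 𝔮 f) (by rw [algebraMap_germ, div_one]) hn⟩

/-- **The multiplicities exist**: the restriction to `V = closure {v}` of a unit of `𝒪_{X,v}` has an order
along every prime divisor `w` of `V`. -/
theorem exists_isRestrictionOrder {v w : A.X} (hwv : w ⋖ v) {g : A.X.functionField} (hg0 : g ≠ 0)
    (hg : g ∈ stalkSubring v) (hg' : g⁻¹ ∈ stalkSubring v) :
    ∃ μ : ℤ, IsRestrictionOrder 1 g v w μ := by
  obtain ⟨ε, hε⟩ := A.cover w
  have hv : v ∈ A.U ε := mem_of_specializes (specializes_of_covBy hwv) hε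
  obtain ⟨𝔮, rfl⟩ := exists_pt hε
  obtain ⟨𝔭, rfl⟩ := exists_pt hv
  obtain ⟨a, b, hb, rfl⟩ := mem_stalkSubring_pt.mp hg
  have hb0 : b ≠ 0 := fun h => hb (h ▸ zero_mem _)
  have ha0 : a ≠ 0 := by
    rintro rfl
    simp at hg0
  have ha : a ∉ 𝔭.asIdeal := by
    rw [← inv_ι_mem_stalkSubring_iff (A := A) (ε := ε) ha0]
    have e : (A.ι ε a)⁻¹ = (A.ι ε a / A.ι ε b)⁻¹ * (A.ι ε b)⁻¹ := by
      have := ι_ne_zero (A := A) (ε := ε) ha0
      have := ι_ne_zero (A := A) (ε := ε) hb0
      field_simp
    rw [e]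
    exact mul_mem hg' ((inv_ι_mem_stalkSubring_iff hb0).mpr hb)
  obtain ⟨μa, hμa⟩ := exists_isRestrictionOrder_ι hwv ha
  obtain ⟨μb, hμb⟩ := exists_isRestrictionOrder_ι hwv hb
  exact ⟨μa + -μb, by rw [div_eq_mul_inv]; exact hμa.mul hμb.inv⟩

/-- For every family of local equations the multiplicities in `IsIntersectionNumber` exist. -/
theorem exists_isRestrictionOrder_of_family {D : A.X → ℤ} {φ : A.X → A.X.functionField}
    (hφ : ∀ x, IsLocalEquation D x (φ x)) {v w : A.X} (hwv : w ⋖ v) :
    ∃ μ : ℤ, IsRestrictionOrder (φ v) (φ w) v w μ := by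
  have hs : v ⤳ w := specializes_of_covBy hwv
  have hloc : IsLocalEquation D v (φ w) :=
    ⟨(hφ w).1, fun z hz hzv => (hφ w).2 z hz (hzv.trans hs)⟩
  obtain ⟨μ, hμ⟩ := exists_isRestrictionOrder hwv (div_ne_zero (hφ w).1 (hφ v).1)
    (div_mem_stalkSubring_of_isLocalEquation hloc (hφ v))
    (by rw [inv_div]; exact div_mem_stalkSubring_of_isLocalEquation (hφ v) hloc)
  exact ⟨μ, hμ.of_ratio (by rw [div_one])⟩

/-- **Intersection numbers of Cartier divisors exist** (in the right dimension). -/
theorem exists_isIntersectionNumber (l : List (A.X → ℤ)) (hl : ∀ D ∈ l, IsCartierDivisor D)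
    (v : A.X) (hv : coheight v + l.length = 3) : ∃ n : ℤ, IsIntersectionNumber l v n := by
  induction l generalizing v with
  | nil =>
    exact ⟨1, isIntersectionNumber_nil_of_isMin (isMin_of_coheight_eq_three (by simpa using hv))⟩
  | cons D l ih =>
    choose φ hφ using (hl D List.mem_cons_self).2
    choose! μ hμ using fun w (hw : w ⋖ v) => exists_isRestrictionOrder_of_family hφ hw
    have hN : ∀ w, w ⋖ v → ∃ n : ℤ, IsIntersectionNumber l w n := fun w hw =>
      ih (fun D' hD' => hl D' (List.mem_cons_of_mem _ hD')) w (by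
        rw [coheight_eq_of_covBy hw, ← hv, List.length_cons]
        push_cast
        ring)
    choose! N hN using hN
    exact ⟨_, φ, μ, N, hφ, hμ, fun w hw _ => hN w hw, rfl⟩

/-- **The degree of a Cartier divisor on the line `ℓ` is unique.** -/
theorem isIntersectionNumber_line_unique [IsAlgClosed k] {D : A.X → ℤ} (hD : IsWeilDivisor D)
    {n n' : ℤ} (h : IsIntersectionNumber [D] (A.fl 2) n)
    (h' : IsIntersectionNumber [D] (A.fl 2) n') : n = n' := by
  obtain ⟨φ, μ, N, hφ, hμ, hN, rfl⟩ := h
  have hd : HasLineDegree (A.fl 2) (fun w => φ w / φ (A.fl 2))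
      (∑ᶠ (w : A.X) (_ : w ⋖ A.fl 2), μ w * N w) := by
    refine ⟨μ, fun w hw => (hμ w hw).of_ratio (by rw [div_one]),
      (finite_support_restrictionOrder hD hφ _ hμ).subset fun w hw => ⟨hw.1, hw.2⟩, ?_⟩
    refine finsum_congr fun w => finsum_congr fun hw => ?_
    by_cases h0 : μ w = 0
    · simp [h0]
    · rw [(hN w hw h0).2, mul_one]
  exact (eq_of_isIntersectionNumber_line hφ hd h').symm

/-- Every Cartier divisor has exactly one degree on the line `ℓ`. -/
theorem existsUnique_isIntersectionNumber_line [IsAlgClosed k] {D : A.X → ℤ}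
    (hD : IsCartierDivisor D) : ∃! n : ℤ, IsIntersectionNumber [D] (A.fl 2) n := by
  obtain ⟨n, hn⟩ := exists_isIntersectionNumber [D] (by simpa using hD) (A.fl 2) (by
    rw [coheight_fl (by norm_num)]
    norm_num)
  exact ⟨n, hn, fun n' hn' => isIntersectionNumber_line_unique hD.1 hn' hn⟩

end CubeAtlas

end Claimed.Open.R035
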