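import Claimed.Open.R035.SanityBasic
import Claimed.Open.R035.SanityCube
import Claimed.Open.R035.SanityAmple
import Claimed.Open.R035.SanityNumerical
import Claimed.Open.R035.SanityNonLc
import Claimed.Open.R035.SanityQFactorial
import Claimed.Open.R035.SanityTerminal
import Claimed.Open.R035.SanityIitaka
import Claimed.Open.R035.SanityWellDefined
import Claimed.Open.R035.SanityNotAmple
import Claimed.Open.R035.SanityTerminalLc
import Claimed.Open.R035.SanityFiniteSum
import Claimed.Open.R035.SanityLinearEquiv
import Claimed.Open.R035.SanityCanonicalExists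
import Claimed.Open.R035.SanityNefCone
import Claimed.Open.R035.SanitySemiampleNef
import Claimed.Open.R035.SanityAmpleSemiample
import Claimed.Open.R035.SanityFormChange

/-!
# Sanity checks for `Claimed.Open.R035.Statement`: the hypotheses can be met

The main result of this file is a kernel-checked example that satisfies **all** the hypotheses of
`LogAbundance` (and its conclusion): over any field `k`,

* `X = ℙ¹ × ℙ¹ × ℙ¹` with coordinates `x₀, x₁, x₂` (constructed in `SanityCube.lean` as the toric
  variety `Proj k[cone over the unit cube]`, with its eight polynomial charts; the interface is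
  `CubeAtlas` in `SanityAtlas.lean`),
* `ω = dx₀/x₀ ∧ dx₁/x₁ ∧ dx₂/x₂`, so that `K_X = div ω = - ∑ᵢ ({xᵢ = 0} + {xᵢ = ∞})`,
* `B = ∑ᵢ ({xᵢ = 0} + {xᵢ = ∞}) + {x₀ = 1}`, so that `K_X + B = {x₀ = 1}` is a fibre of the first
  projection: it is nef, of numerical dimension one, and semiample; the pair `(X, B)` is log
  canonical (it is log smooth with reduced boundary).

The proofs are spread over the files `Sanity*.lean` of this folder:

| file | content |
|---|---|
| `SanityBasic` | first properties of the definitions |
| `SanityDlog`, `SanityFormOrd` | orders of rational forms: logarithmic forms, coordinate systems |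
| `SanityModels` | prime divisors on birational models are DVRs; a criterion for `IsLogCanonical` |
| `SanityLength`, `SanityGood` | `IsOrdAlong`, `IsRestrictionOrder`, `IsIntersectionNumber`: uniqueness, existence, positivity, vanishing; a criterion for `IsNef` |
| `SanityLocal`, `SanityOrd` | local rings in the function field, `Scheme.ord` |
| `SanityAtlas`, `SanityCube` | the interface `CubeAtlas` and its construction |
| `SanityPoly`, `SanityChart`, `SanityDim` | points, primes, dimension theory of the charts |
| `SanityCanonical` | `div ω = K`, `B ≥ 0`, `K + B` is Cartier, `(X, B)` is log canonical |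
| `SanityEquations`, `SanityAmple`, `SanityNumerical` | `H` is ample, `X` is projective, `K + B` is semiample, nef and `ν(K + B) = 1` |
| `SanityNonLc` | non-example: an lc pair has coefficients `≤ 1`; `(X, B + {x₀ = 1})` is not log canonical |
| `SanityQFactorial`, `SanityJacobian`, `SanityTerminal` | `(ℙ¹)³` is `ℚ`-factorial and has terminal singularities |
| `SanityIitaka` | global sections of `𝒪(a, b, c)`; `K_X` is not semiample, `κ(K_X) = -∞`, `κ(K_X + B) = 1`, `κ(H) = 3` |
| `SanityLine`, `SanityNotNef` | product formula on a line `ℓ`; `(D·ℓ)` is independent of the local equations; `K_X` is not nef |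
| `SanityWellDefined` | every family of local equations: multiplicities exist, finite sums; existence of intersection numbers; uniqueness on a line |
| `SanityNotAmple` | non-examples of `IsAmpleDivisor`: ample implies `κ = 3`; `K_X + B`, `0`, `K_X` are not ample |
| `SanityTerminalLc` | terminal implies log canonical (any `X`); `LogAbundance` contains the semiampleness part of `TerminalAbundance`; two sections give `κ ≥ 1` |
| `SanityFiniteSum` | on EVERY normal integral quasi-compact locally Noetherian `X`: Hartogs at a point, two local equations differ by a unit, the multiplicities exist, the sums in `IsIntersectionNumber` are finite, `(D · C)` exists for every Cartier `D` and every curve `C` |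
| `SanityLinearEquiv` | on EVERY integral locally Noetherian (quasi-compact) `X`: all notions of the two theorems are invariant under `D ↦ D + div g`, `ω ↦ g • ω`, so nothing depends on the choice of the rational form; `κ` may be computed with Cartier multiples; `(D · C)` is additive in `D` |
| `SanityTopFormP` | over a perfect field of any characteristic: `dim X = dim_K Ω_{K/k}`, the rational top forms are a line, two non-zero forms differ by a rational function, two canonical divisors are linearly equivalent |
| `SanityCanonicalExists` | on every normal integral `X` separated of finite type over a perfect field: the order of a rational form along every prime divisor exists, `K = div ω` exists and is unique |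
| `SanityIitakaCartier` | deviations 11, 10, 8 of `CLAIM.md` as theorems for every `X`: `κ` with Cartier multiples only (`IitakaCartier.iitakaDim_eq_cartier`); the centre of a prime divisor of a birational model is never the generic point, exceptional means codimension `≥ 2`, a divisorial centre gives the same local ring; proper over locally Noetherian is locally Noetherian |
| `SanityMultiples` | deviation 7 for every `X`: `IsIntersectionNumber` is homogeneous in each slot; witnesses `(m, D)` give witnesses `(jm, jD)`; `IsNef`, `HasNumericalDimensionOne`, `IsSemiample`, `IsQCartier` hold for `jL` iff for `L` |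
| `SanityNefCone` | on every normal integral quasi-compact locally Noetherian `X`: nef + nef is nef (`NefCone.isNef_add`); on every `X`: semiample + semiample is semiample (`NefCone.isSemiample_add`), sums of Cartier / globally generated divisors |
| `SanitySemiampleNef`, `SanityAmpleSemiample` | ample `→` semiample (`AmpleSemiample.isSemiample_of_isAmpleDivisor`, every `X`) `→` nef (`SemiampleNef.isNef_of_isSemiample`, every normal quasi-compact `X`): nefness is a necessary hypothesis of both theorems |
| `SanityFormChange` | one form is enough: `LogAbundance` and `TerminalAbundance` THEMSELVES are equivalent to their versions with "there is a non-zero `ω` such that for all `K` (and `B`) ..." in the place of "for all `ω ≠ 0`"; any two canonical divisors are linearly equivalent (`IsLinEquiv`), over every perfect field and in every dimension |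
-/

set_option autoImplicit false

open AlgebraicGeometry CategoryTheory Order

universe u

namespace Claimed.Open.R035

/-- For every `CubeAtlas` (that is, for `ℙ¹ × ℙ¹ × ℙ¹` over any field) the pair `(X, B)` satisfies
all the geometric hypotheses of `LogAbundance`. -/
theorem CubeAtlas.logAbundance_hypotheses {k : Type u} [Field k] (A : CubeAtlas k) :
    IsProjective A.π ∧ IsNormalScheme A.X ∧ topologicalKrullDim A.X = 3 ∧ A.ω ≠ 0 ∧
    IsDivisorOfForm A.π 3 A.ω A.Kdiv ∧ IsWeilDivisor A.Bdiv ∧ (∀ z, 0 ≤ A.Bdiv z) ∧
    IsQCartier (fun z => (A.Kdiv z : ℚ) + A.Bdiv z) ∧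
    IsLogCanonical A.π 3 A.ω (fun z => (A.Kdiv z : ℚ) + A.Bdiv z) ∧
    IsNef (fun z => (A.Kdiv z : ℚ) + A.Bdiv z) ∧
    HasNumericalDimensionOne (fun z => (A.Kdiv z : ℚ) + A.Bdiv z) :=
  ⟨A.isProjective, A.isNormalScheme, A.topologicalKrullDim_eq, A.ω_ne_zero, A.isDivisorOfForm,
    A.isWeilDivisor_Bdiv, A.Bdiv_nonneg, A.isQCartier, A.isLogCanonical, A.isNef,
    A.hasNumericalDimensionOne CubeAtlas.isAmpleDivisor_Hdiv⟩

/-- ... and the conclusion of `LogAbundance`. -/
theorem CubeAtlas.logAbundance_conclusion {k : Type u} [Field k] (A : CubeAtlas k) :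
    IsSemiample (fun z => (A.Kdiv z : ℚ) + A.Bdiv z) :=
  A.isSemiample

/-- The notions that occur only in `TerminalAbundance`, checked on `ℙ¹ × ℙ¹ × ℙ¹` over a perfect field:
it is a normal projective `ℚ`-factorial threefold with terminal singularities, and `K_X = div ω`.
(Of course `K_X` is not nef here: `CubeAtlas.nonexample_nef` below.) -/
theorem CubeAtlas.terminal_checks {k : Type u} [Field k] [PerfectField k] (A : CubeAtlas k) :
    IsProjective A.π ∧ IsNormalScheme A.X ∧ topologicalKrullDim A.X = 3 ∧ IsQFactorial A.X ∧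
    A.ω ≠ 0 ∧ IsDivisorOfForm A.π 3 A.ω A.Kdiv ∧
    IsTerminal A.π 3 A.ω (fun z => (A.Kdiv z : ℚ)) :=
  ⟨A.isProjective, A.isNormalScheme, A.topologicalKrullDim_eq, A.isQFactorial, A.ω_ne_zero,
    A.isDivisorOfForm, A.isTerminal⟩

/-- A non-example: with coefficient `2` along the fibre `{x₀ = 1}` the pair is not log canonical. -/
theorem CubeAtlas.nonexample_logCanonical {k : Type u} [Field k] (A : CubeAtlas k) :
    ¬ IsLogCanonical A.π 3 A.ω (fun z => (A.Kdiv z : ℚ) + (A.Bdiv z + A.Sdiv z)) :=
  A.not_isLogCanonical

/-- `IsSemiample` and `iitakaDim` (the notions in the conclusions of `LogAbundance` and of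
`TerminalAbundance`) take the expected values on `ℙ¹ × ℙ¹ × ℙ¹`: `K_X` is *not* semiample and
`κ(K_X) = -∞` (so neither conclusion is automatic), `κ(K_X + B) = 1` equals the numerical dimension,
and `κ(H) = 3` for the ample divisor `H`. -/
theorem CubeAtlas.iitaka_checks {k : Type u} [Field k] (A : CubeAtlas k) :
    ¬ IsSemiample (fun z => (A.Kdiv z : ℚ)) ∧
    iitakaDim A.π (fun z => (A.Kdiv z : ℚ)) = ⊥ ∧
    iitakaDim A.π (fun z => (A.Kdiv z : ℚ) + A.Bdiv z) = 1 ∧
    iitakaDim A.π (fun z => (A.Hdiv z : ℚ)) = 3 :=
  ⟨A.not_isSemiample_Kdiv, A.iitakaDim_Kdiv, A.iitakaDim_eq_one, A.iitakaDim_Hdiv⟩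

/-- A non-example of `IsNef`: `K_X` of `ℙ¹ × ℙ¹ × ℙ¹` is not nef.  So on `(ℙ¹)³` all the hypotheses of
`TerminalAbundance` hold (`terminal_checks`) except nefness, and the existential form of `IsNef` is not
automatic. -/
theorem CubeAtlas.nonexample_nef {k : Type u} [Field k] [IsAlgClosed k] (A : CubeAtlas k) :
    ¬ IsNef (fun z => (A.Kdiv z : ℚ)) :=
  A.not_isNef_Kdiv

/-- Intersection numbers with the line `ℓ = {x₀ = x₁ = ∞}` do not depend on the local equations used:
`(H·ℓ) = 1`, `(S·ℓ) = 0`, `(K_X·ℓ) = -2`. -/
theorem CubeAtlas.line_checks {k : Type u} [Field k] [IsAlgClosed k] (A : CubeAtlas k) (n : ℤ) :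
    height (A.fl 2) = 1 ∧ (IsIntersectionNumber [A.Hdiv] (A.fl 2) n ↔ n = 1) ∧
    (IsIntersectionNumber [A.Sdiv] (A.fl 2) n ↔ n = 0) ∧
    (IsIntersectionNumber [A.Kdiv] (A.fl 2) n ↔ n = -2) :=
  ⟨CubeAtlas.height_fl_two, CubeAtlas.isIntersectionNumber_Hdiv_line_iff n,
    CubeAtlas.isIntersectionNumber_Sdiv_line_iff n,
    by
      simpa using
        CubeAtlas.isIntersectionNumber_Kdiv_line_iff (A := A) (m := 1) (D := A.Kdiv)
          (fun z => by simp) n⟩

/-- For every Cartier divisor and every family of local equations the sum in `IsIntersectionNumber` is a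
finite sum, and the degree on the line `ℓ` exists and is unique. -/
theorem CubeAtlas.wellDefined_checks {k : Type u} [Field k] [IsAlgClosed k] (A : CubeAtlas k)
    {D : A.X → ℤ} (hD : IsCartierDivisor D) :
    (∀ (φ : A.X → A.X.functionField) (v : A.X) (μ : A.X → ℤ), (∀ x, IsLocalEquation D x (φ x)) →
      (∀ w, w ⋖ v → IsRestrictionOrder (φ v) (φ w) v w (μ w)) → {w | w ⋖ v ∧ μ w ≠ 0}.Finite) ∧
    ∃! n : ℤ, IsIntersectionNumber [D] (A.fl 2) n :=
  ⟨fun _ v _ hφ hμ => CubeAtlas.finite_support_restrictionOrder hD.1 hφ v hμ,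
    CubeAtlas.existsUnique_isIntersectionNumber_line hD⟩

/-- The same on EVERY normal integral quasi-compact locally Noetherian scheme, that is on every `X` that occurs in
`Statement.lean` (`SanityFiniteSum.lean`): for every Cartier divisor `D` and every family `φ` of local equations the
multiplicities `μ w` exist and only finitely many of them are non-zero, so the sum in `IsIntersectionNumber` is a finite sum;
the degree `(D · C)` exists for every integral curve `C`, so the `∃ n` in `IsNef` never fails for want of a number. -/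
theorem IsNormalScheme.wellDefined_checks {X : Scheme.{u}} [IsIntegral X] [IsLocallyNoetherian X] [CompactSpace X]
    (hX : IsNormalScheme X) {D : X → ℤ} (hD : IsCartierDivisor D) :
    (∀ φ : X → X.functionField, (∀ x, IsLocalEquation D x (φ x)) →
      (∀ v w : X, w ⋖ v → ∃ μ : ℤ, IsRestrictionOrder (φ v) (φ w) v w μ) ∧
      ∀ (v : X) (μ : X → ℤ), (∀ w, w ⋖ v → IsRestrictionOrder (φ v) (φ w) v w (μ w)) →
        {w | w ⋖ v ∧ μ w ≠ 0}.Finite) ∧
    ∀ c : X, height c = 1 → ∃ n : ℤ, IsIntersectionNumber [D] c n :=
  ⟨fun _ hφ => ⟨fun _ _ hwv => hX.exists_isRestrictionOrder_of_family hφ hwv,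
    fun v _ hμ => hX.finite_support_restrictionOrder hD.1 hφ v hμ⟩,
    fun _ hc => hX.exists_isIntersectionNumber_curve hD hc⟩

/-- The degree `(D · C)` on a normal quasi-compact `X` (`SanityLinearEquiv.lean`): computations for `D` and `D'` give computations
for `D + D'`, `-D` and for every divisor `D + div g` linearly equivalent to `D`, with the numbers `n + n'`, `-n`, `n`. -/
theorem IsNormalScheme.linearity_checks {X : Scheme.{u}} [IsIntegral X] [IsLocallyNoetherian X] [CompactSpace X]
    (hX : IsNormalScheme X) {D D' : X → ℤ} (hD : IsWeilDivisor D) (hD' : IsWeilDivisor D') {c : X} {n n' : ℤ}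
    (h : IsIntersectionNumber [D] c n) (h' : IsIntersectionNumber [D'] c n') :
    IsIntersectionNumber [D + D'] c (n + n') ∧ IsIntersectionNumber [-D] c (-n) ∧
    ∀ g : X.functionField, g ≠ 0 → IsIntersectionNumber [D + principalDiv g] c n :=
  ⟨h.curve_add hX hD hD' h', h.cons_neg, fun _ hg => h.cons_add_principalDiv hg⟩

/-- **The choice of the rational form does not matter**, in the words of `Statement.lean`.  Let `X` be integral, projective over an
algebraically closed field, of dimension three.  For ANY two non-zero rational 3-forms `ω`, `ω'` with divisors `K`, `K'` and any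
`B`: each of the remaining hypotheses of `LogAbundance` and its conclusion hold for `(ω', K', B)` iff they hold for `(ω, K, B)`
(`ratForm_three_is_a_line`: `ω' = g • ω`; `IsDivisorOfForm.unique`: `K' = K + div g`; `logAbundance_independent_of_form`). -/
theorem logAbundance_independent_of_any_form {k : Type u} [Field k] [IsAlgClosed k] {X : Scheme.{u}} [IsIntegral X]
    [IsLocallyNoetherian X] (π : X ⟶ Spec (CommRingCat.of k)) (hπ : IsProjective π)
    (hd : topologicalKrullDim X = 3) {ω ω' : RatForm π 3} {K K' : X → ℤ} (B : X → ℚ) (hω : ω ≠ 0) (hω' : ω' ≠ 0)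
    (hK : IsDivisorOfForm π 3 ω K) (hK' : IsDivisorOfForm π 3 ω' K') :
    (IsQCartier (fun z => (K' z : ℚ) + B z) ↔ IsQCartier (fun z => (K z : ℚ) + B z)) ∧
    (IsLogCanonical π 3 ω' (fun z => (K' z : ℚ) + B z) ↔ IsLogCanonical π 3 ω (fun z => (K z : ℚ) + B z)) ∧
    (IsNef (fun z => (K' z : ℚ) + B z) ↔ IsNef (fun z => (K z : ℚ) + B z)) ∧
    (HasNumericalDimensionOne (fun z => (K' z : ℚ) + B z) ↔ HasNumericalDimensionOne (fun z => (K z : ℚ) + B z)) ∧
    (IsSemiample (fun z => (K' z : ℚ) + B z) ↔ IsSemiample (fun z => (K z : ℚ) + B z)) := by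
  obtain ⟨g, hg, rfl⟩ := (ratForm_three_is_a_line π hπ hd).2.2 ω ω' hω hω'
  obtain ⟨H, hH⟩ := hπ.2
  have := hH.2.1
  obtain rfl : K' = K + principalDiv g := hK'.unique (hK.smul hg)
  exact (logAbundance_independent_of_form π ω K B hg).2.2

/-- The same for `TerminalAbundance`: its hypotheses on `(ω, K)` and its three conclusions. -/
theorem terminalAbundance_independent_of_any_form {k : Type u} [Field k] [IsAlgClosed k] {X : Scheme.{u}} [IsIntegral X]
    [IsLocallyNoetherian X] (π : X ⟶ Spec (CommRingCat.of k)) (hπ : IsProjective π)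
    (hd : topologicalKrullDim X = 3) {ω ω' : RatForm π 3} {K K' : X → ℤ} (hω : ω ≠ 0) (hω' : ω' ≠ 0)
    (hK : IsDivisorOfForm π 3 ω K) (hK' : IsDivisorOfForm π 3 ω' K') :
    (IsTerminal π 3 ω' (fun z => (K' z : ℚ)) ↔ IsTerminal π 3 ω (fun z => (K z : ℚ))) ∧
    (IsNef (fun z => (K' z : ℚ)) ↔ IsNef (fun z => (K z : ℚ))) ∧
    (HasNumericalDimensionOne (fun z => (K' z : ℚ)) ↔ HasNumericalDimensionOne (fun z => (K z : ℚ))) ∧
    (HasTwoSections π K' ↔ HasTwoSections π K) ∧
    iitakaDim π (fun z => (K' z : ℚ)) = iitakaDim π (fun z => (K z : ℚ)) ∧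
    (IsSemiample (fun z => (K' z : ℚ)) ↔ IsSemiample (fun z => (K z : ℚ))) := by
  obtain ⟨g, hg, rfl⟩ := (ratForm_three_is_a_line π hπ hd).2.2 ω ω' hω hω'
  obtain ⟨H, hH⟩ := hπ.2
  have := hH.2.1
  obtain rfl : K' = K + principalDiv g := hK'.unique (hK.smul hg)
  exact (terminalAbundance_independent_of_form π ω K hg).2

/-- `IsAmpleDivisor` on `ℙ¹ × ℙ¹ × ℙ¹`: `H = ∑ᵢ {xᵢ = ∞}` is ample; the fibre `S = K_X + B` (effective,
nef, semiample), the zero divisor and `K_X` are *not* ample; every ample divisor has `κ = 3`. -/
theorem CubeAtlas.ample_checks {k : Type u} [Field k] (A : CubeAtlas k) :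
    IsAmpleDivisor A.Hdiv ∧ ¬ IsAmpleDivisor A.Sdiv ∧ ¬ IsAmpleDivisor (0 : A.X → ℤ) ∧
    ¬ IsAmpleDivisor A.Kdiv ∧
    ∀ H : A.X → ℤ, IsAmpleDivisor H → iitakaDim A.π (fun z => (H z : ℚ)) = 3 :=
  ⟨CubeAtlas.isAmpleDivisor_Hdiv, A.not_isAmpleDivisor_Sdiv, A.not_isAmpleDivisor_zero,
    A.not_isAmpleDivisor_Kdiv, fun _ hH => CubeAtlas.iitakaDim_of_isAmpleDivisor hH⟩

/-- The two conjuncts of `Statement` fit together: under the hypotheses of `TerminalAbundance` the
pair `(X, 0)` meets all the hypotheses of `LogAbundance` (terminal implies log canonical: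
`IsTerminal.isLogCanonical`), so `LogAbundance` gives the third conclusion of `TerminalAbundance`. -/
theorem logAbundance_gives_terminal_semiampleness (h : LogAbundance.{0}) :
    ∀ (k : Type) [Field k] [IsAlgClosed k] (p : ℕ) [CharP k p], 3 < p →
    ∀ (X : Scheme.{0}) [IsIntegral X] [IsLocallyNoetherian X] (π : X ⟶ Spec (CommRingCat.of k)),
      IsProjective π → IsNormalScheme X → topologicalKrullDim X = 3 → IsQFactorial X →
    ∀ (ω : RatForm π 3) (K : X → ℤ), ω ≠ 0 → IsDivisorOfForm π 3 ω K →
      IsTerminal π 3 ω (fun z => (K z : ℚ)) → IsNef (fun z => (K z : ℚ)) →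
      HasNumericalDimensionOne (fun z => (K z : ℚ)) → IsSemiample (fun z => (K z : ℚ)) :=
  terminalAbundance_semiample_of_logAbundance h

instance fact_prime_five : Fact (Nat.Prime 5) := ⟨by norm_num⟩

/-- **The hypotheses of `LogAbundance` can be met**: there are an algebraically closed field `k` of
characteristic `p > 3` (in the universe of `Statement`) and a projective log canonical threefold pair
`(X, B)` over `k` with `K_X + B` nef of numerical dimension one. -/
theorem logAbundance_hypotheses_can_be_met :
    ∃ (k : Type) (_ : Field k) (_ : IsAlgClosed k) (p : ℕ) (_ : CharP k p) (_ : 3 < p)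
      (X : Scheme.{0}) (_ : IsIntegral X) (_ : IsLocallyNoetherian X)
      (π : X ⟶ Spec (CommRingCat.of k)) (ω : RatForm π 3) (K : X → ℤ) (B : X → ℚ),
      IsProjective π ∧ IsNormalScheme X ∧ topologicalKrullDim X = 3 ∧ ω ≠ 0 ∧
      IsDivisorOfForm π 3 ω K ∧ IsWeilDivisor B ∧ (∀ z, 0 ≤ B z) ∧
      IsQCartier (fun z => (K z : ℚ) + B z) ∧
      IsLogCanonical π 3 ω (fun z => (K z : ℚ) + B z) ∧
      IsNef (fun z => (K z : ℚ) + B z) ∧
      HasNumericalDimensionOne (fun z => (K z : ℚ) + B z) :=
  ⟨AlgebraicClosure (ZMod 5), inferInstance, inferInstance, 5, inferInstance, by norm_num,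
    (cubeAtlas (AlgebraicClosure (ZMod 5))).X, inferInstance, inferInstance,
    (cubeAtlas (AlgebraicClosure (ZMod 5))).π, (cubeAtlas (AlgebraicClosure (ZMod 5))).ω,
    (cubeAtlas (AlgebraicClosure (ZMod 5))).Kdiv, (cubeAtlas (AlgebraicClosure (ZMod 5))).Bdiv,
    (cubeAtlas (AlgebraicClosure (ZMod 5))).logAbundance_hypotheses⟩

/-- `LogAbundance` applies to the example: all its hypotheses are discharged.  (The conclusion is
proved independently in `CubeAtlas.logAbundance_conclusion`.) -/
theorem logAbundance_applies (h : LogAbundance.{0}) :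
    IsSemiample (fun z => ((cubeAtlas (AlgebraicClosure (ZMod 5))).Kdiv z : ℚ) +
      (cubeAtlas (AlgebraicClosure (ZMod 5))).Bdiv z) :=
  have H := (cubeAtlas (AlgebraicClosure (ZMod 5))).logAbundance_hypotheses
  h (AlgebraicClosure (ZMod 5)) 5 (by norm_num) _ _ H.1 H.2.1 H.2.2.1 _ _ _ H.2.2.2.1 H.2.2.2.2.1
    H.2.2.2.2.2.1 H.2.2.2.2.2.2.1 H.2.2.2.2.2.2.2.1 H.2.2.2.2.2.2.2.2.1 H.2.2.2.2.2.2.2.2.2.1
    H.2.2.2.2.2.2.2.2.2.2

end Claimed.Open.R035
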