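import Claimed.Open.R035.SanityDlog

/-!
# Sanity check: the interface of the example `(ℙ¹)³`

A `CubeAtlas k` is a proper integral `k`-scheme `X` with rational functions `x 0, x 1, x 2` and eight
affine charts `U ε`, `ε : Fin 3 → Bool`, such that `Γ(X, U ε)` is the polynomial ring over `k` in the
three functions `(x i) ^ (± 1)` (exponent `+1` if `ε i = true`, `-1` if `ε i = false`), glued as in
`ℙ¹ × ℙ¹ × ℙ¹`.

* `SanityCube.lean` constructs a `CubeAtlas k` for every field `k`.
* The other `Sanity*.lean` files show that for every `CubeAtlas` the pair `(X, B)`, with `B` the toric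
  boundary plus the fibre `{x 0 = 1}`, satisfies all the hypotheses of `LogAbundance`.

This file also defines the data of the example: the form `ω`, the divisors `Kdiv = div ω`, `Bdiv`,
`Sdiv = Kdiv + Bdiv` and the ample divisor `Hdiv`.
-/

set_option autoImplicit false

open AlgebraicGeometry CategoryTheory Order

universe u

namespace Claimed.Open.R035

/-- The charts of `ℙ¹ × ℙ¹ × ℙ¹`. -/
structure CubeAtlas (k : Type u) [Field k] where
  /-- the scheme -/
  X : Scheme.{u}
  [isIntegral : IsIntegral X]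
  /-- the structure morphism -/
  π : X ⟶ Spec (CommRingCat.of k)
  isProper : IsProper π
  /-- the eight charts -/
  U : (Fin 3 → Bool) → X.Opens
  isAffineOpen : ∀ ε, IsAffineOpen (U ε)
  generic_mem : ∀ ε, genericPoint X ∈ U ε
  cover : ∀ p : X, ∃ ε, p ∈ U ε
  /-- the coordinate ring of a chart is a polynomial ring -/
  e : ∀ ε, MvPolynomial (Fin 3) k ≃+* Γ(X, U ε)
  /-- the three coordinate functions -/
  x : Fin 3 → X.functionField
  germ_C : ∀ ε (c : k), X.presheaf.germ (U ε) (genericPoint X) (generic_mem ε)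
    (e ε (MvPolynomial.C c)) = @algebraMap k X.functionField _ _ (fnFieldAlgebra π) c
  germ_X : ∀ ε i, X.presheaf.germ (U ε) (genericPoint X) (generic_mem ε)
    (e ε (MvPolynomial.X i)) = if ε i then x i else (x i)⁻¹
  mem_iff : ∀ ε δ (p : X) (hp : p ∈ U δ), p ∈ U ε ↔
    ∀ i, ε i ≠ δ i → IsUnit (X.presheaf.germ (U δ) p hp (e δ (MvPolynomial.X i)))

attribute [instance] CubeAtlas.isIntegral CubeAtlas.isProper

namespace CubeAtlas

variable {k : Type u} [Field k] (A : CubeAtlas k)

instance isLocallyNoetherian : IsLocallyNoetherian A.X := by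
  refine isLocallyNoetherian_of_affine_cover
    (S := fun ε : Fin 3 → Bool => (⟨A.U ε, A.isAffineOpen ε⟩ : A.X.affineOpens)) ?_ ?_
  · refine top_le_iff.mp fun p _ => ?_
    obtain ⟨ε, hε⟩ := A.cover p
    exact TopologicalSpace.Opens.mem_iSup.mpr ⟨ε, hε⟩
  · intro ε
    exact isNoetherianRing_of_ringEquiv _ (A.e ε)

noncomputable section

/-- The coordinate ring of the chart `U ε`, inside the function field. -/
def ι (ε : Fin 3 → Bool) : MvPolynomial (Fin 3) k →+* A.X.functionField :=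
  (A.X.presheaf.germ (A.U ε) (genericPoint A.X) (A.generic_mem ε)).hom.comp (A.e ε).toRingHom

/-- The coordinates of the chart `U ε`. -/
def u (ε : Fin 3 → Bool) (i : Fin 3) : A.X.functionField := if ε i then A.x i else (A.x i)⁻¹

theorem ι_C (ε : Fin 3 → Bool) (c : k) :
    A.ι ε (MvPolynomial.C c) = @algebraMap k A.X.functionField _ _ (fnFieldAlgebra A.π) c :=
  A.germ_C ε c

theorem ι_X (ε : Fin 3 → Bool) (i : Fin 3) : A.ι ε (MvPolynomial.X i) = A.u ε i :=
  A.germ_X ε i

/-- The logarithmic form `dx₀/x₀ ∧ dx₁/x₁ ∧ dx₂/x₂`. -/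
def ω : RatForm A.π 3 :=
  letI := fnFieldAlgebra A.π
  wedge3 k (dlog k (A.x 0)) (dlog k (A.x 1)) (dlog k (A.x 2))

/-- The canonical divisor `div ω`: minus the toric boundary `∑ᵢ ({xᵢ = 0} + {xᵢ = ∞})`. -/
def Kdiv (z : A.X) : ℤ := - ∑ i, |Scheme.ord (A.x i) z|

/-- The fibre `{x₀ = 1}` of the first projection. -/
def Sdiv (z : A.X) : ℤ := max (Scheme.ord (A.x 0 - 1) z) 0

/-- The boundary `B`: the toric boundary plus the fibre `{x₀ = 1}`; so `K + B = {x₀ = 1}`. -/
def Bdiv (z : A.X) : ℚ := ((∑ i, |Scheme.ord (A.x i) z| + A.Sdiv z : ℤ) : ℚ)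

/-- The ample divisor `∑ᵢ {xᵢ = ∞}`. -/
def Hdiv (z : A.X) : ℤ := ∑ i, max (- Scheme.ord (A.x i) z) 0

theorem Kdiv_add_Bdiv (z : A.X) : (A.Kdiv z : ℚ) + A.Bdiv z = (A.Sdiv z : ℚ) := by
  simp only [Kdiv, Bdiv]
  push_cast
  ring

end

end CubeAtlas

end Claimed.Open.R035
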