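import Claimed.Open.R035.SanityChart
import Claimed.Open.R035.SanityPoly

/-!
# Sanity check: the canonical divisor and the boundary of the example `(ℙ¹)³`

For every `CubeAtlas A`:

* `A.Kdiv` is the divisor of the rational `3`-form `A.ω = dlog x₀ ∧ dlog x₁ ∧ dlog x₂ ≠ 0`;
* `A.Kdiv`, `A.Bdiv`, `A.Sdiv` are Weil divisors, `A.Bdiv ≥ 0`;
* `K + B = A.Sdiv` is a Cartier divisor, with the local equations `A.eqS`;
* the pair `(X, B)` is log canonical.
-/

set_option autoImplicit false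

open AlgebraicGeometry CategoryTheory Order

universe u

namespace Claimed.Open.R035

namespace CubeAtlas

variable {k : Type u} [Field k] (A : CubeAtlas k)

noncomputable section

open KaehlerDifferential

/-- the sign `±1` with `dlog (x i) = ± dlog (u ε i)` -/
def sgn (ε : Fin 3 → Bool) (i : Fin 3) : A.X.functionField := if ε i then 1 else -1

theorem sgn_ne_zero (ε : Fin 3 → Bool) (i : Fin 3) : A.sgn ε i ≠ 0 := by
  unfold sgn; split_ifs <;> simp

theorem dlog_x (ε : Fin 3 → Bool) (i : Fin 3) :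
    dlog k (A.x i) = (A.sgn ε i * (A.u ε i)⁻¹) • D k A.X.functionField (A.u ε i) := by
  rw [mul_smul]
  change _ = A.sgn ε i • dlog k (A.u ε i)
  unfold sgn u
  split_ifs
  · rw [one_smul]
  · rw [dlog_inv k (A.x_ne_zero i), neg_smul, one_smul, neg_neg]

/-- the coefficient of `ω` in the chart `ε` -/
def coeff (ε : Fin 3 → Bool) : A.X.functionField := ∏ i, (A.sgn ε i * (A.u ε i)⁻¹)

theorem coeff_ne_zero (ε : Fin 3 → Bool) : A.coeff ε ≠ 0 :=
  Finset.prod_ne_zero_iff.mpr fun i _ =>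
    mul_ne_zero (A.sgn_ne_zero ε i) (inv_ne_zero (A.u_ne_zero ε i))

/-- In the chart `ε`, `ω = ± (u₀ u₁ u₂)⁻¹ du₀ ∧ du₁ ∧ du₂`. -/
theorem ω_eq (ε : Fin 3 → Bool) :
    A.ω = A.coeff ε • exteriorPower.ιMulti A.X.functionField 3
      (fun i => D k A.X.functionField (A.u ε i)) := by
  have h : (fun i => D k A.X.functionField (A.u ε i)) =
      ![D k A.X.functionField (A.u ε 0), D k A.X.functionField (A.u ε 1),
        D k A.X.functionField (A.u ε 2)] := by
    funext i; fin_cases i <;> rfl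
  rw [h]
  change wedge3 k _ _ _ = A.coeff ε • wedge3 k _ _ _
  rw [A.dlog_x ε 0, A.dlog_x ε 1, A.dlog_x ε 2, wedge3_smul_left, wedge3_smul_mid,
    wedge3_smul_right, smul_smul, smul_smul, coeff, Fin.prod_univ_three]

theorem ω_ne_zero : A.ω ≠ 0 := by
  rw [A.ω_eq (fun _ => true)]
  exact smul_ne_zero (A.coeff_ne_zero _) (A.isCoordSystem _ (A.generic_mem _)).ne_zero

theorem ord_sgn (ε : Fin 3 → Bool) (i : Fin 3) (z : A.X) : Scheme.ord (A.sgn ε i) z = 0 := by
  apply ord_eq_zero_of_unit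
  · unfold sgn; split_ifs
    · exact one_mem _
    · exact neg_mem (one_mem _)
  · unfold sgn; split_ifs
    · rw [inv_one]; exact one_mem _
    · rw [inv_neg, inv_one]; exact neg_mem (one_mem _)

theorem ord_u_eq_abs (ε : Fin 3 → Bool) {z : A.X} (hz : z ∈ A.U ε) (i : Fin 3) :
    Scheme.ord (A.u ε i) z = |Scheme.ord (A.x i) z| := by
  have h := ord_nonneg_of_mem (A.u_mem ε hz i)
  unfold u at h ⊢
  split_ifs at h ⊢
  · exact (abs_of_nonneg h).symm
  · rw [ord_inv z (A.x_ne_zero i)] at h ⊢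
    rw [abs_of_nonpos (by omega)]

theorem ord_coeff (ε : Fin 3 → Bool) {z : A.X} (hz : z ∈ A.U ε) :
    Scheme.ord (A.coeff ε) z = A.Kdiv z := by
  have h : ∀ i, Scheme.ord (A.sgn ε i * (A.u ε i)⁻¹) z = - |Scheme.ord (A.x i) z| := by
    intro i
    rw [Scheme.ord_mul (A.sgn_ne_zero ε i) (inv_ne_zero (A.u_ne_zero ε i)), A.ord_sgn,
      ord_inv z (A.u_ne_zero ε i), A.ord_u_eq_abs ε hz, zero_add]
  have hne : ∀ i, A.sgn ε i * (A.u ε i)⁻¹ ≠ 0 := fun i =>
    mul_ne_zero (A.sgn_ne_zero ε i) (inv_ne_zero (A.u_ne_zero ε i))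
  rw [coeff, Kdiv, Fin.prod_univ_three, Fin.sum_univ_three,
    Scheme.ord_mul (mul_ne_zero (hne 0) (hne 1)) (hne 2), Scheme.ord_mul (hne 0) (hne 1), h, h, h]
  ring

/-! ### Weil divisors -/

theorem isWeilDivisor_Kdiv : IsWeilDivisor A.Kdiv := by
  constructor
  · refine (Set.finite_iUnion fun i => finite_ord_support (A.x i)).subset ?_
    intro z hz
    by_contra hcon
    apply hz
    simp only [Set.mem_iUnion, Set.mem_ofPred_eq, not_exists, not_not] at hcon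
    simp [Kdiv, hcon]
  · intro z hz
    by_contra h
    apply hz
    simp [Kdiv, h]

theorem isWeilDivisor_Sdiv : IsWeilDivisor A.Sdiv := by
  constructor
  · refine (finite_ord_support (A.x 0 - 1)).subset ?_
    intro z hz hcon
    apply hz
    simp [Sdiv, hcon]
  · intro z hz
    by_contra h
    apply hz
    simp [Sdiv, h]

theorem isWeilDivisor_Bdiv : IsWeilDivisor A.Bdiv := by
  have key : ∀ z, A.Bdiv z ≠ 0 → A.Kdiv z ≠ 0 ∨ A.Sdiv z ≠ 0 := by
    intro z hz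
    by_contra hcon
    push Not at hcon
    apply hz
    have := A.Kdiv_add_Bdiv z
    rw [hcon.1, hcon.2] at this
    simpa using this
  constructor
  · refine (A.isWeilDivisor_Kdiv.1.union A.isWeilDivisor_Sdiv.1).subset ?_
    intro z hz
    exact key z hz
  · intro z hz
    rcases key z hz with h | h
    · exact A.isWeilDivisor_Kdiv.2 z h
    · exact A.isWeilDivisor_Sdiv.2 z h

theorem Bdiv_nonneg (z : A.X) : 0 ≤ A.Bdiv z := by
  unfold Bdiv Sdiv
  have h1 : (0 : ℤ) ≤ ∑ i, |Scheme.ord (A.x i) z| := Finset.sum_nonneg fun i _ => abs_nonneg _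
  have h2 : (0 : ℤ) ≤ max (Scheme.ord (A.x 0 - 1) z) 0 := le_max_right _ _
  exact_mod_cast add_nonneg h1 h2

/-- **`K = div ω`.** -/
theorem isDivisorOfForm : IsDivisorOfForm A.π 3 A.ω A.Kdiv := by
  refine ⟨A.isWeilDivisor_Kdiv, fun z _ => ?_⟩
  obtain ⟨ε, hε⟩ := A.cover z
  rw [A.ω_eq ε, ← A.ord_coeff ε hε]
  exact (A.isCoordSystem ε hε).isFormOrd (v := fun g => Scheme.ord g z)
    (fun a b ha hb => Scheme.ord_mul ha hb) (fun r hr _ => ord_nonneg_of_mem hr)
    (A.coeff_ne_zero ε)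

/-! ### `K + B` is the Cartier divisor `{x₀ = 1}` -/

theorem x_sub_one_ne_zero : A.x 0 - 1 ≠ 0 := by
  have h := ι_ne_zero (A := A) (ε := fun _ => true) (prime_X_sub_one (k := k)).ne_zero
  rwa [map_sub, map_one, A.ι_X, u, if_pos rfl] at h

open Classical in
/-- The local equations of the fibre `{x₀ = 1}`: `x₀ - 1` where `x₀` is regular, `1` elsewhere. -/
def eqS (p : A.X) : A.X.functionField := if A.x 0 ∈ stalkSubring p then A.x 0 - 1 else 1

theorem eqS_of_mem {p : A.X} (h : A.x 0 ∈ stalkSubring p) : A.eqS p = A.x 0 - 1 := if_pos h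

theorem eqS_of_notMem {p : A.X} (h : A.x 0 ∉ stalkSubring p) : A.eqS p = 1 := if_neg h

theorem eqS_ne_zero (p : A.X) : A.eqS p ≠ 0 := by
  unfold eqS
  split_ifs
  · exact A.x_sub_one_ne_zero
  · exact one_ne_zero

/-- Where `x₀` has a pole, `x₀ - 1` has non-positive order. -/
theorem ord_x_sub_one_nonpos {p z : A.X} (h : A.x 0 ∉ stalkSubring p) (hz : z ⤳ p) :
    Scheme.ord (A.x 0 - 1) z ≤ 0 := by
  have h1 : (A.x 0)⁻¹ ∈ stalkSubring p := (A.x_mem_or_inv_mem p 0).resolve_left h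
  have h2 : (1 - (A.x 0)⁻¹)⁻¹ ∈ stalkSubring p :=
    inv_one_sub_mem_stalkSubring h1 (by rwa [inv_inv])
  have h3 : 1 - (A.x 0)⁻¹ ∈ stalkSubring p := sub_mem (one_mem _) h1
  have hx := A.x_ne_zero 0
  have h4 : 1 - (A.x 0)⁻¹ ≠ 0 := by
    intro h0
    apply A.x_sub_one_ne_zero
    field_simp at h0
    simpa using h0
  have h5 : A.x 0 - 1 = A.x 0 * (1 - (A.x 0)⁻¹) := by field_simp
  have hmono := stalkSubring_mono hz
  rw [h5, Scheme.ord_mul hx h4, ord_eq_zero_of_unit (hmono h3) (hmono h2), add_zero]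
  have := ord_nonneg_of_mem (hmono h1)
  rw [ord_inv z hx] at this
  omega

theorem isLocalEquation_eqS (p : A.X) : IsLocalEquation A.Sdiv p (A.eqS p) := by
  refine ⟨A.eqS_ne_zero p, fun z _ hz => ?_⟩
  by_cases h : A.x 0 ∈ stalkSubring p
  · rw [A.eqS_of_mem h, Sdiv]
    have : 0 ≤ Scheme.ord (A.x 0 - 1) z :=
      ord_nonneg_of_mem (stalkSubring_mono hz (sub_mem h (one_mem _)))
    exact (max_eq_left this).symm
  · rw [A.eqS_of_notMem h, Sdiv, ord_one]
    exact (max_eq_right (A.ord_x_sub_one_nonpos h hz)).symm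

theorem isCartierDivisor_Sdiv : IsCartierDivisor A.Sdiv :=
  ⟨A.isWeilDivisor_Sdiv, fun p => ⟨_, A.isLocalEquation_eqS p⟩⟩

theorem isMultiple_Sdiv : IsMultiple 1 (fun z => (A.Kdiv z : ℚ) + A.Bdiv z) A.Sdiv :=
  ⟨one_pos, fun z => by simp [A.Kdiv_add_Bdiv]⟩

theorem isQCartier : IsQCartier (fun z => (A.Kdiv z : ℚ) + A.Bdiv z) :=
  ⟨1, A.Sdiv, A.isMultiple_Sdiv, A.isCartierDivisor_Sdiv⟩

/-! ### The pair is log canonical -/

/-- `dlog x₀ = (x₀ - 1) · dlog ((x₀ - 1) / x₀)`. -/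
theorem dlog_x_zero :
    dlog k (A.x 0) = (A.x 0 - 1) • dlog k ((A.x 0 - 1) * (A.x 0)⁻¹) := by
  have hx := A.x_ne_zero 0
  have hx1 := A.x_sub_one_ne_zero
  rw [dlog_mul k hx1 (inv_ne_zero hx), dlog_inv k hx]
  unfold dlog
  rw [map_sub, Derivation.map_one_eq_zero, sub_zero, ← sub_eq_add_neg, ← sub_smul, smul_smul]
  congr 1
  field_simp
  ring

/-- **The pair `(X, B)` is log canonical.** -/
theorem isLogCanonical : IsLogCanonical A.π 3 A.ω (fun z => (A.Kdiv z : ℚ) + A.Bdiv z) := by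
  refine isLogCanonical_of_dlog A.π A.ω A.Sdiv _ A.Kdiv_add_Bdiv fun p => ?_
  by_cases h : A.x 0 ∈ stalkSubring p
  · refine ⟨A.x 0 - 1, (A.x 0 - 1) * (A.x 0)⁻¹, A.x 1, A.x 2,
      mul_ne_zero A.x_sub_one_ne_zero (inv_ne_zero (A.x_ne_zero 0)), A.x_ne_zero 1, A.x_ne_zero 2,
      A.eqS_of_mem h ▸ A.isLocalEquation_eqS p, ?_⟩
    change wedge3 k _ _ _ = _ • wedge3 k _ _ _
    rw [← wedge3_smul_left, ← A.dlog_x_zero]
  · refine ⟨1, A.x 0, A.x 1, A.x 2, A.x_ne_zero 0, A.x_ne_zero 1, A.x_ne_zero 2,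
      A.eqS_of_notMem h ▸ A.isLocalEquation_eqS p, ?_⟩
    rw [one_smul]
    rfl

end

end CubeAtlas

end Claimed.Open.R035
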