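import Claimed.Open.R035.SanityDlog

/-!
# Sanity checks for `IsFormOrd`: the exact order of a rational top form

Pure algebra over a field extension `F / k`.
-/

set_option autoImplicit false

universe u

namespace Claimed.Open.R035

noncomputable section

section FormOrd

open KaehlerDifferential

variable (k : Type u) [Field k] {F : Type u} [Field F] [Algebra k F]

/-- `x₁, …, xₙ ∈ R` is a system of coordinates on the subring `R` of `F`: the differentials of the
elements of `R` are `R`-linear combinations of `dx₁, …, dxₙ`, and `dx₁ ∧ … ∧ dxₙ ≠ 0`. -/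
structure IsCoordSystem {n : ℕ} (R : Subring F) (x : Fin n → F) : Prop where
  mem : ∀ i, x i ∈ R
  D_mem : ∀ b ∈ R, ∃ c : Fin n → F, (∀ i, c i ∈ R) ∧ D k F b = ∑ i, c i • D k F (x i)
  ne_zero : exteriorPower.ιMulti F n (fun i => D k F (x i)) ≠ 0

variable {k}

/-- If the `n` vectors `b j` are `R`-linear combinations of `y₁, …, yₙ`, then `b₁ ∧ … ∧ bₙ` is an
`R`-multiple of `y₁ ∧ … ∧ yₙ`. -/
theorem exists_ιMulti_eq_smul {M : Type*} [AddCommGroup M] [Module F M] {n : ℕ} (R : Subring F)
    (y : Fin n → M) (c : Fin n → Fin n → F) (hc : ∀ j i, c j i ∈ R) :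
    ∃ r ∈ R, exteriorPower.ιMulti F n (fun j => ∑ i, c j i • y i) =
      r • exteriorPower.ιMulti F n y := by
  classical
  have key : ∀ s : Fin n → Fin n, ∃ r ∈ R,
      exteriorPower.ιMulti F n (fun j => c j (s j) • y (s j)) = r • exteriorPower.ιMulti F n y := by
    intro s
    have h1 : exteriorPower.ιMulti F n (fun j => c j (s j) • y (s j)) =
        (∏ j, c j (s j)) • exteriorPower.ιMulti F n (fun j => y (s j)) :=
      (exteriorPower.ιMulti F n (M := M)).toMultilinearMap.map_smul_univ _ _
    by_cases hs : Function.Injective s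
    · have hb : Function.Bijective s := Finite.injective_iff_bijective.mp hs
      have h2 := (exteriorPower.ιMulti F n (M := M)).map_perm y (Equiv.ofBijective s hb)
      refine ⟨(∏ j, c j (s j)) * ((Equiv.Perm.sign (Equiv.ofBijective s hb) : ℤ) : F),
        mul_mem (prod_mem fun j _ => hc _ _) (intCast_mem R _), ?_⟩
      have h3 : (fun j => y (s j)) = y ∘ (Equiv.ofBijective s hb) := rfl
      rw [h1, mul_smul, h3, h2, Units.smul_def, ← Int.cast_smul_eq_zsmul F]
    · refine ⟨0, zero_mem R, ?_⟩
      rw [h1, zero_smul]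
      have : ¬ Function.Injective (fun j => y (s j)) := fun h => hs (h.of_comp (f := y))
      rw [(exteriorPower.ιMulti F n (M := M)).map_eq_zero_of_not_injective _ this, smul_zero]
  choose r hr hr' using key
  refine ⟨∑ s, r s, sum_mem fun s _ => hr s, ?_⟩
  have := (exteriorPower.ιMulti F n (M := M)).toMultilinearMap.map_sum (fun j i => c j i • y i)
  rw [Finset.sum_smul]
  refine Eq.trans this ?_
  exact Finset.sum_congr rfl fun s _ => hr' s

variable {n : ℕ} {R : Subring F} {x : Fin n → F}

/-- The forms that are regular on `R` are the `R`-multiples of `dx₁ ∧ … ∧ dxₙ`. -/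
theorem IsCoordSystem.exists_eq_smul (h : IsCoordSystem k R x) {η : ⋀[F]^n Ω[F⁄k]}
    (hη : η ∈ regularForms k n R) :
    ∃ r ∈ R, η = r • exteriorPower.ιMulti F n (fun i => D k F (x i)) := by
  unfold regularForms at hη
  induction hη using AddSubgroup.closure_induction with
  | mem η hη =>
    obtain ⟨a, b, ha, hb, rfl⟩ := hη
    choose c hc hc' using fun j => h.D_mem (b j) (hb j)
    obtain ⟨r, hr, hr'⟩ := exists_ιMulti_eq_smul R (fun i => D k F (x i)) c hc
    refine ⟨a * r, mul_mem ha hr, ?_⟩
    rw [mul_smul, ← hr']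
    congr 2
    funext j
    exact hc' j
  | zero => exact ⟨0, zero_mem R, by simp⟩
  | add η₁ η₂ _ _ h₁ h₂ =>
    obtain ⟨r₁, hr₁, rfl⟩ := h₁
    obtain ⟨r₂, hr₂, rfl⟩ := h₂
    exact ⟨r₁ + r₂, add_mem hr₁ hr₂, by rw [add_smul]⟩
  | neg η _ h₁ =>
    obtain ⟨r₁, hr₁, rfl⟩ := h₁
    exact ⟨-r₁, neg_mem hr₁, (neg_smul _ _).symm⟩

/-- **The exact order of a top form.**  If `x` is a system of coordinates on `R`, and `v` is
additive and non-negative on `R`, then `g · dx₁ ∧ … ∧ dxₙ` has order exactly `v g`. -/
theorem IsCoordSystem.isFormOrd (h : IsCoordSystem k R x) {v : F → ℤ}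
    (hmul : ∀ a b : F, a ≠ 0 → b ≠ 0 → v (a * b) = v a + v b)
    (hR : ∀ r ∈ R, r ≠ 0 → 0 ≤ v r) {g : F} (hg : g ≠ 0) :
    IsFormOrd k n R v (g • exteriorPower.ιMulti F n (fun i => D k F (x i))) (v g) := by
  refine ⟨⟨g, hg, le_rfl, _, AddSubgroup.subset_closure ⟨1, x, one_mem R, h.mem, ?_⟩, rfl⟩, ?_⟩
  · rw [one_smul]
  · rintro ⟨g', hg', hle, η, hη, heq⟩
    obtain ⟨r, hr, rfl⟩ := h.exists_eq_smul hη
    rw [smul_smul, ← sub_eq_zero] at heq
    have heq' : (g - g' * r) • exteriorPower.ιMulti F n (fun i => D k F (x i)) = 0 :=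
      (sub_smul _ _ _).trans heq
    rw [smul_eq_zero, or_iff_left h.ne_zero, sub_eq_zero] at heq'
    have heq := heq'
    have hr0 : r ≠ 0 := by
      rintro rfl
      exact hg (by simpa using heq)
    have := hmul g' r hg' hr0
    have := hR r hr hr0
    rw [heq] at hle
    omega

end FormOrd

section Polynomial

open KaehlerDifferential

variable {k : Type u} [Field k] {F : Type u} [Field F] [Algebra k F]

/-- The wedge product of `n` linearly independent vectors is not zero. -/
theorem ιMulti_ne_zero_of_linearIndependent {M : Type*} [AddCommGroup M]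
    [Module F M] {n : ℕ} {v : Fin n → M} (hv : LinearIndependent F v) :
    exteriorPower.ιMulti F n v ≠ 0 := by
  have h := exteriorPower.ιMulti_family_linearIndependent_field (n := n) hv
  let s : Set.powersetCard (Fin n) n := ⟨Finset.univ, by simp⟩
  have hs := h.ne_zero s
  intro h0
  apply hs
  unfold exteriorPower.ιMulti_family
  have hb : Function.Bijective (Set.powersetCard.ofFinEmbEquiv.symm s) :=
    Finite.injective_iff_bijective.mp (Set.powersetCard.ofFinEmbEquiv.symm s).injective
  have := (exteriorPower.ιMulti F n (M := M)).map_perm v (Equiv.ofBijective _ hb)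
  rw [h0, smul_zero] at this
  exact this

/-- If `F = k(a₁, …, aₙ)` is a field of rational functions, then `da₁, …, daₙ` are linearly
independent in `Ω_{F/k}` (in every characteristic). -/
theorem linearIndependent_D_of_algebraicIndependent {n : ℕ} {a : Fin n → F}
    (ha : AlgebraicIndependent k a)
    (hF : ∀ g : F, ∃ p q : MvPolynomial (Fin n) k,
      g = MvPolynomial.aeval a p / MvPolynomial.aeval a q) :
    LinearIndependent F (fun i => D k F (a i)) := by
  let _ : Algebra (MvPolynomial (Fin n) k) F := (MvPolynomial.aeval a).toAlgebra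
  have hmap : ∀ p, algebraMap (MvPolynomial (Fin n) k) F p = MvPolynomial.aeval a p := fun _ => rfl
  have : IsScalarTower k (MvPolynomial (Fin n) k) F := IsScalarTower.of_algebraMap_eq fun c => by
    rw [hmap, MvPolynomial.algebraMap_eq, MvPolynomial.aeval_C]
  have : FaithfulSMul (MvPolynomial (Fin n) k) F :=
    (faithfulSMul_iff_algebraMap_injective _ _).mpr ha
  have : IsFractionRing (MvPolynomial (Fin n) k) F := IsFractionRing.of_field _ _ hF
  let b := (KaehlerDifferential.mvPolynomialBasis k (Fin n)).ofIsLocalizedModule F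
    (nonZeroDivisors (MvPolynomial (Fin n) k))
    (KaehlerDifferential.map k k (MvPolynomial (Fin n) k) F)
  have hb : (fun i => D k F (a i)) = b := by
    funext i
    simp [b, hmap]
  rw [hb]
  exact b.linearIndependent

/-- The chain rule `d p(a) = ∑ᵢ (∂ᵢ p)(a) daᵢ`. -/
theorem D_aeval_eq_sum {n : ℕ} (a : Fin n → F) (p : MvPolynomial (Fin n) k) :
    D k F (MvPolynomial.aeval a p) =
      ∑ i, MvPolynomial.aeval a (MvPolynomial.pderiv i p) • D k F (a i) := by
  let _ : Algebra (MvPolynomial (Fin n) k) F := (MvPolynomial.aeval a).toAlgebra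
  have hmap : ∀ p, algebraMap (MvPolynomial (Fin n) k) F p = MvPolynomial.aeval a p := fun _ => rfl
  have : IsScalarTower k (MvPolynomial (Fin n) k) F := IsScalarTower.of_algebraMap_eq fun c => by
    rw [hmap, MvPolynomial.algebraMap_eq, MvPolynomial.aeval_C]
  have h := (KaehlerDifferential.mvPolynomialBasis k (Fin n)).sum_repr (D k _ p)
  have h2 := congrArg (KaehlerDifferential.map k k (MvPolynomial (Fin n) k) F) h
  rw [map_sum, KaehlerDifferential.map_D, hmap] at h2
  rw [← h2]
  refine Finset.sum_congr rfl fun i _ => ?_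
  rw [map_smul, KaehlerDifferential.mvPolynomialBasis_repr_apply,
    KaehlerDifferential.mvPolynomialBasis_apply, KaehlerDifferential.map_D, hmap,
    MvPolynomial.aeval_X, algebra_compatible_smul F, hmap]

/-- Let `F = k(a₁, …, aₙ)` be a field of rational functions and let `R` be a localisation of the
polynomial ring `k[a₁, …, aₙ]`.  Then `a₁, …, aₙ` is a system of coordinates on `R`. -/
theorem isCoordSystem_of_algebraicIndependent {n : ℕ} {a : Fin n → F}
    (ha : AlgebraicIndependent k a)
    (hF : ∀ g : F, ∃ p q : MvPolynomial (Fin n) k,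
      g = MvPolynomial.aeval a p / MvPolynomial.aeval a q)
    {R : Subring F} (hpoly : ∀ p : MvPolynomial (Fin n) k, MvPolynomial.aeval a p ∈ R)
    (hR : ∀ b ∈ R, ∃ p q : MvPolynomial (Fin n) k, (MvPolynomial.aeval a q)⁻¹ ∈ R ∧
      b = MvPolynomial.aeval a p * (MvPolynomial.aeval a q)⁻¹) :
    IsCoordSystem k R a where
  mem i := by simpa using hpoly (MvPolynomial.X i)
  D_mem b hb := by
    obtain ⟨p, q, hq, rfl⟩ := hR b hb
    refine ⟨fun i => MvPolynomial.aeval a p * (-(MvPolynomial.aeval a q)⁻¹ ^ 2 *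
      MvPolynomial.aeval a (MvPolynomial.pderiv i q)) +
      (MvPolynomial.aeval a q)⁻¹ * MvPolynomial.aeval a (MvPolynomial.pderiv i p), fun i => ?_, ?_⟩
    · exact add_mem (mul_mem (hpoly _) (mul_mem (neg_mem (pow_mem hq 2)) (hpoly _)))
        (mul_mem hq (hpoly _))
    · rw [Derivation.leibniz, Derivation.leibniz_inv, D_aeval_eq_sum a p, D_aeval_eq_sum a q]
      simp only [Finset.smul_sum, smul_smul, add_smul, Finset.sum_add_distrib]
  ne_zero := ιMulti_ne_zero_of_linearIndependent (linearIndependent_D_of_algebraicIndependent ha hF)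

end Polynomial

end

end Claimed.Open.R035
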