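import Claimed.Open.R035.Statement

/-!
# Sanity checks for `subvarietyLocalRing` and `IsOrdAlong`

Let `X` be a locally Noetherian scheme, `V` the integral closed subscheme with generic point `v`
and `w ⋖ v`, i.e. the closure of `w` is a prime divisor of `V`.  Then the local ring
`𝒪_{V,w} = subvarietyLocalRing h ⊆ κ(v)` is a Noetherian domain of Krull dimension at most one, so
that the lengths used in `IsOrdAlong` are finite, and

* every `a ∈ 𝒪_{X,w}` which does not vanish identically on `V` has an order `n : ℕ` along `w`;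
* units have order `0`;
* if `a` and the ideal of `V` generate the maximal ideal of `𝒪_{X,w}`, then `a|_V` has order `1`.
-/

set_option autoImplicit false

open AlgebraicGeometry CategoryTheory Order

universe u

namespace Claimed.Open.R035

noncomputable section

section OrdAlong

variable {F : Type u} [Field F] {A : Subring F}

/-- `ord_A(g)` is well defined: it does not depend on the way `g` is written as a fraction. -/
theorem IsOrdAlong.unique {g : F} {n n' : ℤ} (h : IsOrdAlong A g n) (h' : IsOrdAlong A g n') :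
    n = n' := by
  obtain ⟨a, b, la, lb, ha, hb, hg, hla, hlb, rfl⟩ := h
  obtain ⟨a', b', la', lb', ha', hb', hg', hla', hlb', rfl⟩ := h'
  have hb0 : (b : F) ≠ 0 := fun h0 => hb (Subtype.ext h0)
  have hcross : a * b' = a' * b := by
    apply Subtype.ext
    push_cast
    rw [← hg, ← hg']
    ring
  have h1 := Ring.ord_mul (R := A) (a := a) (mem_nonZeroDivisors_of_ne_zero hb')
  have h2 := Ring.ord_mul (R := A) (a := a') (mem_nonZeroDivisors_of_ne_zero hb)
  rw [hcross, h2, hla, hlb, hla', hlb'] at h1
  have h3 : la' + lb = la + lb' := by exact_mod_cast h1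
  omega

/-- `ord_A` is additive. -/
theorem IsOrdAlong.mul {g g' : F} {n n' : ℤ} (h : IsOrdAlong A g n) (h' : IsOrdAlong A g' n') :
    IsOrdAlong A (g * g') (n + n') := by
  obtain ⟨a, b, la, lb, ha, hb, hg, hla, hlb, rfl⟩ := h
  obtain ⟨a', b', la', lb', ha', hb', hg', hla', hlb', rfl⟩ := h'
  refine ⟨a * a', b * b', la + la', lb + lb', mul_ne_zero ha ha', mul_ne_zero hb hb', ?_, ?_, ?_,
    by push_cast; ring⟩
  · push_cast
    rw [← hg, ← hg']
    ring
  · rw [Ring.ord_mul A (mem_nonZeroDivisors_of_ne_zero ha'), hla, hla']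
    norm_cast
  · rw [Ring.ord_mul A (mem_nonZeroDivisors_of_ne_zero hb'), hlb, hlb']
    norm_cast

/-- `ord_A(g⁻¹) = - ord_A(g)`. -/
theorem IsOrdAlong.inv {g : F} {n : ℤ} (h : IsOrdAlong A g n) : IsOrdAlong A g⁻¹ (-n) := by
  obtain ⟨a, b, la, lb, ha, hb, hg, hla, hlb, rfl⟩ := h
  have ha0 : (a : F) ≠ 0 := fun h0 => ha (Subtype.ext h0)
  have hb0 : (b : F) ≠ 0 := fun h0 => hb (Subtype.ext h0)
  have hg0 : g ≠ 0 := by
    rintro rfl
    rw [zero_mul] at hg
    exact ha0 hg.symm
  refine ⟨b, a, lb, la, hb, ha, ?_, hlb, hla, by ring⟩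
  rw [← hg]
  field_simp

/-- `ord_A(g / g') = ord_A(g) - ord_A(g')`. -/
theorem IsOrdAlong.div {g g' : F} {n n' : ℤ} (h : IsOrdAlong A g n) (h' : IsOrdAlong A g' n') :
    IsOrdAlong A (g / g') (n - n') := by
  rw [div_eq_mul_inv, sub_eq_add_neg]
  exact h.mul h'.inv

/-- Only nonzero elements have an order. -/
theorem IsOrdAlong.ne_zero {g : F} {n : ℤ} (h : IsOrdAlong A g n) : g ≠ 0 := by
  obtain ⟨a, b, la, lb, ha, hb, hg, -⟩ := h
  rintro rfl
  rw [zero_mul] at hg
  exact ha (Subtype.ext hg.symm)

end OrdAlong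

section Length

variable {X : Scheme.{u}}

/-- The restriction map `𝒪_{X,w} → κ(v)` for a point `w` of the closure of `v`. -/
def restrictionHom {v w : X} (h : v ⤳ w) : X.presheaf.stalk w →+* X.residueField v :=
  (X.presheaf.stalkSpecializes h ≫ X.residue v).hom

/-- The restriction map `𝒪_{X,w} → 𝒪_{V,w}`. -/
def restrictionHom' {v w : X} (h : v ⤳ w) : X.presheaf.stalk w →+* subvarietyLocalRing h :=
  (X.presheaf.stalkSpecializes h ≫ X.residue v).hom.rangeRestrict

@[simp]
theorem coe_restrictionHom' {v w : X} (h : v ⤳ w) (a : X.presheaf.stalk w) :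
    (restrictionHom' h a : X.residueField v) = restrictionHom h a := rfl

theorem restrictionHom'_surjective {v w : X} (h : v ⤳ w) :
    Function.Surjective (restrictionHom' h) :=
  (X.presheaf.stalkSpecializes h ≫ X.residue v).hom.rangeRestrict_surjective

theorem ker_restrictionHom' {v w : X} (h : v ⤳ w) :
    RingHom.ker (restrictionHom' h) = RingHom.ker (restrictionHom h) :=
  RingHom.ker_rangeRestrict _

instance isPrime_ker_restrictionHom {v w : X} (h : v ⤳ w) :
    (RingHom.ker (restrictionHom h)).IsPrime :=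
  RingHom.ker_isPrime _

/-- The prime ideal of `V` in `𝒪_{X,w}`, as a point of `Spec 𝒪_{X,w}`. -/
def subvarietyPoint {v w : X} (h : v ⤳ w) : Spec (X.presheaf.stalk w) :=
  (⟨RingHom.ker (restrictionHom h), inferInstance⟩ : PrimeSpectrum (X.presheaf.stalk w))

theorem fromSpecStalk_subvarietyPoint_aux {v w : X} (h : v ⤳ w) (c : Spec (X.presheaf.stalk v))
    (hc : X.fromSpecStalk v c = v)
    (hc' : PrimeSpectrum.asIdeal c = IsLocalRing.maximalIdeal (X.presheaf.stalk v)) :
    X.fromSpecStalk w (subvarietyPoint h) = v := by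
  have h2 : subvarietyPoint h = Spec.map (X.presheaf.stalkSpecializes h) c := by
    rw [Spec.map_apply]
    apply PrimeSpectrum.ext
    ext a
    change a ∈ RingHom.ker (restrictionHom h) ↔
      (X.presheaf.stalkSpecializes h).hom a ∈ PrimeSpectrum.asIdeal c
    rw [hc', RingHom.mem_ker, ← IsLocalRing.residue_eq_zero_iff]
    rfl
  rw [h2, ← Scheme.Hom.comp_apply, Scheme.SpecMap_stalkSpecializes_fromSpecStalk h]
  exact hc

/-- The prime ideal of `V` in `𝒪_{X,w}` is the point of `Spec 𝒪_{X,w}` lying over `v`. -/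
theorem fromSpecStalk_subvarietyPoint {v w : X} (h : v ⤳ w) :
    X.fromSpecStalk w (subvarietyPoint h) = v :=
  fromSpecStalk_subvarietyPoint_aux h (IsLocalRing.closedPoint (X.presheaf.stalk v))
    Scheme.fromSpecStalk_closedPoint rfl

/-- A prime ideal `𝔮` of `𝒪_{X,w}` containing the ideal of `V`, where `w ⋖ v`, is either the ideal
of `V` or the maximal ideal. -/
theorem eq_ker_or_eq_maximalIdeal_of_covBy {v w : X} (h : v ⤳ w) (hwv : w ⋖ v)
    (q : Ideal (X.presheaf.stalk w)) [hq : q.IsPrime] (hle : RingHom.ker (restrictionHom h) ≤ q) :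
    q = RingHom.ker (restrictionHom h) ∨ q = IsLocalRing.maximalIdeal (X.presheaf.stalk w) := by
  let Q : Spec (X.presheaf.stalk w) := (⟨q, hq⟩ : PrimeSpectrum (X.presheaf.stalk w))
  let M : Spec (X.presheaf.stalk w) := IsLocalRing.closedPoint (X.presheaf.stalk w)
  have hind : Topology.IsInducing (X.fromSpecStalk w) := (X.fromSpecStalk w).isEmbedding.isInducing
  have hM : X.fromSpecStalk w M = w := Scheme.fromSpecStalk_closedPoint
  have hP : X.fromSpecStalk w (subvarietyPoint h) = v := fromSpecStalk_subvarietyPoint h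
  set y := X.fromSpecStalk w Q with hy
  -- `w ≤ y ≤ v`
  have h1 : subvarietyPoint h ⤳ Q :=
    (PrimeSpectrum.le_iff_specializes (R := X.presheaf.stalk w) _ _).mp hle
  have h2 : Q ⤳ M := IsLocalRing.specializes_closedPoint (R := X.presheaf.stalk w) _
  have h1' : y ≤ v := by
    rw [Scheme.le_iff_specializes, ← hP]; exact hind.specializes_iff.mpr h1
  have h2' : w ≤ y := by
    rw [Scheme.le_iff_specializes, ← hM]; exact hind.specializes_iff.mpr h2
  by_cases hwy : y ≤ w
  · right
    rw [Scheme.le_iff_specializes, ← hM] at hwy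
    have h3 : M ⤳ Q := hind.specializes_iff.mp hwy
    have h4 : IsLocalRing.maximalIdeal (X.presheaf.stalk w) ≤ q :=
      (PrimeSpectrum.le_iff_specializes (R := X.presheaf.stalk w) _ _).mpr h3
    exact le_antisymm (IsLocalRing.le_maximalIdeal hq.ne_top) h4
  · left
    have hyv : ¬ y < v := hwv.2 (lt_of_le_not_ge h2' hwy)
    have hvy : v ≤ y := by
      by_contra hcon
      exact hyv (lt_of_le_not_ge h1' hcon)
    rw [Scheme.le_iff_specializes, ← hP] at hvy
    have h3 : Q ⤳ subvarietyPoint h := hind.specializes_iff.mp hvy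
    have h4 : q ≤ RingHom.ker (restrictionHom h) :=
      (PrimeSpectrum.le_iff_specializes (R := X.presheaf.stalk w) _ _).mpr h3
    exact le_antisymm h4 hle

/-- `𝒪_{V,w}` is Noetherian. -/
theorem isNoetherianRing_subvarietyLocalRing [IsLocallyNoetherian X] {v w : X}
    (h : v ⤳ w) : IsNoetherianRing (subvarietyLocalRing h) :=
  isNoetherianRing_of_surjective _ _ (restrictionHom' h) (restrictionHom'_surjective h)

/-- `𝒪_{V,w}` has Krull dimension at most one if `w ⋖ v`. -/
theorem krullDimLE_one_subvarietyLocalRing {v w : X}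
    (h : v ⤳ w) (hwv : w ⋖ v) : Ring.KrullDimLE 1 (subvarietyLocalRing h) := by
  refine Ring.KrullDimLE.mk₁' fun I hI hIp => ?_
  have hsurj := restrictionHom'_surjective h
  have hmap : Ideal.map (restrictionHom' h) (Ideal.comap (restrictionHom' h) I) = I :=
    Ideal.map_comap_of_surjective _ hsurj I
  have hle : RingHom.ker (restrictionHom h) ≤ Ideal.comap (restrictionHom' h) I := by
    rw [← ker_restrictionHom']
    exact Ideal.comap_mono bot_le
  have : (Ideal.comap (restrictionHom' h) I).IsPrime := Ideal.comap_isPrime _ _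
  rcases eq_ker_or_eq_maximalIdeal_of_covBy h hwv _ hle with h1 | h1
  · exfalso
    apply hI
    rw [← hmap, h1, ← ker_restrictionHom']
    exact Ideal.map_comap_of_surjective _ hsurj ⊥ |>.trans rfl
  · rw [← hmap, h1]
    refine Ideal.IsMaximal.map_of_surjective_of_ker_le hsurj ?_
    rw [← h1, ker_restrictionHom']
    exact hle

/-- The restriction to `V` of a function `a ∈ 𝒪_{X,w}` that does not vanish identically on `V` has
a well-defined order `n ≥ 0` along the prime divisor `w` of `V`. -/
theorem exists_isOrdAlong_restriction [IsLocallyNoetherian X] {v w : X} (h : v ⤳ w) (hwv : w ⋖ v)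
    (a : X.presheaf.stalk w) (ha : restrictionHom h a ≠ 0) :
    ∃ n : ℕ, IsOrdAlong (subvarietyLocalRing h) (restrictionHom h a) n := by
  have := isNoetherianRing_subvarietyLocalRing h
  have := krullDimLE_one_subvarietyLocalRing h hwv
  have ha' : restrictionHom' h a ≠ 0 := fun h0 => ha (congrArg Subtype.val h0)
  have hnz : restrictionHom' h a ∈ nonZeroDivisors (subvarietyLocalRing h) :=
    mem_nonZeroDivisors_of_ne_zero ha'
  obtain ⟨n, hn⟩ := ENat.ne_top_iff_exists.mp (Ring.ord_ne_top hnz)
  refine ⟨n, restrictionHom' h a, 1, n, 0, ha', one_ne_zero, ?_, hn.symm, ?_, by simp⟩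
  · simp
  · simp

/-- The restriction to `V` of a unit of `𝒪_{X,w}` has order `0` along `w`. -/
theorem isOrdAlong_restriction_of_isUnit {v w : X} (h : v ⤳ w)
    (a : X.presheaf.stalk w) (ha : IsUnit a) :
    IsOrdAlong (subvarietyLocalRing h) (restrictionHom h a) 0 := by
  have hu : IsUnit (restrictionHom' h a) := ha.map _
  refine ⟨restrictionHom' h a, 1, 0, 0, hu.ne_zero, one_ne_zero, ?_, ?_, ?_, by simp⟩
  · simp
  · simpa using Ring.ord_of_isUnit hu
  · simp

/-- If `a ∈ 𝒪_{X,w}` and the ideal of `V` generate the maximal ideal of `𝒪_{X,w}` (and `w ≠ v`, so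
that `a` does not vanish identically on `V`), then the restriction of `a` to `V` has order `1`
along `w`. -/
theorem isOrdAlong_restriction_one {v w : X} (h : v ⤳ w)
    (a : X.presheaf.stalk w) (ha : restrictionHom h a ≠ 0)
    (hmax : IsLocalRing.maximalIdeal (X.presheaf.stalk w) =
      Ideal.span {a} ⊔ RingHom.ker (restrictionHom h)) :
    IsOrdAlong (subvarietyLocalRing h) (restrictionHom h a) 1 := by
  have ha' : restrictionHom' h a ≠ 0 := fun h0 => ha (congrArg Subtype.val h0)
  have hsurj := restrictionHom'_surjective h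
  have hspan : Ideal.span {restrictionHom' h a} =
      Ideal.map (restrictionHom' h) (IsLocalRing.maximalIdeal (X.presheaf.stalk w)) := by
    rw [hmax, Ideal.map_sup, Ideal.map_span, Set.image_singleton, ← ker_restrictionHom',
      RingHom.ker_eq_comap_bot, Ideal.map_comap_of_surjective _ hsurj, sup_bot_eq]
  have hM : (Ideal.span {restrictionHom' h a}).IsMaximal := by
    rw [hspan]
    refine Ideal.IsMaximal.map_of_surjective_of_ker_le hsurj ?_
    rw [hmax, ker_restrictionHom']
    exact le_sup_right
  have hord : Ring.ord (subvarietyLocalRing h) (restrictionHom' h a) = 1 := by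
    rw [Ring.ord, Module.length_eq_one_iff, isSimpleModule_iff_isCoatom]
    exact hM.out
  refine ⟨restrictionHom' h a, 1, 1, 0, ha', one_ne_zero, ?_, by simpa using hord, ?_, by simp⟩
  · simp
  · simp

/-- The order of the restricted divisor, `IsRestrictionOrder`, computed from a function
`a ∈ 𝒪_{X,w}` with `a = φw / φv`. -/
theorem isRestrictionOrder_of_stalk [IsIntegral X] [IsLocallyNoetherian X] {v w : X} (h : v ⤳ w)
    {φv φw : X.functionField} (a : X.presheaf.stalk w)
    (ha : algebraMap (X.presheaf.stalk w) X.functionField a = φw / φv) {μ : ℤ}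
    (hμ : IsOrdAlong (subvarietyLocalRing h) (restrictionHom h a) μ) :
    IsRestrictionOrder φv φw v w μ := by
  refine ⟨h, (X.presheaf.stalkSpecializes h).hom a, ?_, hμ⟩
  rw [← ha]
  have hcomp := X.presheaf.stalkSpecializes_comp
    ((genericPoint_spec X).specializes (Set.mem_univ v)) h
  exact congrArg (fun f => f.hom a) hcomp

end Length

end

end Claimed.Open.R035
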