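import Claimed.Open.R035.SanityModels
import Claimed.Open.R035.SanityLength

/-!
# Sanity checks: local rings inside the function field, orders of vanishing

General lemmas on an integral (locally Noetherian) scheme `X`, in the language of `Statement.lean`:
the local rings `stalkSubring y ⊆ k(X)` and the orders `Scheme.ord g z`.
-/

set_option autoImplicit false

open AlgebraicGeometry CategoryTheory Order

universe u

namespace Claimed.Open.R035

section Subring

variable {X : Scheme.{u}} [IsIntegral X]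

theorem algebraMap_mem_stalkSubring {y : X} (a : X.presheaf.stalk y) :
    algebraMap _ X.functionField a ∈ stalkSubring y := ⟨a, rfl⟩

theorem algebraMap_stalkSpecializes {z y : X} (h : z ⤳ y) (a : X.presheaf.stalk y) :
    algebraMap (X.presheaf.stalk z) X.functionField ((X.presheaf.stalkSpecializes h).hom a) =
      algebraMap (X.presheaf.stalk y) X.functionField a := by
  have hcomp := X.presheaf.stalkSpecializes_comp
    ((genericPoint_spec X).specializes (Set.mem_univ z)) h
  exact congrArg (fun f => f.hom a) hcomp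

/-- `𝒪_{X,y} ⊆ 𝒪_{X,z}` if `y` lies in the closure of `z`. -/
theorem stalkSubring_mono {z y : X} (h : z ⤳ y) : stalkSubring y ≤ stalkSubring z := by
  rintro _ ⟨a, rfl⟩
  exact ⟨(X.presheaf.stalkSpecializes h).hom a, algebraMap_stalkSpecializes h a⟩

theorem algebraMap_stalk_injective (y : X) :
    Function.Injective (algebraMap (X.presheaf.stalk y) X.functionField) :=
  IsFractionRing.injective _ _

/-- A non-zero element of `𝒪_{X,y}` is a unit iff its inverse in `k(X)` lies in `𝒪_{X,y}`. -/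
theorem isUnit_iff_inv_mem_stalkSubring {y : X} {a : X.presheaf.stalk y} (ha : a ≠ 0) :
    IsUnit a ↔ (algebraMap _ X.functionField a)⁻¹ ∈ stalkSubring y := by
  constructor
  · rintro ⟨u, rfl⟩
    refine ⟨((u⁻¹ : (X.presheaf.stalk y)ˣ) : X.presheaf.stalk y), ?_⟩
    apply eq_inv_of_mul_eq_one_left
    rw [← map_mul]
    simp
  · rintro ⟨b, hb⟩
    have ha' : algebraMap _ X.functionField a ≠ 0 := by
      simpa using (algebraMap_stalk_injective y).ne ha
    refine IsUnit.of_mul_eq_one b (algebraMap_stalk_injective y ?_)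
    rw [map_mul, hb, map_one, mul_inv_cancel₀ ha']

/-- `𝒪_{X,y}` is a local ring: if `g ∈ 𝒪_{X,y}` is not a unit, then `1 - g` is a unit. -/
theorem inv_one_sub_mem_stalkSubring {y : X} {g : X.functionField} (hg : g ∈ stalkSubring y)
    (hg' : g⁻¹ ∉ stalkSubring y) : (1 - g)⁻¹ ∈ stalkSubring y := by
  obtain ⟨a, rfl⟩ := hg
  have ha : a ≠ 0 := by
    rintro rfl
    apply hg'
    rw [map_zero, inv_zero]
    exact zero_mem _
  have h1 : ¬ IsUnit a := fun h => hg' ((isUnit_iff_inv_mem_stalkSubring ha).mp h)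
  have h2 : IsUnit (1 - a) := (IsLocalRing.isUnit_or_isUnit_one_sub_self a).resolve_left h1
  have h3 := (isUnit_iff_inv_mem_stalkSubring h2.ne_zero).mp h2
  rwa [map_sub, map_one] at h3

/-- The function field is the local ring of the generic point. -/
theorem mem_stalkSubring_genericPoint (g : X.functionField) :
    g ∈ stalkSubring (genericPoint X) := by
  refine ⟨g, ?_⟩
  change (X.presheaf.stalkSpecializes _).hom g = g
  rw [TopCat.Presheaf.stalkSpecializes_refl]
  rfl

end Subring

section Ord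

variable {X : Scheme.{u}} [IsIntegral X] [IsLocallyNoetherian X]

/-- `Scheme.ord` of a regular function is the length of the quotient. -/
theorem ord_algebraMap_eq {z : X} (hz : coheight z = 1) {a : X.presheaf.stalk z} (ha : a ≠ 0)
    {n : ℕ} (hn : Ring.ord (X.presheaf.stalk z) a = n) :
    Scheme.ord (algebraMap _ X.functionField a) z = n := by
  have h1 : Ring.KrullDimLE 1 (X.presheaf.stalk z) := krullDimLE_of_coheight_le hz.le
  have hne : algebraMap (X.presheaf.stalk z) X.functionField a ≠ 0 := by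
    simpa using (algebraMap_stalk_injective z).ne ha
  rw [Scheme.ord_eq_iff hz hne, Scheme.ordHom, Ring.ordFrac_eq_ord _ ha]
  exact Ring.ordMonoidWithZeroHom_eq_coe _ (mem_nonZeroDivisors_of_ne_zero ha) hn

theorem exists_ord_algebraMap_eq {z : X} (hz : coheight z = 1) {a : X.presheaf.stalk z}
    (ha : a ≠ 0) : ∃ n : ℕ, Ring.ord (X.presheaf.stalk z) a = n ∧
      Scheme.ord (algebraMap _ X.functionField a) z = n := by
  have h1 : Ring.KrullDimLE 1 (X.presheaf.stalk z) := krullDimLE_of_coheight_le hz.le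
  obtain ⟨n, hn⟩ := ENat.ne_top_iff_exists.mp
    (Ring.ord_ne_top (mem_nonZeroDivisors_of_ne_zero ha))
  exact ⟨n, hn.symm, ord_algebraMap_eq hz ha hn.symm⟩

/-- A function that is regular at `z` has order `≥ 0` along `z`. -/
theorem ord_nonneg_of_mem {z : X} {g : X.functionField} (hg : g ∈ stalkSubring z) :
    0 ≤ Scheme.ord g z := by
  by_cases hz : coheight z = 1
  · obtain ⟨a, rfl⟩ := hg
    by_cases ha : a = 0
    · simp [ha]
    · obtain ⟨n, -, hn⟩ := exists_ord_algebraMap_eq hz ha
      rw [hn]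
      exact Int.natCast_nonneg n
  · simp [hz]

/-- A unit of `𝒪_{X,z}` has order `0` along `z`. -/
theorem ord_eq_zero_of_unit {z : X} {g : X.functionField} (hg : g ∈ stalkSubring z)
    (hg' : g⁻¹ ∈ stalkSubring z) : Scheme.ord g z = 0 := by
  by_cases h0 : g = 0
  · simp [h0]
  have h1 := ord_nonneg_of_mem hg
  have h2 := ord_nonneg_of_mem hg'
  rw [ord_inv z h0] at h2
  omega

/-- A non-unit of `𝒪_{X,z}` has positive order along `z`. -/
theorem ord_pos_of_nonunit {z : X} (hz : coheight z = 1) {g : X.functionField}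
    (hg : g ∈ stalkSubring z) (hg' : g⁻¹ ∉ stalkSubring z) : 0 < Scheme.ord g z := by
  obtain ⟨a, rfl⟩ := hg
  have ha : a ≠ 0 := by
    rintro rfl
    apply hg'
    rw [map_zero, inv_zero]
    exact zero_mem _
  have h1 : ¬ IsUnit a := fun h => hg' ((isUnit_iff_inv_mem_stalkSubring ha).mp h)
  obtain ⟨n, hn, hn'⟩ := exists_ord_algebraMap_eq hz ha
  rw [hn']
  have : n ≠ 0 := by
    rintro rfl
    apply h1
    rw [Nat.cast_zero, Ring.ord, Module.length_eq_zero_iff,
      Ideal.Quotient.subsingleton_iff, Ideal.span_singleton_eq_top] at hn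
    exact hn
  exact_mod_cast Nat.pos_of_ne_zero this

end Ord

section Order

variable {X : Scheme.{u}}

theorem point_le_antisymm {a b : X} (h : a ≤ b) (h' : b ≤ a) : a = b :=
  ((Scheme.le_iff_specializes.mp h').antisymm (Scheme.le_iff_specializes.mp h)).eq

theorem point_lt_of_le_of_ne {a b : X} (h : a ≤ b) (hne : a ≠ b) : a < b :=
  lt_of_le_not_ge h fun h' => hne (point_le_antisymm h h')

end Order

section Affine
variable {X : Scheme.{u}} {U : X.Opens} (hU : IsAffineOpen U)

theorem mem_primeIdealOf_iff (x : U) (s : Γ(X, U)) :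
    s ∈ (hU.primeIdealOf x).asIdeal ↔ ¬ IsUnit (X.presheaf.germ U x x.2 s) := by
  rw [hU.primeIdealOf_eq_map_closedPoint]
  exact Iff.rfl

theorem primeIdealOf_le_iff (x y : U) :
    hU.primeIdealOf x ≤ hU.primeIdealOf y ↔ (x : X) ⤳ y := by
  rw [PrimeSpectrum.le_iff_specializes, ← subtype_specializes_iff]
  exact hU.isoSpec.hom.homeomorph.isInducing.specializes_iff

theorem primeIdealOf_injective : Function.Injective hU.primeIdealOf :=
  hU.isoSpec.hom.homeomorph.injective

theorem fromSpec_mem (P : PrimeSpectrum Γ(X, U)) : hU.fromSpec P ∈ U := by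
  have : hU.fromSpec P ∈ Set.range hU.fromSpec := ⟨P, rfl⟩
  rwa [hU.range_fromSpec] at this

theorem primeIdealOf_fromSpec (P : PrimeSpectrum Γ(X, U)) :
    hU.primeIdealOf ⟨hU.fromSpec P, fromSpec_mem hU P⟩ = P :=
  hU.fromSpec.isOpenEmbedding.injective (hU.fromSpec_primeIdealOf _)

theorem height_primeIdealOf (x : U) : (hU.primeIdealOf x).asIdeal.height = coheight (x : X) := by
  have h1 := coheight_eq_of_isOpenImmersion (x := (hU.primeIdealOf x : Spec Γ(X, U))) hU.fromSpec
  have h2 := idealHeight_eq_coheight Γ(X, U) (hU.primeIdealOf x : Spec Γ(X, U))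
  have h3 := hU.fromSpec_primeIdealOf x
  rw [← h3]
  exact h2.trans h1.symm

theorem fromSpec_specializes_iff (P Q : PrimeSpectrum Γ(X, U)) :
    hU.fromSpec P ⤳ hU.fromSpec Q ↔ P ≤ Q := by
  rw [PrimeSpectrum.le_iff_specializes]
  exact hU.fromSpec.isOpenEmbedding.isInducing.specializes_iff

theorem coheight_fromSpec (P : PrimeSpectrum Γ(X, U)) :
    coheight (hU.fromSpec P) = P.asIdeal.height := by
  have := height_primeIdealOf hU ⟨hU.fromSpec P, fromSpec_mem hU P⟩
  rw [primeIdealOf_fromSpec] at this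
  exact this.symm

/-- finitely many points of `U` belong to a finite set of prime ideals -/
theorem finite_setOf_primeIdealOf_mem {T : Set (Ideal Γ(X, U))} (hT : T.Finite) :
    {z : X | ∃ hz : z ∈ U, (hU.primeIdealOf ⟨z, hz⟩).asIdeal ∈ T}.Finite := by
  have h1 : {P : PrimeSpectrum Γ(X, U) | P.asIdeal ∈ T}.Finite :=
    hT.preimage (fun P _ Q _ h => PrimeSpectrum.ext h)
  refine (h1.image hU.fromSpec).subset ?_
  rintro z ⟨hz, hzT⟩
  exact ⟨_, hzT, hU.fromSpec_primeIdealOf ⟨z, hz⟩⟩

end Affine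

section AffineIntegral

variable {X : Scheme.{u}} [IsIntegral X] [IsLocallyNoetherian X] {U : X.Opens} (hU : IsAffineOpen U)

omit [IsIntegral X] in
/-- Let `V` be the closure of `v` and `s` a function on the affine set `U` that does not vanish
identically on `V`.  Then `s` vanishes along finitely many prime divisors of `V` only. -/
theorem finite_covBy_mem_primeIdealOf {v : X} (hv : v ∈ U) (s : Γ(X, U))
    (hs : s ∉ (hU.primeIdealOf ⟨v, hv⟩).asIdeal) :
    {w : X | w ⋖ v ∧ ∃ hw : w ∈ U, s ∈ (hU.primeIdealOf ⟨w, hw⟩).asIdeal}.Finite := by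
  have hNoeth : IsNoetherianRing Γ(X, U) := IsLocallyNoetherian.component_noetherian ⟨U, hU⟩
  refine (finite_setOf_primeIdealOf_mem hU (Ideal.finite_minimalPrimes_of_isNoetherianRing Γ(X, U)
    ((hU.primeIdealOf ⟨v, hv⟩).asIdeal ⊔ Ideal.span {s}))).subset ?_
  rintro w ⟨hwv, hw, hsw⟩
  refine ⟨hw, ?_⟩
  have hvw : v ⤳ w := (Scheme.le_iff_specializes).mp hwv.le
  have hle : (hU.primeIdealOf ⟨v, hv⟩).asIdeal ⊔ Ideal.span {s} ≤
      (hU.primeIdealOf ⟨w, hw⟩).asIdeal :=
    sup_le ((primeIdealOf_le_iff hU ⟨v, hv⟩ ⟨w, hw⟩).mpr hvw)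
      ((Ideal.span_singleton_le_iff_mem _).mpr hsw)
  obtain ⟨Q, hQ, hQw⟩ := Ideal.exists_minimalPrimes_le hle
  have hQp : Q.IsPrime := hQ.isPrime
  let Q' : PrimeSpectrum Γ(X, U) := ⟨Q, hQp⟩
  set z := hU.fromSpec Q' with hz
  have hzU : z ∈ U := fromSpec_mem hU Q'
  have hPz : hU.primeIdealOf ⟨z, hzU⟩ = Q' := primeIdealOf_fromSpec hU Q'
  have h1 : w ≤ z := by
    rw [Scheme.le_iff_specializes, ← primeIdealOf_le_iff hU ⟨z, hzU⟩ ⟨w, hw⟩, hPz]
    exact hQw
  have h2 : z ≤ v := by
    rw [Scheme.le_iff_specializes, ← primeIdealOf_le_iff hU ⟨v, hv⟩ ⟨z, hzU⟩, hPz]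
    exact le_sup_left.trans hQ.1.2
  have h3 : z ≠ v := by
    intro h
    apply hs
    have : hU.primeIdealOf ⟨v, hv⟩ = Q' := by
      rw [← hPz]; congr 1; exact Subtype.ext h.symm
    rw [this]
    exact hQ.1.2 (Ideal.mem_sup_right (Ideal.mem_span_singleton_self s))
  have h4 : w = z := by
    by_contra hne
    exact hwv.2 (point_lt_of_le_of_ne h1 hne) (point_lt_of_le_of_ne h2 h3)
  have : hU.primeIdealOf ⟨w, hw⟩ = Q' := by
    rw [← hPz]; congr 1; exact Subtype.ext h4
  rw [this]
  exact hQ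

/-- A non-zero function on the affine set `U` that vanishes at `y` vanishes along a prime divisor
through `y` (Krull's principal ideal theorem). -/
theorem exists_coheight_one_mem_primeIdealOf [Nonempty U] {y : X} (hy : y ∈ U) (s : Γ(X, U))
    (hs0 : s ≠ 0) (hs : s ∈ (hU.primeIdealOf ⟨y, hy⟩).asIdeal) :
    ∃ z : X, z ⤳ y ∧ coheight z = 1 ∧ ∃ hz : z ∈ U, s ∈ (hU.primeIdealOf ⟨z, hz⟩).asIdeal := by
  have hNoeth : IsNoetherianRing Γ(X, U) := IsLocallyNoetherian.component_noetherian ⟨U, hU⟩
  obtain ⟨Q, hQ, hQy⟩ := Ideal.exists_minimalPrimes_le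
    ((Ideal.span_singleton_le_iff_mem _).mpr hs)
  have hQp : Q.IsPrime := hQ.isPrime
  let Q' : PrimeSpectrum Γ(X, U) := ⟨Q, hQp⟩
  have hzU : hU.fromSpec Q' ∈ U := fromSpec_mem hU Q'
  have hPz : hU.primeIdealOf ⟨hU.fromSpec Q', hzU⟩ = Q' := primeIdealOf_fromSpec hU Q'
  refine ⟨hU.fromSpec Q', ?_, ?_, hzU, ?_⟩
  · rw [← primeIdealOf_le_iff hU ⟨_, hzU⟩ ⟨y, hy⟩, hPz]
    exact hQy
  · rw [coheight_fromSpec]
    apply le_antisymm
    · exact Ideal.height_le_one_of_isPrincipal_of_mem_minimalPrimes (Ideal.span {s}) Q hQ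
    · exact (Ideal.one_le_height_span_singleton_of_mem_nonZeroDivisors
        (mem_nonZeroDivisors_of_ne_zero hs0)).trans (Ideal.height_mono hQ.1.2)
  · rw [hPz]
    exact hQ.1.2 (Ideal.mem_span_singleton_self s)


omit [IsLocallyNoetherian X] in
/-- The germ of a section at `y`, as a rational function, is its germ at the generic point. -/
theorem algebraMap_germ (hη : genericPoint X ∈ U) {y : X} (hy : y ∈ U) (s : Γ(X, U)) :
    algebraMap (X.presheaf.stalk y) X.functionField (X.presheaf.germ U y hy s) =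
      X.presheaf.germ U (genericPoint X) hη s := by
  have : Nonempty U := ⟨⟨_, hη⟩⟩
  exact Scheme.algebraMap_germ_eq_germToFunctionField X hy s

/-- A rational function `g ≠ 0` has non-zero order along finitely many prime divisors meeting an
affine set `U`. -/
theorem finite_ord_ne_zero_of_isAffineOpen (hU : IsAffineOpen U) {g : X.functionField}
    (hg : g ≠ 0) :
    {z : X | z ∈ U ∧ Scheme.ord g z ≠ 0}.Finite := by
  by_cases hne : Nonempty U
  swap
  · refine Set.Finite.subset Set.finite_empty ?_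
    rintro z ⟨hz, -⟩
    exact hne ⟨⟨z, hz⟩⟩
  have hNoeth : IsNoetherianRing Γ(X, U) := IsLocallyNoetherian.component_noetherian ⟨U, hU⟩
  have := functionField_isFractionRing_of_isAffineOpen X U hU
  obtain ⟨s, t, ht, rfl⟩ := IsFractionRing.div_surjective (A := Γ(X, U)) g
  have ht0 : t ≠ 0 := nonZeroDivisors.ne_zero ht
  have hs0 : s ≠ 0 := by
    rintro rfl
    simp at hg
  refine (finite_setOf_primeIdealOf_mem hU (Ideal.finite_minimalPrimes_of_isNoetherianRing Γ(X, U)
    (Ideal.span {s * t}))).subset ?_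
  rintro z ⟨hz, hord⟩
  have hco : coheight z = 1 := by
    by_contra h
    exact hord (Scheme.ord_eq_zero_of_coheight_neq_one h _)
  refine ⟨hz, ?_⟩
  have hht : (hU.primeIdealOf ⟨z, hz⟩).asIdeal.height = 1 := by
    rw [height_primeIdealOf, hco]
  have : (hU.primeIdealOf ⟨z, hz⟩).asIdeal.FiniteHeight :=
    ⟨Or.inr (by rw [hht]; exact ENat.one_ne_top)⟩
  refine Ideal.mem_minimalPrimes_of_height_le ?_ ?_
  · rw [Ideal.span_singleton_le_iff_mem]
    by_contra hmem
    rw [mem_primeIdealOf_iff, not_not, map_mul, IsUnit.mul_iff] at hmem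
    apply hord
    have e1 : ∀ r : Γ(X, U), algebraMap Γ(X, U) X.functionField r =
        algebraMap (X.presheaf.stalk z) X.functionField (X.presheaf.germ U z hz r) := fun r =>
      (Scheme.algebraMap_germ_eq_germToFunctionField X hz r).symm
    have hs1 := (isUnit_iff_inv_mem_stalkSubring hmem.1.ne_zero).mp hmem.1
    have ht1 := (isUnit_iff_inv_mem_stalkSubring hmem.2.ne_zero).mp hmem.2
    apply ord_eq_zero_of_unit
    · rw [div_eq_mul_inv, e1, e1]
      exact mul_mem (algebraMap_mem_stalkSubring _) ht1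
    · rw [inv_div, div_eq_mul_inv, e1, e1]
      exact mul_mem (algebraMap_mem_stalkSubring _) hs1
  · rw [hht]
    exact Ideal.one_le_height_span_singleton_of_mem_nonZeroDivisors
      (mem_nonZeroDivisors_of_ne_zero (mul_ne_zero hs0 ht0))

/-- **Principal divisors are Weil divisors** on a scheme with a finite affine cover. -/
theorem isWeilDivisor_ord {ι : Type*} [Finite ι] {V : ι → X.Opens} (hV : ∀ i, IsAffineOpen (V i))
    (hcov : ∀ y : X, ∃ i, y ∈ V i) {g : X.functionField} (hg : g ≠ 0) :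
    IsWeilDivisor (fun z => Scheme.ord g z) := by
  constructor
  · refine (Set.finite_iUnion fun i => finite_ord_ne_zero_of_isAffineOpen (hV i) hg).subset ?_
    intro z hz
    obtain ⟨i, hi⟩ := hcov z
    exact Set.mem_iUnion.mpr ⟨i, hi, hz⟩
  · intro z hz
    by_contra h
    exact hz (Scheme.ord_eq_zero_of_coheight_neq_one h _)

end AffineIntegral

end Claimed.Open.R035
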