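import Claimed.Open.R035.SanityAtlas
import Claimed.Open.R035.SanityLocal
import Claimed.Open.R035.SanityFormOrd

/-!
# Sanity check: local structure of a `CubeAtlas`

Basic consequences of the interface `CubeAtlas`: the scheme is locally Noetherian and normal, its
local rings are localisations of polynomial rings in the chart coordinates, and a point lies in a
chart iff the chart coordinates are regular at it.
-/

set_option autoImplicit false

open AlgebraicGeometry CategoryTheory Order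

universe u

namespace Claimed.Open.R035

namespace CubeAtlas

variable {k : Type u} [Field k] (A : CubeAtlas k)

/-- The function field is a `k`-algebra (the same structure as in `Statement.lean`). -/
noncomputable instance algebraFunctionField : Algebra k A.X.functionField := fnFieldAlgebra A.π

instance nonempty_U (ε : Fin 3 → Bool) : Nonempty (A.U ε) := ⟨⟨_, A.generic_mem ε⟩⟩

instance isNoetherianRing_section (ε : Fin 3 → Bool) : IsNoetherianRing Γ(A.X, A.U ε) :=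
  isNoetherianRing_of_ringEquiv _ (A.e ε)

/-- The regular functions on the chart `ε` are the polynomials in the chart coordinates. -/
theorem germ_e (ε : Fin 3 → Bool) (p : MvPolynomial (Fin 3) k) :
    A.X.presheaf.germ (A.U ε) (genericPoint A.X) (A.generic_mem ε) (A.e ε p) =
      MvPolynomial.aeval (A.u ε) p := by
  let f₁ : MvPolynomial (Fin 3) k →+* A.X.functionField :=
    (A.X.presheaf.germ (A.U ε) (genericPoint A.X) (A.generic_mem ε)).hom.comp (A.e ε).toRingHom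
  let f₂ : MvPolynomial (Fin 3) k →+* A.X.functionField := (MvPolynomial.aeval (A.u ε)).toRingHom
  have : f₁ = f₂ := by
    apply MvPolynomial.ringHom_ext
    · intro c
      change A.X.presheaf.germ (A.U ε) (genericPoint A.X) (A.generic_mem ε)
        (A.e ε (MvPolynomial.C c)) = MvPolynomial.aeval (A.u ε) (MvPolynomial.C c)
      rw [A.germ_C, MvPolynomial.aeval_C]
    · intro i
      change A.X.presheaf.germ (A.U ε) (genericPoint A.X) (A.generic_mem ε)
        (A.e ε (MvPolynomial.X i)) = MvPolynomial.aeval (A.u ε) (MvPolynomial.X i)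
      rw [A.germ_X, MvPolynomial.aeval_X]
      rfl
  exact congrArg (fun f => f p) this

theorem algebraMap_germ_e (ε : Fin 3 → Bool) {y : A.X} (hy : y ∈ A.U ε)
    (p : MvPolynomial (Fin 3) k) :
    algebraMap (A.X.presheaf.stalk y) A.X.functionField
      (A.X.presheaf.germ (A.U ε) y hy (A.e ε p)) = MvPolynomial.aeval (A.u ε) p := by
  rw [algebraMap_germ (A.generic_mem ε) hy, A.germ_e]

theorem algebraicIndependent_u (ε : Fin 3 → Bool) : AlgebraicIndependent k (A.u ε) := by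
  intro p q h
  change MvPolynomial.aeval (A.u ε) p = MvPolynomial.aeval (A.u ε) q at h
  rw [← A.germ_e, ← A.germ_e] at h
  exact (A.e ε).injective (germ_injective_of_isIntegral A.X _ _ h)

theorem u_ne_zero (ε : Fin 3 → Bool) (i : Fin 3) : A.u ε i ≠ 0 :=
  (A.algebraicIndependent_u ε).ne_zero i

theorem x_ne_zero (i : Fin 3) : A.x i ≠ 0 := by
  have := A.u_ne_zero (fun _ => true) i
  simpa [u] using this

theorem exists_fraction (ε : Fin 3 → Bool) (g : A.X.functionField) :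
    ∃ p q : MvPolynomial (Fin 3) k,
      g = MvPolynomial.aeval (A.u ε) p / MvPolynomial.aeval (A.u ε) q := by
  have := functionField_isFractionRing_of_isAffineOpen A.X (A.U ε) (A.isAffineOpen ε)
  obtain ⟨s, t, -, rfl⟩ := IsFractionRing.div_surjective (A := Γ(A.X, A.U ε)) g
  refine ⟨(A.e ε).symm s, (A.e ε).symm t, ?_⟩
  rw [← A.germ_e, ← A.germ_e, RingEquiv.apply_symm_apply, RingEquiv.apply_symm_apply]
  rfl

/-- Polynomials in the chart coordinates are regular at the points of the chart. -/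
theorem aeval_mem (ε : Fin 3 → Bool) {y : A.X} (hy : y ∈ A.U ε) (p : MvPolynomial (Fin 3) k) :
    MvPolynomial.aeval (A.u ε) p ∈ stalkSubring y :=
  ⟨_, A.algebraMap_germ_e ε hy p⟩

theorem u_mem (ε : Fin 3 → Bool) {y : A.X} (hy : y ∈ A.U ε) (i : Fin 3) :
    A.u ε i ∈ stalkSubring y := by
  simpa using A.aeval_mem ε hy (MvPolynomial.X i)

/-- The local ring of a point of the chart `ε` is a localisation of the polynomial ring in the chart
coordinates. -/
theorem exists_fraction_of_mem (ε : Fin 3 → Bool) {y : A.X} (hy : y ∈ A.U ε)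
    {b : A.X.functionField} (hb : b ∈ stalkSubring y) :
    ∃ p q : MvPolynomial (Fin 3) k, (MvPolynomial.aeval (A.u ε) q)⁻¹ ∈ stalkSubring y ∧
      b = MvPolynomial.aeval (A.u ε) p * (MvPolynomial.aeval (A.u ε) q)⁻¹ := by
  obtain ⟨b', rfl⟩ := hb
  let _ := TopCat.Presheaf.algebra_section_stalk A.X.presheaf (⟨y, hy⟩ : A.U ε)
  have hloc := (A.isAffineOpen ε).isLocalization_stalk ⟨y, hy⟩
  obtain ⟨⟨s, t⟩, hst⟩ := IsLocalization.surj
    ((A.isAffineOpen ε).primeIdealOf ⟨y, hy⟩).asIdeal.primeCompl b'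
  have ht : IsUnit (A.X.presheaf.germ (A.U ε) y hy t.1) :=
    IsLocalization.map_units (A.X.presheaf.stalk y) t
  have hst' : b' * A.X.presheaf.germ (A.U ε) y hy t.1 = A.X.presheaf.germ (A.U ε) y hy s := hst
  have e1 : ∀ r : Γ(A.X, A.U ε), algebraMap (A.X.presheaf.stalk y) A.X.functionField
      (A.X.presheaf.germ (A.U ε) y hy r) = MvPolynomial.aeval (A.u ε) ((A.e ε).symm r) := by
    intro r
    rw [← A.algebraMap_germ_e ε hy, RingEquiv.apply_symm_apply]
  have h1 := (isUnit_iff_inv_mem_stalkSubring ht.ne_zero).mp ht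
  rw [e1] at h1
  refine ⟨(A.e ε).symm s, (A.e ε).symm t.1, h1, ?_⟩
  have h2 := congrArg (algebraMap (A.X.presheaf.stalk y) A.X.functionField) hst'
  rw [map_mul, e1, e1] at h2
  have h3 : MvPolynomial.aeval (A.u ε) ((A.e ε).symm t.1) ≠ 0 := by
    rw [← e1]
    simpa using (algebraMap_stalk_injective y).ne ht.ne_zero
  rw [← h2]
  field_simp

/-- The chart coordinates are a system of coordinates at every point of the chart. -/
theorem isCoordSystem (ε : Fin 3 → Bool) {y : A.X} (hy : y ∈ A.U ε) :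
    IsCoordSystem k (stalkSubring y) (A.u ε) :=
  isCoordSystem_of_algebraicIndependent (A.algebraicIndependent_u ε) (A.exists_fraction ε)
    (A.aeval_mem ε hy) fun _ hb => A.exists_fraction_of_mem ε hy hb

theorem u_inv_of_ne {ε δ : Fin 3 → Bool} {i : Fin 3} (h : ε i ≠ δ i) :
    (A.u δ i)⁻¹ = A.u ε i := by
  unfold u
  cases h1 : ε i <;> cases h2 : δ i <;> simp_all

theorem u_eq_of_eq {ε δ : Fin 3 → Bool} {i : Fin 3} (h : ε i = δ i) : A.u δ i = A.u ε i := by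
  unfold u
  rw [h]

/-- A point lies in the chart `ε` iff the coordinates of the chart are regular at it. -/
theorem mem_U_iff (ε : Fin 3 → Bool) (y : A.X) : y ∈ A.U ε ↔ ∀ i, A.u ε i ∈ stalkSubring y := by
  refine ⟨fun hy i => A.u_mem ε hy i, fun h => ?_⟩
  obtain ⟨δ, hδ⟩ := A.cover y
  rw [A.mem_iff ε δ y hδ]
  intro i hi
  have h0 : A.X.presheaf.germ (A.U δ) y hδ (A.e δ (MvPolynomial.X i)) ≠ 0 := by
    intro h0
    have := A.algebraMap_germ_e δ hδ (MvPolynomial.X i)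
    rw [h0, map_zero, MvPolynomial.aeval_X] at this
    exact A.u_ne_zero δ i this.symm
  rw [isUnit_iff_inv_mem_stalkSubring h0, A.algebraMap_germ_e, MvPolynomial.aeval_X,
    A.u_inv_of_ne hi]
  exact h i

/-- At every point, `x i` or `(x i)⁻¹` is regular. -/
theorem x_mem_or_inv_mem (y : A.X) (i : Fin 3) :
    A.x i ∈ stalkSubring y ∨ (A.x i)⁻¹ ∈ stalkSubring y := by
  obtain ⟨ε, hε⟩ := A.cover y
  have := A.u_mem ε hε i
  unfold u at this
  split_ifs at this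
  · exact Or.inl this
  · exact Or.inr this

/-- `ℙ¹ × ℙ¹ × ℙ¹` is normal. -/
theorem isNormalScheme : IsNormalScheme A.X := by
  intro y
  refine ⟨inferInstance, ?_⟩
  obtain ⟨ε, hε⟩ := A.cover y
  let _ := TopCat.Presheaf.algebra_section_stalk A.X.presheaf (⟨y, hε⟩ : A.U ε)
  have hloc := (A.isAffineOpen ε).isLocalization_stalk ⟨y, hε⟩
  have h1 : IsIntegrallyClosed Γ(A.X, A.U ε) := IsIntegrallyClosed.of_equiv (A.e ε)
  exact isIntegrallyClosed_of_isLocalization (A.X.presheaf.stalk y)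
    ((A.isAffineOpen ε).primeIdealOf ⟨y, hε⟩).asIdeal.primeCompl
    (Ideal.primeCompl_le_nonZeroDivisors _)

instance compactSpace : CompactSpace A.X := by
  have h : (⊤ : Set A.X) = ⋃ ε, (A.U ε : Set A.X) := by
    ext p
    simpa using A.cover p
  constructor
  change IsCompact (⊤ : Set A.X)
  rw [h]
  exact isCompact_iUnion fun ε => (A.isAffineOpen ε).isCompact

/-! ### Points of a chart and prime ideals of the polynomial ring -/

noncomputable section

/-- The point of the chart `U ε` given by a prime ideal of the polynomial ring. -/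
def pt (ε : Fin 3 → Bool) (𝔭 : PrimeSpectrum (MvPolynomial (Fin 3) k)) : A.X :=
  (A.isAffineOpen ε).fromSpec (PrimeSpectrum.comap (A.e ε).symm.toRingHom 𝔭)

variable {A} {ε δ : Fin 3 → Bool} {𝔭 𝔮 : PrimeSpectrum (MvPolynomial (Fin 3) k)}

theorem pt_mem (ε : Fin 3 → Bool) (𝔭 : PrimeSpectrum (MvPolynomial (Fin 3) k)) :
    A.pt ε 𝔭 ∈ A.U ε := fromSpec_mem _ _

theorem primeIdealOf_pt (ε : Fin 3 → Bool) (𝔭 : PrimeSpectrum (MvPolynomial (Fin 3) k)) :
    (A.isAffineOpen ε).primeIdealOf ⟨A.pt ε 𝔭, pt_mem ε 𝔭⟩ =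
      PrimeSpectrum.comapEquiv (A.e ε) 𝔭 :=
  primeIdealOf_fromSpec _ _

theorem exists_pt {p : A.X} (hp : p ∈ A.U ε) : ∃ 𝔭, A.pt ε 𝔭 = p := by
  refine ⟨(PrimeSpectrum.comapEquiv (A.e ε)).symm ((A.isAffineOpen ε).primeIdealOf ⟨p, hp⟩), ?_⟩
  change (A.isAffineOpen ε).fromSpec (PrimeSpectrum.comapEquiv (A.e ε) _) = p
  rw [OrderIso.apply_symm_apply]
  exact (A.isAffineOpen ε).fromSpec_primeIdealOf ⟨p, hp⟩

theorem pt_injective (ε : Fin 3 → Bool) : Function.Injective (A.pt ε) := fun _ _ h =>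
  (PrimeSpectrum.comapEquiv (A.e ε)).injective
    ((A.isAffineOpen ε).fromSpec.isOpenEmbedding.injective h)

theorem pt_specializes_iff : A.pt ε 𝔭 ⤳ A.pt ε 𝔮 ↔ 𝔭 ≤ 𝔮 :=
  (fromSpec_specializes_iff _ _ _).trans (PrimeSpectrum.comapEquiv (A.e ε)).le_iff_le

theorem pt_le_iff : A.pt ε 𝔮 ≤ A.pt ε 𝔭 ↔ 𝔭 ≤ 𝔮 :=
  Scheme.le_iff_specializes.trans pt_specializes_iff

theorem pt_lt_iff : A.pt ε 𝔮 < A.pt ε 𝔭 ↔ 𝔭 < 𝔮 := by
  rw [lt_iff_le_not_ge, lt_iff_le_not_ge, pt_le_iff, pt_le_iff]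

theorem mem_of_specializes {v w : A.X} (h : v ⤳ w) (hw : w ∈ A.U ε) : v ∈ A.U ε :=
  h.mem_open (A.U ε).isOpen hw

theorem pt_covBy_iff : A.pt ε 𝔮 ⋖ A.pt ε 𝔭 ↔ 𝔭 ⋖ 𝔮 := by
  constructor
  · intro h
    refine ⟨pt_lt_iff.mp h.1, fun 𝔯 h1 h2 => ?_⟩
    exact h.2 (pt_lt_iff.mpr h2) (pt_lt_iff.mpr h1)
  · intro h
    refine ⟨pt_lt_iff.mpr h.1, fun c h1 h2 => ?_⟩
    have hc : c ∈ A.U ε := mem_of_specializes (Scheme.le_iff_specializes.mp h1.le) (pt_mem ε 𝔮)
    obtain ⟨𝔯, rfl⟩ := exists_pt hc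
    exact h.2 (pt_lt_iff.mp h2) (pt_lt_iff.mp h1)

theorem coheight_pt : coheight (A.pt ε 𝔭) = 𝔭.asIdeal.height :=
  (coheight_fromSpec _ _).trans (RingEquiv.height_comap (A.e ε).symm 𝔭.asIdeal)

theorem genericPoint_eq (ε : Fin 3 → Bool) : genericPoint A.X = A.pt ε ⊥ := by
  obtain ⟨𝔭, h𝔭⟩ := exists_pt (A.generic_mem ε)
  have h1 : A.pt ε ⊥ ⤳ genericPoint A.X := by
    rw [← h𝔭]
    exact pt_specializes_iff.mpr bot_le
  have h2 : genericPoint A.X ⤳ A.pt ε ⊥ := (genericPoint_spec A.X).specializes (Set.mem_univ _)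
  exact (h2.antisymm h1).eq

/-- The germ map from the polynomial ring to the local ring of a point of the chart. -/
def germ (A : CubeAtlas k) (ε : Fin 3 → Bool) (𝔭 : PrimeSpectrum (MvPolynomial (Fin 3) k)) :
    MvPolynomial (Fin 3) k →+* A.X.presheaf.stalk (A.pt ε 𝔭) :=
  (A.X.presheaf.germ (A.U ε) (A.pt ε 𝔭) (pt_mem ε 𝔭)).hom.comp (A.e ε).toRingHom

theorem ι_eq_aeval (ε : Fin 3 → Bool) (a : MvPolynomial (Fin 3) k) :
    A.ι ε a = MvPolynomial.aeval (A.u ε) a := A.germ_e ε a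

theorem algebraMap_germ (a : MvPolynomial (Fin 3) k) :
    algebraMap (A.X.presheaf.stalk (A.pt ε 𝔭)) A.X.functionField (A.germ ε 𝔭 a) = A.ι ε a :=
  Claimed.Open.R035.algebraMap_germ (A.generic_mem ε) (pt_mem ε 𝔭) _

theorem isUnit_germ_iff {a : MvPolynomial (Fin 3) k} :
    IsUnit (A.germ ε 𝔭 a) ↔ a ∉ 𝔭.asIdeal := by
  have h := mem_primeIdealOf_iff (A.isAffineOpen ε) ⟨A.pt ε 𝔭, pt_mem ε 𝔭⟩ (A.e ε a)
  rw [primeIdealOf_pt] at h
  have h2 : A.e ε a ∈ (PrimeSpectrum.comapEquiv (A.e ε) 𝔭).asIdeal ↔ a ∈ 𝔭.asIdeal := by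
    change (A.e ε).symm (A.e ε a) ∈ 𝔭.asIdeal ↔ _
    rw [RingEquiv.symm_apply_apply]
  rw [← h2, h, not_not]
  rfl

theorem ι_injective (ε : Fin 3 → Bool) : Function.Injective (A.ι ε) := fun _ _ h =>
  (A.e ε).injective (germ_injective_of_isIntegral A.X _ _ h)

theorem ι_ne_zero {a : MvPolynomial (Fin 3) k} (ha : a ≠ 0) : A.ι ε a ≠ 0 := by
  simpa using (ι_injective (A := A) ε).ne ha

theorem exists_ι_div (ε : Fin 3 → Bool) (g : A.X.functionField) :
    ∃ a b, b ≠ 0 ∧ g = A.ι ε a / A.ι ε b := by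
  obtain ⟨a, b, h⟩ := A.exists_fraction ε g
  by_cases hb : b = 0
  · refine ⟨0, 1, one_ne_zero, ?_⟩
    rw [h, hb]
    simp
  · exact ⟨a, b, hb, by rw [ι_eq_aeval, ι_eq_aeval, h]⟩

theorem ι_mem_stalkSubring (a : MvPolynomial (Fin 3) k) :
    A.ι ε a ∈ stalkSubring (A.pt ε 𝔭) := ⟨_, algebraMap_germ a⟩

theorem germ_ne_zero {a : MvPolynomial (Fin 3) k} (ha : a ≠ 0) : A.germ ε 𝔭 a ≠ 0 := by
  intro h
  have := algebraMap_germ (A := A) (ε := ε) (𝔭 := 𝔭) a
  rw [h, map_zero] at this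
  exact ι_ne_zero ha this.symm

theorem inv_ι_mem_stalkSubring_iff {a : MvPolynomial (Fin 3) k} (ha : a ≠ 0) :
    (A.ι ε a)⁻¹ ∈ stalkSubring (A.pt ε 𝔭) ↔ a ∉ 𝔭.asIdeal := by
  rw [← isUnit_germ_iff (A := A) (ε := ε), isUnit_iff_inv_mem_stalkSubring (germ_ne_zero ha),
    algebraMap_germ]

theorem mem_stalkSubring_pt {g : A.X.functionField} :
    g ∈ stalkSubring (A.pt ε 𝔭) ↔ ∃ a b, b ∉ 𝔭.asIdeal ∧ g = A.ι ε a / A.ι ε b := by
  constructor
  · intro hg
    obtain ⟨a, b, hb, rfl⟩ := A.exists_fraction_of_mem ε (pt_mem ε 𝔭) hg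
    by_cases hb0 : b = 0
    · refine ⟨0, 1, ?_, ?_⟩
      · exact fun h => 𝔭.isPrime.ne_top ((Ideal.eq_top_iff_one _).mpr h)
      · rw [hb0]; simp
    · refine ⟨a, b, ?_, ?_⟩
      · rwa [← ι_eq_aeval, inv_ι_mem_stalkSubring_iff hb0] at hb
      · rw [ι_eq_aeval, ι_eq_aeval, div_eq_mul_inv]
  · rintro ⟨a, b, hb, rfl⟩
    have hb0 : b ≠ 0 := fun h => hb (h ▸ zero_mem _)
    rw [div_eq_mul_inv]
    exact mul_mem (ι_mem_stalkSubring a) ((inv_ι_mem_stalkSubring_iff hb0).mpr hb)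

theorem stalkSubring_mono {v w : A.X} (h : v ⤳ w) : stalkSubring w ≤ stalkSubring v :=
  Claimed.Open.R035.stalkSubring_mono h

theorem isLocalization_germ :
    @IsLocalization.AtPrime _ _ (A.X.presheaf.stalk (A.pt ε 𝔭)) _ (A.germ ε 𝔭).toAlgebra
      𝔭.asIdeal _ := by
  let _ := (A.germ ε 𝔭).toAlgebra
  have hmap : ∀ a, algebraMap (MvPolynomial (Fin 3) k) (A.X.presheaf.stalk (A.pt ε 𝔭)) a =
      A.germ ε 𝔭 a := fun _ => rfl
  refine ⟨⟨fun y => ?_, fun z => ?_, fun {a b} h => ?_⟩⟩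
  · rw [hmap]
    exact isUnit_germ_iff.mpr y.2
  · obtain ⟨a, b, hb, hz⟩ := mem_stalkSubring_pt.mp (algebraMap_mem_stalkSubring z)
    have hb0 : b ≠ 0 := fun h => hb (h ▸ zero_mem _)
    refine ⟨(a, ⟨b, hb⟩), algebraMap_stalk_injective _ ?_⟩
    rw [map_mul, hz, hmap, hmap, algebraMap_germ, algebraMap_germ,
      div_mul_cancel₀ _ (ι_ne_zero hb0)]
  · refine ⟨1, ?_⟩
    rw [hmap, hmap] at h
    have h2 := congrArg (algebraMap (A.X.presheaf.stalk (A.pt ε 𝔭)) A.X.functionField) h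
    rw [algebraMap_germ, algebraMap_germ] at h2
    rw [ι_injective ε h2]

theorem pt_mem_iff : A.pt δ 𝔭 ∈ A.U ε ↔ ∀ i, ε i ≠ δ i → MvPolynomial.X i ∉ 𝔭.asIdeal := by
  rw [A.mem_iff ε δ _ (pt_mem δ 𝔭)]
  exact forall₂_congr fun i _ => isUnit_germ_iff (a := MvPolynomial.X i)

/-! ### Orders of vanishing -/

theorem ord_ι_nonneg (a : MvPolynomial (Fin 3) k) : 0 ≤ Scheme.ord (A.ι ε a) (A.pt ε 𝔭) :=
  ord_nonneg_of_mem (ι_mem_stalkSubring a)

theorem ord_ι_of_notMem {a : MvPolynomial (Fin 3) k} (ha : a ∉ 𝔭.asIdeal) :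
    Scheme.ord (A.ι ε a) (A.pt ε 𝔭) = 0 :=
  ord_eq_zero_of_unit (ι_mem_stalkSubring a)
    ((inv_ι_mem_stalkSubring_iff (a := a) fun h => ha (h ▸ zero_mem _)).mpr ha)

theorem ord_ι_pos {a : MvPolynomial (Fin 3) k} (ha0 : a ≠ 0) (h𝔭 : 𝔭.asIdeal.height = 1)
    (ha : a ∈ 𝔭.asIdeal) : 0 < Scheme.ord (A.ι ε a) (A.pt ε 𝔭) :=
  ord_pos_of_nonunit (coheight_pt.trans h𝔭) (ι_mem_stalkSubring a)
    fun h => (inv_ι_mem_stalkSubring_iff ha0).mp h ha

theorem ord_ι_of_prime {a : MvPolynomial (Fin 3) k} (ha : Prime a) (h𝔭 : 𝔭.asIdeal.height = 1)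
    (ha' : a ∈ 𝔭.asIdeal) : Scheme.ord (A.ι ε a) (A.pt ε 𝔭) = 1 := by
  have hco : coheight (A.pt ε 𝔭) = 1 := coheight_pt.trans h𝔭
  have hdvr := isDiscreteValuationRing_stalk A.isNormalScheme hco
  have hspan : 𝔭.asIdeal = Ideal.span {a} := Ideal.eq_span_singleton_of_height_eq_one h𝔭 ha' ha
  let _ := (A.germ ε 𝔭).toAlgebra
  have hloc : IsLocalization.AtPrime (A.X.presheaf.stalk (A.pt ε 𝔭)) 𝔭.asIdeal :=
    isLocalization_germ
  have hmax := IsLocalization.AtPrime.map_eq_maximalIdeal 𝔭.asIdeal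
    (A.X.presheaf.stalk (A.pt ε 𝔭))
  rw [hspan, Ideal.map_span, Set.image_singleton] at hmax
  have hirr : Irreducible (A.germ ε 𝔭 a) :=
    (IsDiscreteValuationRing.irreducible_iff_uniformizer _).mpr hmax.symm
  rw [← algebraMap_germ (𝔭 := 𝔭)]
  exact ord_algebraMap_irreducible A.isNormalScheme hco hirr

theorem finite_ord_support (g : A.X.functionField) : {z | Scheme.ord g z ≠ 0}.Finite := by
  by_cases hg : g = 0
  · simp [hg]
  · exact (isWeilDivisor_ord A.isAffineOpen A.cover hg).1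

theorem finite_covBy_notMem (v : A.X) (g : A.X.functionField) (hg : g ∈ stalkSubring v) :
    {w | w ⋖ v ∧ g ∉ stalkSubring w}.Finite := by
  have key : ∀ ε : Fin 3 → Bool, {w | w ∈ A.U ε ∧ w ⋖ v ∧ g ∉ stalkSubring w}.Finite := by
    intro ε
    by_cases hv : v ∈ A.U ε
    · obtain ⟨𝔭, rfl⟩ := exists_pt hv
      obtain ⟨a, b, hb, rfl⟩ := mem_stalkSubring_pt.mp hg
      have hb' : A.e ε b ∉ ((A.isAffineOpen ε).primeIdealOf ⟨A.pt ε 𝔭, hv⟩).asIdeal := by
        rw [mem_primeIdealOf_iff, not_not]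
        exact isUnit_germ_iff.mpr hb
      refine (finite_covBy_mem_primeIdealOf (A.isAffineOpen ε) hv (A.e ε b) hb').subset ?_
      rintro w ⟨hw, hwv, hgw⟩
      refine ⟨hwv, hw, ?_⟩
      obtain ⟨𝔮, rfl⟩ := exists_pt hw
      rw [mem_primeIdealOf_iff]
      intro hu
      exact hgw (mem_stalkSubring_pt.mpr ⟨a, b, isUnit_germ_iff.mp hu, rfl⟩)
    · refine Set.Finite.subset Set.finite_empty ?_
      rintro w ⟨hw, hwv, -⟩
      exact hv (mem_of_specializes (Scheme.le_iff_specializes.mp hwv.le) hw)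
  refine (Set.finite_iUnion key).subset ?_
  rintro w ⟨hwv, hgw⟩
  obtain ⟨ε, hε⟩ := A.cover w
  exact Set.mem_iUnion.mpr ⟨ε, hε, hwv, hgw⟩

end

end CubeAtlas

end Claimed.Open.R035
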