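import Claimed.Open.R035.Statement

/-!
# Sanity checks for `regularForms` / `FormOrdGE`: logarithmic forms have at most simple poles

Pure algebra over a field extension `F / k`.  For a discrete valuation ring `R ⊆ F` with order
function `v` (only the properties collected in `IsDVRDatum` are used) the logarithmic `3`-form
`dlog a ∧ dlog b ∧ dlog c` has order at least `-1` along `(R, v)`, in the sense of
`Claimed.Open.R035.FormOrdGE`.
-/

set_option autoImplicit false

universe u

namespace Claimed.Open.R035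

noncomputable section

section Dlog

variable (k : Type u) [Field k] {F : Type u} [Field F] [Algebra k F]

/-- The logarithmic differential `da / a`. -/
def dlog (a : F) : Ω[F⁄k] := a⁻¹ • KaehlerDifferential.D k F a

/-- What is used of a discrete valuation ring `R` of `F` with order function `v`: there is a
uniformizer `t` (with `v t⁻¹ = -1`) such that every `a ≠ 0` is a unit of `R` times a power of
`t`. -/
structure IsDVRDatum (R : Subring F) (v : F → ℤ) : Prop where
  exists_uniformizer : ∃ t : F, t ∈ R ∧ t ≠ 0 ∧ v t⁻¹ = -1 ∧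
    ∀ a : F, a ≠ 0 → ∃ (u : F) (i : ℤ), u ∈ R ∧ u⁻¹ ∈ R ∧ a = u * t ^ i

theorem dlog_mul {a b : F} (ha : a ≠ 0) (hb : b ≠ 0) :
    dlog k (a * b) = dlog k a + dlog k b := by
  unfold dlog
  rw [Derivation.leibniz, smul_add, smul_smul, smul_smul, add_comm]
  congr 1
  · congr 1; field_simp
  · congr 1; field_simp

theorem dlog_one : dlog k (1 : F) = 0 := by
  unfold dlog
  simp

theorem dlog_inv {a : F} (ha : a ≠ 0) : dlog k a⁻¹ = - dlog k a := by
  have h := dlog_mul k ha (inv_ne_zero ha)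
  rw [mul_inv_cancel₀ ha, dlog_one] at h
  exact (neg_eq_of_add_eq_zero_right h.symm).symm

theorem dlog_pow {a : F} (ha : a ≠ 0) (n : ℕ) : dlog k (a ^ n) = (n : F) • dlog k a := by
  induction n with
  | zero => simp [dlog_one]
  | succ n ih =>
    rw [pow_succ, dlog_mul k (pow_ne_zero n ha) ha, ih]
    push_cast
    rw [add_smul, one_smul]

theorem dlog_zpow {a : F} (ha : a ≠ 0) (n : ℤ) : dlog k (a ^ n) = (n : F) • dlog k a := by
  cases n with
  | ofNat n => simpa using dlog_pow k ha n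
  | negSucc n =>
    rw [zpow_negSucc, dlog_inv k (pow_ne_zero _ ha), dlog_pow k ha]
    simp only [Int.cast_negSucc, neg_smul]

/-- The wedge product `x ∧ y ∧ z` of three rational `1`-forms. -/
def wedge3 (x y z : Ω[F⁄k]) : ⋀[F]^3 Ω[F⁄k] := exteriorPower.ιMulti F 3 ![x, y, z]

theorem wedge3_add_left (x x' y z : Ω[F⁄k]) :
    wedge3 k (x + x') y z = wedge3 k x y z + wedge3 k x' y z :=
  AlternatingMap.map_vecCons_add _ _ _ _

theorem wedge3_smul_left (c : F) (x y z : Ω[F⁄k]) :
    wedge3 k (c • x) y z = c • wedge3 k x y z :=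
  AlternatingMap.map_vecCons_smul _ _ _ _

theorem wedge3_add_mid (x y y' z : Ω[F⁄k]) :
    wedge3 k x (y + y') z = wedge3 k x y z + wedge3 k x y' z := by
  have h := (exteriorPower.ιMulti F 3 (M := Ω[F⁄k])).map_update_add ![x, y, z] 1 y y'
  have e : ∀ w : Ω[F⁄k], Function.update ![x, y, z] 1 w = ![x, w, z] := by
    intro w; ext i; fin_cases i <;> simp [Function.update]
  simp only [e] at h
  exact h

theorem wedge3_smul_mid (c : F) (x y z : Ω[F⁄k]) :
    wedge3 k x (c • y) z = c • wedge3 k x y z := by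
  have h := (exteriorPower.ιMulti F 3 (M := Ω[F⁄k])).map_update_smul ![x, y, z] 1 c y
  have e : ∀ w : Ω[F⁄k], Function.update ![x, y, z] 1 w = ![x, w, z] := by
    intro w; ext i; fin_cases i <;> simp [Function.update]
  simp only [e] at h
  exact h

theorem wedge3_add_right (x y z z' : Ω[F⁄k]) :
    wedge3 k x y (z + z') = wedge3 k x y z + wedge3 k x y z' := by
  have h := (exteriorPower.ιMulti F 3 (M := Ω[F⁄k])).map_update_add ![x, y, z] 2 z z'
  have e : ∀ w : Ω[F⁄k], Function.update ![x, y, z] 2 w = ![x, y, w] := by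
    intro w; ext i; fin_cases i <;> simp [Function.update]
  simp only [e] at h
  exact h

theorem wedge3_smul_right (c : F) (x y z : Ω[F⁄k]) :
    wedge3 k x y (c • z) = c • wedge3 k x y z := by
  have h := (exteriorPower.ιMulti F 3 (M := Ω[F⁄k])).map_update_smul ![x, y, z] 2 c z
  have e : ∀ w : Ω[F⁄k], Function.update ![x, y, z] 2 w = ![x, y, w] := by
    intro w; ext i; fin_cases i <;> simp [Function.update]
  simp only [e] at h
  exact h

theorem wedge3_self_left (x z : Ω[F⁄k]) : wedge3 k x x z = 0 :=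
  (exteriorPower.ιMulti F 3 (M := Ω[F⁄k])).map_eq_zero_of_eq ![x, x, z]
    (i := 0) (j := 1) rfl (by decide)

theorem wedge3_self_right (x z : Ω[F⁄k]) : wedge3 k x z z = 0 :=
  (exteriorPower.ιMulti F 3 (M := Ω[F⁄k])).map_eq_zero_of_eq ![x, z, z]
    (i := 1) (j := 2) rfl (by decide)

theorem wedge3_self_outer (x z : Ω[F⁄k]) : wedge3 k x z x = 0 :=
  (exteriorPower.ιMulti F 3 (M := Ω[F⁄k])).map_eq_zero_of_eq ![x, z, x]
    (i := 0) (j := 2) rfl (by decide)

/-- `a · dx ∧ dy ∧ dz` is regular on `R` if `a, x, y, z ∈ R`. -/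
theorem smul_wedge3_D_mem_regularForms {R : Subring F} {a x y z : F} (ha : a ∈ R) (hx : x ∈ R)
    (hy : y ∈ R) (hz : z ∈ R) :
    a • wedge3 k (KaehlerDifferential.D k F x) (KaehlerDifferential.D k F y)
      (KaehlerDifferential.D k F z) ∈ regularForms k 3 R := by
  refine AddSubgroup.subset_closure ⟨a, ![x, y, z], ha, ?_, ?_⟩
  · intro j; fin_cases j <;> assumption
  · unfold wedge3
    congr 2
    ext j; fin_cases j <;> rfl

/-- Logarithmic forms have at most simple poles: `dlog a ∧ dlog b ∧ dlog c` has order at least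
`-1` along every discrete valuation ring of `F`. -/
theorem formOrdGE_dlog {R : Subring F} {v : F → ℤ} (h : IsDVRDatum R v) {a b c : F}
    (ha : a ≠ 0) (hb : b ≠ 0) (hc : c ≠ 0) :
    FormOrdGE k 3 R v (exteriorPower.ιMulti F 3 ![dlog k a, dlog k b, dlog k c]) (-1) := by
  obtain ⟨t, htR, ht0, hvt, hdec⟩ := h.exists_uniformizer
  obtain ⟨u₁, i₁, hu₁, hu₁', rfl⟩ := hdec a ha
  obtain ⟨u₂, i₂, hu₂, hu₂', rfl⟩ := hdec b hb
  obtain ⟨u₃, i₃, hu₃, hu₃', rfl⟩ := hdec c hc
  have h1 : u₁ ≠ 0 := left_ne_zero_of_mul ha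
  have h2 : u₂ ≠ 0 := left_ne_zero_of_mul hb
  have h3 : u₃ ≠ 0 := left_ne_zero_of_mul hc
  have hi : ∀ i : ℤ, (i : F) ∈ R := fun i => intCast_mem R i
  set D := KaehlerDifferential.D k F with hD
  refine ⟨t⁻¹, inv_ne_zero ht0, hvt.ge,
    (t * u₁⁻¹ * u₂⁻¹ * u₃⁻¹) • wedge3 k (D u₁) (D u₂) (D u₃)
      + ((i₁ : F) * u₂⁻¹ * u₃⁻¹) • wedge3 k (D t) (D u₂) (D u₃)
      + ((i₂ : F) * u₁⁻¹ * u₃⁻¹) • wedge3 k (D u₁) (D t) (D u₃)
      + ((i₃ : F) * u₁⁻¹ * u₂⁻¹) • wedge3 k (D u₁) (D u₂) (D t), ?_, ?_⟩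
  · refine add_mem (add_mem (add_mem ?_ ?_) ?_) ?_
    · exact smul_wedge3_D_mem_regularForms k
        (mul_mem (mul_mem (mul_mem htR hu₁') hu₂') hu₃') hu₁ hu₂ hu₃
    · exact smul_wedge3_D_mem_regularForms k (mul_mem (mul_mem (hi _) hu₂') hu₃') htR hu₂ hu₃
    · exact smul_wedge3_D_mem_regularForms k (mul_mem (mul_mem (hi _) hu₁') hu₃') hu₁ htR hu₃
    · exact smul_wedge3_D_mem_regularForms k (mul_mem (mul_mem (hi _) hu₁') hu₂') hu₁ hu₂ htR
  · change wedge3 k _ _ _ = _
    rw [dlog_mul k h1 (zpow_ne_zero _ ht0), dlog_mul k h2 (zpow_ne_zero _ ht0),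
      dlog_mul k h3 (zpow_ne_zero _ ht0), dlog_zpow k ht0, dlog_zpow k ht0, dlog_zpow k ht0]
    simp only [dlog, ← hD, wedge3_add_left, wedge3_add_mid, wedge3_add_right, wedge3_smul_left,
      wedge3_smul_mid, wedge3_smul_right, wedge3_self_left, wedge3_self_right, wedge3_self_outer,
      smul_zero, add_zero, smul_add, smul_smul]
    congr 1
    · congr 1
      · congr 1
        · congr 1; field_simp
        · congr 1; ring
      · congr 1; ring
    · congr 1; ring

end Dlog

end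

end Claimed.Open.R035
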