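import Claimed.Open.R035.SanityCanonical
import Claimed.Open.R035.SanityOrd
import Claimed.Open.R035.SanityGood

/-!
# Sanity check: the Cartier divisors `Sdiv = {x₀ = 1}` and `Hdiv = ∑ {xᵢ = ∞}` on `(ℙ¹)³`

For a `CubeAtlas` we give explicit families of local equations of the two divisors (`eqS` is in
`SanityCanonical.lean`) and show that they are good families in the sense of `SanityGood.lean`.
-/

set_option autoImplicit false

open AlgebraicGeometry CategoryTheory Order

universe u

namespace Claimed.Open.R035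

namespace CubeAtlas

variable {k : Type u} [Field k] (A : CubeAtlas k)

noncomputable section

open Classical in
/-- Local equations of `∑ᵢ {xᵢ = ∞}`. -/
def eqH (p : A.X) : A.X.functionField :=
  ∏ i, if A.x i ∈ stalkSubring p then 1 else (A.x i)⁻¹

variable {A}

theorem inv_x_mem_of_notMem {p : A.X} {i : Fin 3} (h : A.x i ∉ stalkSubring p) :
    (A.x i)⁻¹ ∈ stalkSubring p :=
  (A.x_mem_or_inv_mem p i).resolve_left h

theorem inv_x_zero_sub_one_mem {p : A.X} (h : A.x 0 ∉ stalkSubring p) :
    (A.x 0 - 1)⁻¹ ∈ stalkSubring p := by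
  have h1 := inv_x_mem_of_notMem h
  have h2 : (1 - (A.x 0)⁻¹)⁻¹ ∈ stalkSubring p :=
    inv_one_sub_mem_stalkSubring h1 (by rwa [inv_inv])
  have h3 : (A.x 0 - 1)⁻¹ = (A.x 0)⁻¹ * (1 - (A.x 0)⁻¹)⁻¹ := by
    rw [← mul_inv]
    congr 1
    have := A.x_ne_zero 0
    field_simp
  rw [h3]
  exact mul_mem h1 h2

theorem eqH_ne_zero (p : A.X) : A.eqH p ≠ 0 := by
  unfold eqH
  refine Finset.prod_ne_zero_iff.mpr fun i _ => ?_
  split_ifs
  · exact one_ne_zero
  · exact inv_ne_zero (A.x_ne_zero i)

theorem isLocalEquation_eqH (p : A.X) : IsLocalEquation A.Hdiv p (A.eqH p) := by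
  refine ⟨eqH_ne_zero p, fun z _ hzp => ?_⟩
  unfold eqH Hdiv
  rw [ord_prod]
  · refine Finset.sum_congr rfl fun i _ => ?_
    split_ifs with h
    · have h1 : A.x i ∈ stalkSubring z := stalkSubring_mono hzp h
      have h2 := ord_nonneg_of_mem h1
      rw [ord_one, max_eq_right (by omega)]
    · have h1 : (A.x i)⁻¹ ∈ stalkSubring z := stalkSubring_mono hzp (inv_x_mem_of_notMem h)
      have h2 := ord_nonpos_of_inv_mem h1
      rw [ord_inv z (A.x_ne_zero i), max_eq_left (by omega)]
  · intro i _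
    split_ifs
    · exact one_ne_zero
    · exact inv_ne_zero (A.x_ne_zero i)

theorem coheight_eq_one_of_ord_ne_zero {g : A.X.functionField} {z : A.X}
    (h : Scheme.ord g z ≠ 0) : coheight z = 1 := by
  by_contra hz
  exact h (Scheme.ord_eq_zero_of_coheight_neq_one hz g)

theorem isWeilDivisor_Hdiv : IsWeilDivisor A.Hdiv := by
  have key : ∀ z, A.Hdiv z ≠ 0 → ∃ i, Scheme.ord (A.x i) z ≠ 0 := by
    intro z hz
    by_contra hcon
    push Not at hcon
    apply hz
    simp [Hdiv, hcon]
  refine ⟨(Set.finite_iUnion fun i => finite_ord_support (A.x i)).subset fun z hz => ?_,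
    fun z hz => ?_⟩
  · obtain ⟨i, hi⟩ := key z hz
    exact Set.mem_iUnion.mpr ⟨i, hi⟩
  · obtain ⟨i, hi⟩ := key z hz
    exact coheight_eq_one_of_ord_ne_zero hi

theorem isCartierDivisor_Hdiv : IsCartierDivisor A.Hdiv :=
  ⟨isWeilDivisor_Hdiv, fun p => ⟨_, isLocalEquation_eqH p⟩⟩

/-- The ratio of two local equations of `{x₀ = 1}`. -/
theorem eqS_div_eqS {v w : A.X} (h : v ⤳ w) :
    (A.eqS v = A.eqS w) ∨
      (A.x 0 ∈ stalkSubring v ∧ A.x 0 ∉ stalkSubring w ∧ A.eqS v = A.x 0 - 1 ∧ A.eqS w = 1) := by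
  unfold eqS
  by_cases hw : A.x 0 ∈ stalkSubring w
  · have hv : A.x 0 ∈ stalkSubring v := stalkSubring_mono h hw
    left
    rw [if_pos hw, if_pos hv]
  · by_cases hv : A.x 0 ∈ stalkSubring v
    · right
      exact ⟨hv, hw, if_pos hv, if_neg hw⟩
    · left
      rw [if_neg hw, if_neg hv]

theorem isGoodFamily_eqS : IsGoodFamily A.Sdiv A.eqS where
  localEq := A.isLocalEquation_eqS
  regular := by
    intro v w h
    rcases eqS_div_eqS h with h1 | ⟨_, hw, h1, h2⟩
    · rw [h1, div_self (A.eqS_ne_zero w)]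
      exact one_mem _
    · rw [h1, h2, one_div]
      exact inv_x_zero_sub_one_mem hw
  unit := by
    intro v w h
    rcases eqS_div_eqS h with h1 | ⟨hv, _, h1, h2⟩
    · rw [h1, div_self (A.eqS_ne_zero w)]
      exact one_mem _
    · rw [h1, h2, div_one]
      exact sub_mem hv (one_mem _)
  finite := by
    intro v
    by_cases hv : A.x 0 ∈ stalkSubring v
    · refine (finite_covBy_notMem v (A.x 0 - 1) (sub_mem hv (one_mem _))).subset ?_
      rintro w ⟨hwv, hw⟩
      refine ⟨hwv, fun hmem => hw ?_⟩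
      rcases eqS_div_eqS (specializes_of_covBy hwv) with h1 | ⟨_, _, h1, h2⟩
      · rw [h1, div_self (A.eqS_ne_zero w)]
        exact one_mem _
      · rw [h1, h2, div_one]
        exact hmem
    · refine Set.finite_empty.subset ?_
      rintro w ⟨hwv, hw⟩
      apply hw
      rcases eqS_div_eqS (specializes_of_covBy hwv) with h1 | ⟨hv', _, _, _⟩
      · rw [h1, div_self (A.eqS_ne_zero w)]
        exact one_mem _
      · exact absurd hv' hv

open Classical in
/-- The ratio of two local equations of `∑ᵢ {xᵢ = ∞}`. -/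
theorem eqH_div_eqH {v w : A.X} (h : v ⤳ w) :
    A.eqH v / A.eqH w =
      ∏ i, if A.x i ∈ stalkSubring v ∧ A.x i ∉ stalkSubring w then A.x i else 1 := by
  unfold eqH
  rw [← Finset.prod_div_distrib]
  refine Finset.prod_congr rfl fun i _ => ?_
  by_cases hw : A.x i ∈ stalkSubring w
  · have hv : A.x i ∈ stalkSubring v := stalkSubring_mono h hw
    simp [hw, hv]
  · by_cases hv : A.x i ∈ stalkSubring v
    · simp [hw, hv]
    · simp [hw, hv, A.x_ne_zero i]

theorem isGoodFamily_eqH : IsGoodFamily A.Hdiv A.eqH where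
  localEq := isLocalEquation_eqH
  regular := by
    classical
    intro v w h
    have h1 : A.eqH w / A.eqH v = (A.eqH v / A.eqH w)⁻¹ := (inv_div _ _).symm
    rw [h1, eqH_div_eqH h, ← Finset.prod_inv_distrib]
    refine Subring.prod_mem _ fun i _ => ?_
    split_ifs with hi
    · exact inv_x_mem_of_notMem hi.2
    · rw [inv_one]
      exact one_mem _
  unit := by
    classical
    intro v w h
    rw [eqH_div_eqH h]
    refine Subring.prod_mem _ fun i _ => ?_
    split_ifs with hi
    · exact hi.1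
    · exact one_mem _
  finite := by
    classical
    intro v
    have hfin : ∀ i : Fin 3, {w | w ⋖ v ∧ A.x i ∈ stalkSubring v ∧ A.x i ∉ stalkSubring w}.Finite := by
      intro i
      by_cases hv : A.x i ∈ stalkSubring v
      · exact (finite_covBy_notMem v (A.x i) hv).subset fun w hw => ⟨hw.1, hw.2.2⟩
      · exact Set.finite_empty.subset fun w hw => absurd hw.2.1 hv
    refine (Set.finite_iUnion hfin).subset ?_
    rintro w ⟨hwv, hw⟩
    rw [eqH_div_eqH (specializes_of_covBy hwv)] at hw
    by_contra hcon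
    apply hw
    refine Subring.prod_mem _ fun i _ => ?_
    split_ifs with hi
    · exact (hcon (Set.mem_iUnion.mpr ⟨i, hwv, hi.1, hi.2⟩)).elim
    · exact one_mem _

end

end CubeAtlas

end Claimed.Open.R035
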