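import Claimed.Open.R035.SanityTerminal
import Claimed.Open.R035.SanityQFactorial

/-!
# Sanity check: deviations 11, 10 and 8 of `CLAIM.md` as theorems

## Deviation 11 (Iitaka dimension and Cartier multiples)

`IitakaDimGE π L r` of `Statement.lean` uses **all** integral multiples `D = m L` of the
`ℚ`-divisor `L` (sections of the reflexive sheaves `𝒪_X(m L)`), not only the Cartier ones.
`CLAIM.md`, deviation 11, says in prose that this gives the same `κ`:
"if `s, tᵢ s ∈ H⁰(D)` then `s^r, tᵢ s^r ∈ H⁰(r D)`".  Here this is a theorem, for **every** integral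
locally Noetherian scheme `X` over a field and every `ℚ`-Cartier `ℚ`-divisor `L`
(so for `K_X + B` and `K_X` in both theorems of `Statement.lean`):

* `IitakaCartier.iitakaDimGE_iff_cartier` : `IitakaDimGE π L r ↔ IitakaDimGECartier π L r`, where
  the right hand side is the same definition with the clause `IsCartierDivisor D` added;
* `IitakaCartier.iitakaDim_eq_cartier` : the two suprema (the two Iitaka dimensions) agree.

The tools, all for arbitrary `X`:

* `IitakaCartier.isCartierDivisor_nsmul` : a multiple of a Cartier divisor is Cartier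
  (local equations `φ ^ n`);
* `IitakaCartier.isSection_mul`, `IitakaCartier.isSection_pow` :
  `H⁰(D) · H⁰(E) ⊆ H⁰(D + E)`, `s ∈ H⁰(D) → s ^ n ∈ H⁰(n D)`;
* `IitakaCartier.isSection_mul_pow` : `s, t s ∈ H⁰(D) → t s ^ (n + 1) ∈ H⁰((n + 1) D)`, the sentence of
  `CLAIM.md`;
* `IitakaCartier.isMultiple_nsmul`, `IitakaCartier.isMultiple_cross` : the bookkeeping of multiples
  (`m' (m L) = m (m' L)`);
* `IitakaCartier.iitakaDimGE_nsmul` : the witnesses of `κ ≥ r` can be taken at all the multiples
  `n m`, `n ≥ 1`, of one `m`.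

## Deviation 8 (`[IsLocallyNoetherian X]` is automatic)

`IitakaCartier.isLocallyNoetherian_of_isProper` (proper over `k`) and
`IitakaCartier.isLocallyNoetherian_model` (proper over a locally Noetherian scheme).

## Deviation 10 (exceptional divisors in `IsTerminal`)

For every birational model `f : Y ⟶ X` in the sense of `IsBirationalModel`:

* `IitakaCartier.centre_ne_genericPoint` : the centre `f E` of a prime divisor `E` of `Y` is never the
  generic point of `X`;
* `IitakaCartier.two_le_coheight_centre` : hence `coheight (f E) ≠ 1`, the clause "exceptional" of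
  `IsTerminal`, says that the centre has codimension at least two;
* `IitakaCartier.modelSubring_eq_stalkSubring` : if `X` is normal and the centre is a prime divisor,
  then `𝒪_{Y,E} = 𝒪_{X,f E}` inside `k(X)` (a discrete valuation ring is a maximal subring for
  domination), so `E` is not exceptional in the sense of Kollár-Mori.
-/

set_option autoImplicit false

open AlgebraicGeometry CategoryTheory Order

universe u

namespace Claimed.Open.R035

namespace IitakaCartier

variable {k : Type u} [Field k]

section Divisors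

variable {X : Scheme.{u}} [IsIntegral X] [IsLocallyNoetherian X]

omit [IsIntegral X] [IsLocallyNoetherian X] in
/-- A multiple of a Weil divisor is a Weil divisor. -/
theorem isWeilDivisor_nsmul {D : X → ℤ} (hD : IsWeilDivisor D) (n : ℕ) :
    IsWeilDivisor (n • D) := by
  have key : ∀ z, (n • D) z ≠ 0 → D z ≠ 0 := by
    intro z hz h0
    exact hz (by simp [h0])
  exact ⟨hD.1.subset fun z hz => key z hz, fun z hz => hD.2 z (key z hz)⟩

/-- `φ ^ n` is a local equation of `n D`. -/
theorem isLocalEquation_pow {D : X → ℤ} {x : X} {φ : X.functionField}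
    (h : IsLocalEquation D x φ) (n : ℕ) : IsLocalEquation (n • D) x (φ ^ n) := by
  refine ⟨pow_ne_zero n h.1, fun z hz hzx => ?_⟩
  rw [ord_pow h.1, h.2 z hz hzx]
  simp

/-- A multiple of a Cartier divisor is a Cartier divisor. -/
theorem isCartierDivisor_nsmul {D : X → ℤ} (hD : IsCartierDivisor D) (n : ℕ) :
    IsCartierDivisor (n • D) := by
  refine ⟨isWeilDivisor_nsmul hD.1 n, fun x => ?_⟩
  obtain ⟨φ, hφ⟩ := hD.2 x
  exact ⟨φ ^ n, isLocalEquation_pow hφ n⟩

/-- `H⁰(D) · H⁰(E) ⊆ H⁰(D + E)`. -/
theorem isSection_mul {D E : X → ℤ} {s t : X.functionField} (hs : IsSection D s)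
    (ht : IsSection E t) : IsSection (D + E) (s * t) := by
  intro hst z hz
  have hs0 : s ≠ 0 := left_ne_zero_of_mul hst
  have ht0 : t ≠ 0 := right_ne_zero_of_mul hst
  have h1 := hs hs0 z hz
  have h2 := ht ht0 z hz
  rw [Scheme.ord_mul hs0 ht0, Pi.add_apply]
  omega

/-- The constant `1` is a section of `𝒪_X`. -/
theorem isSection_zero_one : IsSection (0 : X → ℤ) (1 : X.functionField) := by
  intro _ z _
  simp [ord_one]

/-- `s ∈ H⁰(D) → s ^ n ∈ H⁰(n D)`. -/
theorem isSection_pow {D : X → ℤ} {s : X.functionField} (hs : IsSection D s) (n : ℕ) :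
    IsSection (n • D) (s ^ n) := by
  induction n with
  | zero => simpa using isSection_zero_one (X := X)
  | succ n ih =>
    rw [pow_succ, succ_nsmul]
    exact isSection_mul ih hs

/-- The sentence of `CLAIM.md`, deviation 11: if `s` and `t s` are sections of `𝒪_X(D)` then
`t s ^ (n + 1)` is a section of `𝒪_X((n + 1) D)`. -/
theorem isSection_mul_pow {D : X → ℤ} {s t : X.functionField} (hs : IsSection D s)
    (hts : IsSection D (t * s)) (n : ℕ) : IsSection ((n + 1) • D) (t * s ^ (n + 1)) := by
  have h := isSection_mul (isSection_pow hs n) hts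
  have e1 : s ^ n * (t * s) = t * s ^ (n + 1) := by ring
  rw [e1, ← succ_nsmul] at h
  exact h

omit [IsIntegral X] [IsLocallyNoetherian X] in
/-- `n (m L) = (n m) L`. -/
theorem isMultiple_nsmul {m : ℕ} {L : X → ℚ} {D : X → ℤ} (h : IsMultiple m L D) {n : ℕ}
    (hn : 0 < n) : IsMultiple (n * m) L (n • D) := by
  refine ⟨Nat.mul_pos hn h.1, fun z => ?_⟩
  have := h.2 z
  simp only [Pi.smul_apply, nsmul_eq_mul]
  push_cast
  rw [this]
  ring

omit [IsIntegral X] [IsLocallyNoetherian X] in
/-- `m' (m L) = m (m' L)`. -/
theorem isMultiple_cross {m m' : ℕ} {L : X → ℚ} {D E : X → ℤ} (hD : IsMultiple m L D)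
    (hE : IsMultiple m' L E) : m' • D = m • E := by
  funext z
  have h1 := hD.2 z
  have h2 := hE.2 z
  have : ((m' * D z : ℤ) : ℚ) = ((m * E z : ℤ) : ℚ) := by
    push_cast
    rw [h1, h2]
    ring
  simpa using (Int.cast_injective this)

/-- The definition `IitakaDimGE` of `Statement.lean` with the clause `IsCartierDivisor D` added:
only the Cartier multiples of `L` are used. -/
def IitakaDimGECartier (π : X ⟶ Spec (CommRingCat.of k)) (L : X → ℚ) (r : ℕ) : Prop :=
  letI := fnFieldAlgebra π
  ∃ (m : ℕ) (D : X → ℤ) (s : X.functionField) (t : Fin r → X.functionField),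
    IsMultiple m L D ∧ IsCartierDivisor D ∧ s ≠ 0 ∧ IsSection D s ∧
    (∀ i, IsSection D (t i * s)) ∧ AlgebraicIndependent k t

/-- Forgetting the clause. -/
theorem IitakaDimGECartier.iitakaDimGE {π : X ⟶ Spec (CommRingCat.of k)} {L : X → ℚ} {r : ℕ}
    (h : IitakaDimGECartier π L r) : IitakaDimGE π L r := by
  obtain ⟨m, D, s, t, h1, -, h3, h4, h5, h6⟩ := h
  exact ⟨m, D, s, t, h1, h3, h4, h5, h6⟩

/-- Witnesses of `κ(X, L) ≥ r` at the multiple `m` give witnesses, with the same rational functions
`t i`, at every multiple `n m`, `n ≥ 1`. -/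
theorem iitakaDimGE_nsmul {L : X → ℚ} {r m : ℕ} {D : X → ℤ}
    {s : X.functionField} {t : Fin r → X.functionField} (hm : IsMultiple m L D) (hs0 : s ≠ 0)
    (hs : IsSection D s) (ht : ∀ i, IsSection D (t i * s)) {n : ℕ} (hn : 0 < n) :
    IsMultiple (n * m) L (n • D) ∧ s ^ n ≠ 0 ∧ IsSection (n • D) (s ^ n) ∧
      ∀ i, IsSection (n • D) (t i * s ^ n) := by
  obtain ⟨j, rfl⟩ : ∃ j, n = j + 1 := ⟨n - 1, by omega⟩
  exact ⟨isMultiple_nsmul hm hn, pow_ne_zero _ hs0, isSection_pow hs _,
    fun i => isSection_mul_pow hs (ht i) j⟩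

/-- **Deviation 11 of `CLAIM.md`.**  For a `ℚ`-Cartier `ℚ`-divisor `L`, the condition
`κ(X, L) ≥ r` of `Statement.lean`, which uses all the integral multiples of `L`, is equivalent to
the same condition with the Cartier multiples only. -/
theorem iitakaDimGE_iff_cartier (π : X ⟶ Spec (CommRingCat.of k)) {L : X → ℚ}
    (hL : IsQCartier L) (r : ℕ) : IitakaDimGE π L r ↔ IitakaDimGECartier π L r := by
  refine ⟨fun h => ?_, fun h => h.iitakaDimGE⟩
  obtain ⟨m, D, s, t, h1, h3, h4, h5, h6⟩ := h
  obtain ⟨m', E, hE, hEc⟩ := hL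
  obtain ⟨a1, a2, a3, a4⟩ := iitakaDimGE_nsmul h1 h3 h4 h5 hE.1
  refine ⟨m' * m, m' • D, s ^ m', t, a1, ?_, a2, a3, a4, h6⟩
  rw [isMultiple_cross h1 hE]
  exact isCartierDivisor_nsmul hEc m

/-- The Iitaka dimension computed with the Cartier multiples only. -/
noncomputable def iitakaDimCartier (π : X ⟶ Spec (CommRingCat.of k)) (L : X → ℚ) : WithBot ℕ∞ :=
  ⨆ (r : ℕ) (_ : IitakaDimGECartier π L r), ((r : ℕ∞) : WithBot ℕ∞)

/-- **Deviation 11 of `CLAIM.md`**, for the number `κ(X, L)` itself. -/
theorem iitakaDim_eq_cartier (π : X ⟶ Spec (CommRingCat.of k)) {L : X → ℚ}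
    (hL : IsQCartier L) : iitakaDim π L = iitakaDimCartier π L := by
  unfold iitakaDim iitakaDimCartier
  refine iSup_congr fun r => ?_
  rw [iSup_congr_Prop (iitakaDimGE_iff_cartier π hL r) (fun _ => rfl)]

end Divisors

/-! ## Deviation 8: the instance hypotheses `IsLocallyNoetherian` are automatic -/

/-- A scheme proper over a field is locally Noetherian. -/
theorem isLocallyNoetherian_of_isProper {X : Scheme.{u}} (π : X ⟶ Spec (CommRingCat.of k))
    [IsProper π] : IsLocallyNoetherian X :=
  LocallyOfFiniteType.isLocallyNoetherian π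

/-- A scheme proper over a locally Noetherian scheme (a birational model) is locally Noetherian. -/
theorem isLocallyNoetherian_model {X Y : Scheme.{u}} [IsLocallyNoetherian X] (f : Y ⟶ X)
    [IsProper f] : IsLocallyNoetherian Y :=
  LocallyOfFiniteType.isLocallyNoetherian f

/-! ## Deviation 10: the centre of a prime divisor of a birational model -/

section Centre

variable {X Y : Scheme.{u}} [IsIntegral X] [IsIntegral Y]

/-- Every rational function is regular at the generic point. -/
theorem mem_stalkSubring_genericPoint (g : X.functionField) :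
    g ∈ stalkSubring (genericPoint X) := by
  refine ⟨g, ?_⟩
  change (X.presheaf.stalkSpecializes _).hom g = g
  rw [TopCat.Presheaf.stalkSpecializes_refl]
  rfl

variable [IsLocallyNoetherian Y]

/-- **Deviation 10 of `CLAIM.md`**, first sentence: for a prime divisor `E` of a birational model
`f : Y ⟶ X`, the centre `f E` is never the generic point of `X`. -/
theorem centre_ne_genericPoint (f : Y ⟶ X) (hf : IsBirationalModel f) {E : Y}
    (hE : coheight E = 1) : f E ≠ genericPoint X := by
  intro h
  have htop : ∀ g : X.functionField, g ∈ stalkSubring (f E) := by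
    intro g
    rw [h]
    exact mem_stalkSubring_genericPoint g
  have hall : ∀ y : Y.functionField, y ∈ stalkSubring E := by
    intro y
    obtain ⟨g, rfl⟩ := (pullbackFn_bijective f hf).2 y
    exact pullbackFn_mem_stalkSubring f hf.generic (htop g)
  have hdvr := isDiscreteValuationRing_stalk hf.normal hE
  obtain ⟨ϖ, hϖ⟩ := IsDiscreteValuationRing.exists_irreducible (Y.presheaf.stalk E)
  exact hϖ.not_isUnit ((isUnit_iff_inv_mem_stalkSubring hϖ.ne_zero).mpr (hall _))

/-- So "exceptional" in `IsTerminal` (`coheight (f E) ≠ 1`) says that the centre of `E` has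
codimension at least two. -/
theorem two_le_coheight_centre (f : Y ⟶ X) (hf : IsBirationalModel f) {E : Y}
    (hE : coheight E = 1) (hex : coheight (f E) ≠ 1) : 2 ≤ coheight (f E) := by
  have h0 : coheight (f E) ≠ 0 := by
    intro h0
    apply centre_ne_genericPoint f hf hE
    have hmax : IsMax (f E) := coheight_eq_zero.mp h0
    have hle : f E ≤ genericPoint X :=
      (genericPoint_spec X).specializes (Set.mem_univ _)
    exact (Specializes.antisymm (hmax hle) hle).eq
  by_contra hlt
  have hlt' : coheight (f E) < 2 := not_le.mp hlt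
  have : coheight (f E) ≤ 1 := by
    exact Order.le_of_lt_add_one (by simpa [one_add_one_eq_two] using hlt')
  rcases lt_or_eq_of_le this with h | h
  · exact h0 (Order.lt_one_iff.mp h)
  · exact hex h

variable [IsLocallyNoetherian X]

omit [IsLocallyNoetherian Y] in
/-- **Deviation 10 of `CLAIM.md`**, last sentence: if the centre `f E` of a point `E` of a model is a
prime divisor of the normal scheme `X`, then `𝒪_{X, f E}` is a discrete valuation ring dominated
by `𝒪_{Y, E}`, hence equal to it (inside `k(X)`): `E` is not exceptional in the sense of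
Kollár-Mori. -/
theorem modelSubring_eq_stalkSubring (hX : IsNormalScheme X) (f : Y ⟶ X)
    (hη : f (genericPoint Y) = genericPoint X) {E : Y} (hz : coheight (f E) = 1) :
    modelSubring f hη E = stalkSubring (f E) := by
  have hdvr := isDiscreteValuationRing_stalk hX hz
  apply le_antisymm
  · intro g hg
    have hg' : pullbackFn f hη g ∈ stalkSubring E := hg
    by_contra hgn
    have hinv : g⁻¹ ∈ stalkSubring (f E) := by
      rcases ValuationRing.isInteger_or_isInteger (X.presheaf.stalk (f E)) g with ⟨a, ha⟩ | ⟨a, ha⟩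
      · exact absurd ⟨a, ha⟩ hgn
      · exact ⟨a, ha⟩
    have := inv_pullbackFn_notMem_stalkSubring f hη hinv (by rwa [inv_inv])
    rw [map_inv₀, inv_inv] at this
    exact this hg'
  · intro g hg
    exact pullbackFn_mem_stalkSubring f hη hg

end Centre

end IitakaCartier

end Claimed.Open.R035
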