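import Claimed.Open.R035.SanityNumerical
import Claimed.Open.R035.SanityIitaka

/-!
# Sanity check: the degree of a Cartier divisor on a curve, and the product formula on a line

`IsIntersectionNumber [D] c n` says that `n` is computed by *some* family of local equations of `D`.
This file shows, for the line `ℓ = {x₀ = x₁ = ∞}` of `(ℙ¹)³` over an algebraically closed field, that
the result does not depend on the family: a change of the local equation at the generic point `c` of
`ℓ` changes the divisor on `ℓ` by the divisor of a rational function on `ℓ`, and such a divisor has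
degree `0` (the product formula on `ℙ¹`, `CubeAtlas.hasLineDegree_of_unit`).

* `IsRestrictionOrder.unique/.mul/.inv` : the multiplicities in `IsIntersectionNumber` are well defined
  and additive;
* `HasLineDegree c G d` : the family `G w` of rational functions, units at `c`, has orders along the
  prime divisors `w` of the closure of `c` which are almost all `0` and add up to `d`.
-/

set_option autoImplicit false
set_option linter.unusedSectionVars false

open AlgebraicGeometry CategoryTheory Order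

universe u

namespace Claimed.Open.R035

section General

variable {X : Scheme.{u}} [IsIntegral X] [IsLocallyNoetherian X]

/-- The multiplicity `μ` in `IsRestrictionOrder` is unique. -/
theorem IsRestrictionOrder.unique {φv φw : X.functionField} {v w : X} {μ μ' : ℤ}
    (h : IsRestrictionOrder φv φw v w μ) (h' : IsRestrictionOrder φv φw v w μ') : μ = μ' := by
  obtain ⟨hs, u, hu, ho⟩ := h
  obtain ⟨hs', u', hu', ho'⟩ := h'
  have huu : u = u' := algebraMap_stalk_injective v (hu.trans hu'.symm)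
  subst huu
  exact ho.unique ho'

/-- `IsRestrictionOrder` depends only on the ratio of the two local equations. -/
theorem IsRestrictionOrder.of_ratio {φv φw φv' φw' : X.functionField} {v w : X} {μ : ℤ}
    (h : IsRestrictionOrder φv φw v w μ) (he : φw / φv = φw' / φv') :
    IsRestrictionOrder φv' φw' v w μ := by
  obtain ⟨hs, u, hu, ho⟩ := h
  exact ⟨hs, u, hu.trans he, ho⟩

theorem IsRestrictionOrder.mul {g g' : X.functionField} {v w : X} {μ μ' : ℤ}
    (h : IsRestrictionOrder 1 g v w μ) (h' : IsRestrictionOrder 1 g' v w μ') :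
    IsRestrictionOrder 1 (g * g') v w (μ + μ') := by
  obtain ⟨hs, u, hu, ho⟩ := h
  obtain ⟨hs', u', hu', ho'⟩ := h'
  refine ⟨hs, u * u', ?_, ?_⟩
  · rw [map_mul, hu, hu']
    simp
  · rw [map_mul]
    exact ho.mul ho'

theorem IsRestrictionOrder.inv {g : X.functionField} {v w : X} {μ : ℤ}
    (h : IsRestrictionOrder 1 g v w μ) : IsRestrictionOrder 1 g⁻¹ v w (-μ) := by
  obtain ⟨hs, u, hu, ho⟩ := h
  have hne := ho.ne_zero
  have hu1 : IsUnit u := by
    by_contra hnu
    apply hne
    exact (IsLocalRing.residue_eq_zero_iff u).mpr ((IsLocalRing.mem_maximalIdeal u).mpr hnu)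
  obtain ⟨b, hb⟩ := hu1.exists_right_inv
  refine ⟨hs, b, ?_, ?_⟩
  · have h1 := congrArg (algebraMap (X.presheaf.stalk v) X.functionField) hb
    rw [map_mul, hu, map_one, div_one] at h1
    rw [div_one]
    exact eq_inv_of_mul_eq_one_right h1
  · have h1 := congrArg (X.residue v).hom hb
    rw [map_mul, map_one] at h1
    rw [eq_inv_of_mul_eq_one_right h1]
    exact ho.inv

/-- Only the restriction to the closure of `v` matters: a function vanishing at `v` may be added. -/
theorem IsRestrictionOrder.add_nonunit {g : X.functionField} {v w : X} {μ : ℤ}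
    (h : IsRestrictionOrder 1 g v w μ) (e : X.presheaf.stalk v) (he : ¬ IsUnit e) :
    IsRestrictionOrder 1 (g + algebraMap _ X.functionField e) v w μ := by
  obtain ⟨hs, u, hu, ho⟩ := h
  refine ⟨hs, u + e, ?_, ?_⟩
  · rw [map_add, hu]
    simp
  · have h0 : (X.residue v).hom e = 0 :=
      (IsLocalRing.residue_eq_zero_iff e).mpr ((IsLocalRing.mem_maximalIdeal e).mpr he)
    rw [map_add, h0, add_zero]
    exact ho

/-- A unit of `𝒪_{X,w}` restricts to a function of order `0` along `w`. -/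
theorem isRestrictionOrder_of_unit {v w : X} (h : v ⤳ w) {g : X.functionField} (hg0 : g ≠ 0)
    (hg : g ∈ stalkSubring w) (hg' : g⁻¹ ∈ stalkSubring w) : IsRestrictionOrder 1 g v w 0 := by
  obtain ⟨a, rfl⟩ := hg
  have ha0 : a ≠ 0 := by
    rintro rfl
    exact hg0 (map_zero _)
  have hu : IsUnit a := (isUnit_iff_inv_mem_stalkSubring ha0).mpr hg'
  exact isRestrictionOrder_of_stalk h a (by simp) (isOrdAlong_restriction_of_isUnit h a hu)

/-- The family `G w` of rational functions (units at `c`) has orders along the prime divisors `w` of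
the closure of `c` which are almost all `0` and add up to `d`. -/
def HasLineDegree (c : X) (G : X → X.functionField) (d : ℤ) : Prop :=
  ∃ μ : X → ℤ, (∀ w, w ⋖ c → IsRestrictionOrder 1 (G w) c w (μ w)) ∧
    ({w | w ⋖ c} ∩ Function.support μ).Finite ∧ ∑ᶠ w ∈ {w | w ⋖ c}, μ w = d

namespace HasLineDegree

variable {c : X} {G G' : X → X.functionField} {d d' : ℤ}

/-- Every computation of the orders gives the same sum. -/
theorem eq_finsum (h : HasLineDegree c G d) {μ : X → ℤ}
    (hμ : ∀ w, w ⋖ c → IsRestrictionOrder 1 (G w) c w (μ w)) :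
    ∑ᶠ (w : X) (_ : w ⋖ c), μ w = d := by
  obtain ⟨μ', h1, -, h3⟩ := h
  rw [← h3]
  exact finsum_mem_congr rfl fun w hw => (hμ w hw).unique (h1 w hw)

theorem mul (h : HasLineDegree c G d) (h' : HasLineDegree c G' d') :
    HasLineDegree c (fun w => G w * G' w) (d + d') := by
  obtain ⟨μ, h1, h2, h3⟩ := h
  obtain ⟨μ', h1', h2', h3'⟩ := h'
  refine ⟨fun w => μ w + μ' w, fun w hw => (h1 w hw).mul (h1' w hw), ?_, ?_⟩
  · refine (h2.union h2').subset ?_
    rintro w ⟨hw, hw'⟩
    by_cases h0 : μ w = 0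
    · right
      refine ⟨hw, fun h0' => hw' ?_⟩
      simp [h0, h0']
    · exact Or.inl ⟨hw, h0⟩
  · rw [finsum_mem_add_distrib' h2 h2', h3, h3']

theorem inv (h : HasLineDegree c G d) : HasLineDegree c (fun w => (G w)⁻¹) (-d) := by
  obtain ⟨μ, h1, h2, h3⟩ := h
  refine ⟨fun w => - μ w, fun w hw => (h1 w hw).inv, ?_, ?_⟩
  · refine h2.subset ?_
    rintro w ⟨hw, hw'⟩
    refine ⟨hw, fun h0 => hw' ?_⟩
    simp [h0]
  · rw [← h3]
    simp only [finsum_neg_distrib]

theorem congr (h : HasLineDegree c G d) (hG : ∀ w, w ⋖ c → G w = G' w) :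
    HasLineDegree c G' d := by
  obtain ⟨μ, h1, h2, h3⟩ := h
  exact ⟨μ, fun w hw => hG w hw ▸ h1 w hw, h2, h3⟩

end HasLineDegree

/-- The orders are given on a finite set `T` of prime divisors and are `0` outside. -/
theorem hasLineDegree_of_finset {c : X} (T : Finset X) (hT : ∀ w ∈ T, w ⋖ c)
    {G : X → X.functionField} (μ : X → ℤ)
    (h1 : ∀ w ∈ T, IsRestrictionOrder 1 (G w) c w (μ w))
    (h0 : ∀ w, w ⋖ c → w ∉ T → IsRestrictionOrder 1 (G w) c w 0) :
    HasLineDegree c G (∑ w ∈ T, μ w) := by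
  classical
  refine ⟨fun w => if w ∈ T then μ w else 0, ?_, ?_, ?_⟩
  · intro w hw
    by_cases e : w ∈ T
    · simpa only [e, if_true] using h1 w e
    · simpa only [e, if_false] using h0 w hw e
  · refine T.finite_toSet.subset ?_
    rintro w ⟨-, hw⟩
    by_contra e
    exact hw (if_neg e)
  · rw [finsum_mem_eq_sum_of_inter_support_eq (t := T)]
    · exact Finset.sum_congr rfl fun w hw => if_pos hw
    · ext w
      constructor
      · rintro ⟨-, hw⟩
        refine ⟨?_, hw⟩
        by_contra e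
        exact hw (if_neg e)
      · rintro ⟨hw, hw'⟩
        exact ⟨hT w hw, hw'⟩

theorem hasLineDegree_of_units {c : X} {G : X → X.functionField}
    (h0 : ∀ w, w ⋖ c → IsRestrictionOrder 1 (G w) c w 0) : HasLineDegree c G 0 := by
  simpa using hasLineDegree_of_finset (c := c) ∅ (by simp) (G := G) (fun _ => 0) (by simp)
    (fun w hw _ => h0 w hw)

theorem HasLineDegree.pow {c : X} {G : X → X.functionField} {d : ℤ} (h : HasLineDegree c G d)
    (hc : ∀ w, w ⋖ c → IsRestrictionOrder 1 (1 : X.functionField) c w 0) (n : ℕ) :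
    HasLineDegree c (fun w => G w ^ n) (n * d) := by
  induction n with
  | zero => simpa using hasLineDegree_of_units hc
  | succ n ih =>
    have := ih.mul h
    refine (this.congr fun w _ => (pow_succ _ _).symm) |> fun h' => ?_
    have e : (n : ℤ) * d + d = ((n + 1 : ℕ) : ℤ) * d := by push_cast; ring
    rwa [e] at h'

end General

/-! ### Ideals of the polynomial ring -/

section Poly

variable {k : Type u} [Field k]

/-- A polynomial is congruent to its value under a substitution that is trivial modulo `I`. -/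
theorem sub_aeval_mem {I : Ideal (MvPolynomial (Fin 3) k)}
    {g : Fin 3 → MvPolynomial (Fin 3) k} (hg : ∀ i, MvPolynomial.X i - g i ∈ I)
    (f : MvPolynomial (Fin 3) k) : f - MvPolynomial.aeval g f ∈ I := by
  have h1 : Ideal.Quotient.mk I =
      (Ideal.Quotient.mk I).comp (MvPolynomial.aeval g).toRingHom := by
    apply MvPolynomial.ringHom_ext
    · intro c
      simp
    · intro i
      simpa using Ideal.Quotient.eq.mpr (hg i)
  have h2 := congrArg (fun φ => φ f) h1
  exact Ideal.Quotient.eq.mp h2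

/-- `flag k j` is generated by the first `j` variables. -/
theorem flag_le_of_X_mem {j : ℕ} {I : Ideal (MvPolynomial (Fin 3) k)}
    (h : ∀ i : Fin 3, i.val < j → MvPolynomial.X i ∈ I) : (flag k j).asIdeal ≤ I := by
  intro f hf
  rw [mem_flag_iff] at hf
  have h1 := sub_aeval_mem (I := I) (g := fun i : Fin 3 =>
    if i.val < j then (0 : MvPolynomial (Fin 3) k) else MvPolynomial.X i) (fun i => by
      by_cases hi : i.val < j
      · simpa [hi] using h i hi
      · simp [hi]) f
  rwa [hf, sub_zero] at h1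

/-- The maximal ideal of the point `b` of affine space. -/
noncomputable def pointIdeal (b : Fin 3 → k) : PrimeSpectrum (MvPolynomial (Fin 3) k) :=
  ⟨RingHom.ker (MvPolynomial.eval b), RingHom.ker_isPrime _⟩

theorem mem_pointIdeal_iff (b : Fin 3 → k) (f : MvPolynomial (Fin 3) k) :
    f ∈ (pointIdeal b).asIdeal ↔ MvPolynomial.eval b f = 0 := Iff.rfl

/-- The ideal of the point `b` is generated by the `X i - b i`. -/
theorem pointIdeal_le_of_mem {b : Fin 3 → k} {I : Ideal (MvPolynomial (Fin 3) k)}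
    (h : ∀ i : Fin 3, MvPolynomial.X i - MvPolynomial.C (b i) ∈ I) :
    (pointIdeal b).asIdeal ≤ I := by
  intro f hf
  rw [mem_pointIdeal_iff] at hf
  have h1 := sub_aeval_mem (I := I) (g := fun i : Fin 3 => MvPolynomial.C (b i)) h f
  have h2 : MvPolynomial.aeval (fun i : Fin 3 => (MvPolynomial.C (b i) : MvPolynomial (Fin 3) k)) f
      = MvPolynomial.C (MvPolynomial.eval b f) := by
    have h3 := MvPolynomial.comp_aeval (R := k) (fun i => b i)
      (Algebra.ofId k (MvPolynomial (Fin 3) k))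
    have h4 := congrArg (fun φ => φ f) h3
    simp only [AlgHom.comp_apply, Algebra.ofId_apply, MvPolynomial.algebraMap_eq] at h4
    exact h4.symm
  rwa [h2, hf, map_zero, sub_zero] at h1

/-- Two comparable primes of the same height are equal. -/
theorem prime_eq_of_le_of_height_le {𝔭 𝔮 : PrimeSpectrum (MvPolynomial (Fin 3) k)} (h : 𝔭 ≤ 𝔮)
    (hh : 𝔮.asIdeal.height ≤ 𝔭.asIdeal.height) : 𝔭 = 𝔮 := by
  by_contra hne
  have hlt : 𝔭.asIdeal < 𝔮.asIdeal := lt_of_le_of_ne h fun e => hne (PrimeSpectrum.ext e)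
  have h1 := Ideal.height_add_one_le_of_lt_of_isPrime hlt
  have h3 := height_le_three 𝔭
  have htop : 𝔭.asIdeal.height ≠ ⊤ := ne_top_of_le_ne_top (by simp) h3
  exact absurd (h1.trans hh) (not_le.mpr (ENat.lt_add_one_iff htop |>.mpr le_rfl))

/-- A prime of height `2` is covered by every prime strictly containing it. -/
theorem covBy_of_lt_of_height_eq_two {𝔭 𝔮 : PrimeSpectrum (MvPolynomial (Fin 3) k)} (h : 𝔭 < 𝔮)
    (h2 : 𝔭.asIdeal.height = 2) : 𝔭 ⋖ 𝔮 := by
  refine ⟨h, fun 𝔯 h1 h3 => ?_⟩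
  have e1 : 𝔭.asIdeal < 𝔯.asIdeal := h1
  have e2 : 𝔯.asIdeal < 𝔮.asIdeal := h3
  have a1 := Ideal.height_add_one_le_of_lt_of_isPrime e1
  have a2 := Ideal.height_add_one_le_of_lt_of_isPrime e2
  have a3 := height_le_three 𝔮
  rw [h2] at a1
  have a4 : (2 : ℕ∞) + 1 + 1 ≤ 3 := (add_le_add_left a1 1).trans (a2.trans a3)
  have a5 : ((2 + 1 + 1 : ℕ) : ℕ∞) ≤ ((3 : ℕ) : ℕ∞) := by exact_mod_cast a4
  have a6 : 2 + 1 + 1 ≤ 3 := by exact_mod_cast a5
  omega

/-- **Nullstellensatz**: over an algebraically closed field the primes of height `3` are the ideals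
of the points. -/
theorem exists_eq_pointIdeal [IsAlgClosed k] {𝔮 : PrimeSpectrum (MvPolynomial (Fin 3) k)}
    (h : 𝔮.asIdeal.height = 3) : ∃ b, 𝔮 = pointIdeal b := by
  obtain ⟨b, hb⟩ := MvPolynomial.isMaximal_iff_eq_vanishingIdeal_singleton.mp
    (isMaximal_of_height_eq_three h)
  refine ⟨b, PrimeSpectrum.ext ?_⟩
  rw [hb]
  ext f
  rw [MvPolynomial.mem_vanishingIdeal_singleton_iff, mem_pointIdeal_iff,
    MvPolynomial.aeval_eq_eval]

end Poly

namespace CubeAtlas

variable {k : Type u} [Field k] {A : CubeAtlas k} {ε : Fin 3 → Bool}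
  {𝔭 𝔮 : PrimeSpectrum (MvPolynomial (Fin 3) k)}

/-! ### Restriction to a subvariety, in a chart -/

theorem restrictionHom_germ (h : A.pt ε 𝔭 ⤳ A.pt ε 𝔮) (a : MvPolynomial (Fin 3) k) :
    restrictionHom h (A.germ ε 𝔮 a) = (A.X.residue (A.pt ε 𝔭)).hom (A.germ ε 𝔭 a) := by
  have h1 := TopCat.Presheaf.germ_stalkSpecializes A.X.presheaf (pt_mem ε 𝔮) h
  have h2 := congrArg (fun φ => φ.hom (A.e ε a)) h1
  exact congrArg (A.X.residue (A.pt ε 𝔭)).hom h2

theorem restrictionHom_germ_eq_zero_iff (h : A.pt ε 𝔭 ⤳ A.pt ε 𝔮) (a : MvPolynomial (Fin 3) k) :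
    restrictionHom h (A.germ ε 𝔮 a) = 0 ↔ a ∈ 𝔭.asIdeal := by
  rw [restrictionHom_germ]
  have h1 : (A.X.residue (A.pt ε 𝔭)).hom (A.germ ε 𝔭 a) = 0 ↔
      A.germ ε 𝔭 a ∈ IsLocalRing.maximalIdeal (A.X.presheaf.stalk (A.pt ε 𝔭)) :=
    IsLocalRing.residue_eq_zero_iff _
  rw [h1, IsLocalRing.mem_maximalIdeal, mem_nonunits_iff, isUnit_germ_iff, not_not]

/-- If `f` and the ideal `𝔭` of `V` generate the ideal `𝔮` of the point `w`, then `f|_V` has order `1`
at `w`. -/
theorem isRestrictionOrder_one_of_sup (hle : 𝔭 ≤ 𝔮) {f : MvPolynomial (Fin 3) k}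
    (hf𝔭 : f ∉ 𝔭.asIdeal) (hf𝔮 : f ∈ 𝔮.asIdeal)
    (hsup : 𝔮.asIdeal ≤ Ideal.span {f} ⊔ 𝔭.asIdeal) :
    IsRestrictionOrder 1 (A.ι ε f) (A.pt ε 𝔭) (A.pt ε 𝔮) 1 := by
  have h : A.pt ε 𝔭 ⤳ A.pt ε 𝔮 := pt_specializes_iff.mpr hle
  refine isRestrictionOrder_of_stalk h (A.germ ε 𝔮 f) (by rw [algebraMap_germ, div_one]) ?_
  refine isOrdAlong_restriction_one h _ (fun h0 => hf𝔭 ((restrictionHom_germ_eq_zero_iff h f).mp h0))
    ?_
  let _ := (A.germ ε 𝔮).toAlgebra
  have hloc : IsLocalization.AtPrime (A.X.presheaf.stalk (A.pt ε 𝔮)) 𝔮.asIdeal :=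
    isLocalization_germ
  have hmax := IsLocalization.AtPrime.map_eq_maximalIdeal 𝔮.asIdeal
    (A.X.presheaf.stalk (A.pt ε 𝔮))
  have hmax' : Ideal.map (A.germ ε 𝔮) 𝔮.asIdeal =
      IsLocalRing.maximalIdeal (A.X.presheaf.stalk (A.pt ε 𝔮)) := hmax
  apply le_antisymm
  · rw [← hmax']
    refine (Ideal.map_mono hsup).trans ?_
    rw [Ideal.map_sup, Ideal.map_span, Set.image_singleton]
    refine sup_le_sup le_rfl ?_
    rw [Ideal.map_le_iff_le_comap]
    intro g hg
    exact (restrictionHom_germ_eq_zero_iff h g).mpr hg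
  · refine sup_le ?_ (IsLocalRing.le_maximalIdeal (RingHom.ker_ne_top _))
    rw [Ideal.span_singleton_le_iff_mem, ← hmax']
    exact Ideal.mem_map_of_mem _ hf𝔮

/-- Adding a polynomial of `𝔭` does not change the restriction to `V`. -/
theorem isRestrictionOrder_ι_congr {w : A.X} {μ : ℤ} {a b : MvPolynomial (Fin 3) k}
    (hab : b - a ∈ 𝔭.asIdeal) (h : IsRestrictionOrder 1 (A.ι ε a) (A.pt ε 𝔭) w μ) :
    IsRestrictionOrder 1 (A.ι ε b) (A.pt ε 𝔭) w μ := by
  have h1 := h.add_nonunit (A.germ ε 𝔭 (b - a)) (fun hu => isUnit_germ_iff.mp hu hab)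
  rw [algebraMap_germ, ← map_add] at h1
  simpa using h1

/-! ### Hartogs at a point -/

theorem mem_stalkSubring_of_ord_nonneg_aux (b : MvPolynomial (Fin 3) k) :
    b ≠ 0 → ∀ a : MvPolynomial (Fin 3) k, a ≠ 0 →
      (∀ z : A.X, coheight z = 1 → z ⤳ A.pt ε 𝔮 → 0 ≤ Scheme.ord (A.ι ε a / A.ι ε b) z) →
      A.ι ε a / A.ι ε b ∈ stalkSubring (A.pt ε 𝔮) := by
  induction b using UniqueFactorizationMonoid.induction_on_prime with
  | h₁ => exact fun h => absurd rfl h
  | h₂ b hb =>
    intro hb0 a _ _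
    rw [div_eq_mul_inv]
    refine mul_mem (ι_mem_stalkSubring a) ((inv_ι_mem_stalkSubring_iff hb0).mpr fun hmem => ?_)
    exact 𝔮.isPrime.ne_top (Ideal.eq_top_of_isUnit_mem _ hmem hb)
  | h₃ b p hb0 hp ih =>
    intro _ a ha h
    by_cases hp𝔮 : p ∈ 𝔮.asIdeal
    · have hsp : A.pt ε (primeOf hp) ⤳ A.pt ε 𝔮 := by
        rw [pt_specializes_iff]
        exact (Ideal.span_singleton_le_iff_mem _).mpr hp𝔮
      have h1 := h (A.pt ε (primeOf hp)) (coheight_pt.trans (height_primeOf hp)) hsp
      rw [ord_div (ι_ne_zero ha) (ι_ne_zero (mul_ne_zero hp.ne_zero hb0)), map_mul,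
        Scheme.ord_mul (ι_ne_zero hp.ne_zero) (ι_ne_zero hb0),
        ord_ι_of_prime hp (height_primeOf hp) ((mem_primeOf_iff hp).mpr dvd_rfl)] at h1
      have h2 : 0 ≤ Scheme.ord (A.ι ε b) (A.pt ε (primeOf hp)) := ord_ι_nonneg b
      have h3 : p ∣ a := by
        by_contra hpa
        rw [ord_ι_of_notMem (fun hmem => hpa ((mem_primeOf_iff hp).mp hmem))] at h1
        omega
      obtain ⟨a', rfl⟩ := h3
      have ha' : a' ≠ 0 := right_ne_zero_of_mul ha
      rw [map_mul, map_mul, mul_div_mul_left _ _ (ι_ne_zero hp.ne_zero)]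
      refine ih hb0 a' ha' fun z hz hzw => ?_
      have := h z hz hzw
      rwa [map_mul, map_mul, mul_div_mul_left _ _ (ι_ne_zero hp.ne_zero)] at this
    · have e : A.ι ε a / A.ι ε (p * b) = A.ι ε a / A.ι ε b * (A.ι ε p)⁻¹ := by
        rw [map_mul]
        field_simp
      rw [e]
      refine mul_mem (ih hb0 a ha fun z hz hzw => ?_)
        ((inv_ι_mem_stalkSubring_iff hp.ne_zero).mpr hp𝔮)
      have h1 := h z hz hzw
      obtain ⟨𝔯, rfl⟩ := exists_pt (mem_of_specializes hzw (pt_mem ε 𝔮))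
      have h2 : 0 ≤ Scheme.ord (A.ι ε p) (A.pt ε 𝔯) := ord_ι_nonneg p
      have e2 : A.ι ε a / A.ι ε b = A.ι ε a / A.ι ε (p * b) * A.ι ε p := by
        rw [map_mul]
        have := ι_ne_zero (A := A) (ε := ε) hp.ne_zero
        have := ι_ne_zero (A := A) (ε := ε) hb0
        field_simp
      rw [e2, Scheme.ord_mul (div_ne_zero (ι_ne_zero ha) (ι_ne_zero (mul_ne_zero hp.ne_zero hb0)))
        (ι_ne_zero hp.ne_zero)]
      omega

/-- **Hartogs at a point**: a rational function without poles along the prime divisors through `y` is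
regular at `y`. -/
theorem mem_stalkSubring_of_ord_nonneg {y : A.X} {g : A.X.functionField}
    (h : ∀ z : A.X, coheight z = 1 → z ⤳ y → 0 ≤ Scheme.ord g z) : g ∈ stalkSubring y := by
  obtain ⟨ε, hε⟩ := A.cover y
  obtain ⟨𝔮, rfl⟩ := exists_pt hε
  obtain ⟨a, b, hb, rfl⟩ := exists_ι_div ε g
  by_cases ha : a = 0
  · rw [ha, map_zero, zero_div]
    exact zero_mem _
  · exact mem_stalkSubring_of_ord_nonneg_aux b hb a ha h

/-- Two local equations of a divisor at `y` differ by a unit of `𝒪_{X,y}`. -/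
theorem div_mem_stalkSubring_of_isLocalEquation {D : A.X → ℤ} {y : A.X}
    {φ ψ : A.X.functionField} (hφ : IsLocalEquation D y φ) (hψ : IsLocalEquation D y ψ) :
    φ / ψ ∈ stalkSubring y := by
  refine mem_stalkSubring_of_ord_nonneg fun z hz hzy => ?_
  rw [ord_div hφ.1 hψ.1, hφ.2 z hz hzy, hψ.2 z hz hzy, sub_self]

/-! ### The line `ℓ = {x₀ = x₁ = ∞}` and its points -/

noncomputable section

/-- The chart with the coordinates `x₀⁻¹, x₁⁻¹, x₂⁻¹`. -/
def e0 : Fin 3 → Bool := fun _ => false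

/-- The chart with the coordinates `x₀⁻¹, x₁⁻¹, x₂`. -/
def e1 : Fin 3 → Bool := fun i => decide (i = 2)

/-- The point `(∞, ∞, b⁻¹)` of the line `ℓ`: the point `x₂⁻¹ = b`. -/
def linePt (A : CubeAtlas k) (b : k) : A.X := A.pt e0 (pointIdeal ![0, 0, b])

/-- The point `(∞, ∞, 0)` of the line `ℓ`. -/
def lineZero (A : CubeAtlas k) : A.X := A.pt e1 (pointIdeal ![0, 0, 0])

theorem fl_eq (j : ℕ) : A.fl j = A.pt e0 (flag k j) := rfl

theorem height_flag_two (A : CubeAtlas k) : (flag k 2).asIdeal.height = 2 := by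
  have h1 := coheight_fl (A := A) (j := 2) (by norm_num)
  rw [fl, coheight_pt] at h1
  exact_mod_cast h1

theorem isMaximal_pointIdeal (b : Fin 3 → k) : (pointIdeal b).asIdeal.IsMaximal :=
  RingHom.ker_isMaximal_of_surjective _ fun c => ⟨MvPolynomial.C c, by simp⟩

theorem X_sub_C_notMem_flag_two (b : k) :
    (MvPolynomial.X 2 - MvPolynomial.C b : MvPolynomial (Fin 3) k) ∉ (flag k 2).asIdeal := by
  intro h1
  rw [mem_flag_iff] at h1
  have h2 := congrArg (MvPolynomial.eval ![0, 0, b + 1]) h1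
  simp at h2

theorem X_two_notMem_flag_two :
    (MvPolynomial.X 2 : MvPolynomial (Fin 3) k) ∉ (flag k 2).asIdeal := by
  rw [X_mem_flag_iff]
  simp

theorem flag_two_lt_pointIdeal (b : k) : flag k 2 < pointIdeal ![0, 0, b] := by
  have hle : flag k 2 ≤ pointIdeal ![0, 0, b] := by
    refine flag_le_of_X_mem fun i hi => ?_
    rw [mem_pointIdeal_iff, MvPolynomial.eval_X]
    fin_cases i
    · rfl
    · rfl
    · simp at hi
  refine lt_of_le_of_ne hle fun h => X_sub_C_notMem_flag_two b ?_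
  rw [h, mem_pointIdeal_iff]
  simp

theorem pointIdeal_le_sup (b : k) : (pointIdeal ![0, 0, b]).asIdeal ≤
    Ideal.span {(MvPolynomial.X 2 - MvPolynomial.C b : MvPolynomial (Fin 3) k)} ⊔
      (flag k 2).asIdeal := by
  refine pointIdeal_le_of_mem fun i => ?_
  fin_cases i
  · refine Ideal.mem_sup_right ?_
    simpa using (X_mem_flag_iff (k := k) 0 2).mpr (by simp)
  · refine Ideal.mem_sup_right ?_
    simpa using (X_mem_flag_iff (k := k) 1 2).mpr (by simp)
  · exact Ideal.mem_sup_left (Ideal.mem_span_singleton_self _)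

theorem u_e0 (i : Fin 3) : A.u e0 i = (A.x i)⁻¹ := by simp [u, e0]

theorem u_e1_of_lt {i : Fin 3} (hi : i.val < 2) : A.u e1 i = (A.x i)⁻¹ := by
  have : i ≠ 2 := by
    rintro rfl
    simp at hi
  simp [u, e1, this]

theorem u_e1_two : A.u e1 2 = A.x 2 := by simp [u, e1]

theorem eq_two_of_not_lt {i : Fin 3} (hi : ¬ i.val < 2) : i = 2 := by
  fin_cases i
  · simp at hi
  · simp at hi
  · rfl

theorem fl_two_mem_e1 : A.fl 2 ∈ A.U e1 := by
  rw [fl, pt_mem_iff]
  intro i hi
  rw [X_mem_flag_iff]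
  intro hlt
  have : i ≠ 2 := by
    rintro rfl
    simp at hlt
  simp [e1, this] at hi

/-- The generic point of the line, in the second chart. -/
theorem pt_e1_flag_two : A.pt e1 (flag k 2) = A.fl 2 := by
  obtain ⟨𝔭', h𝔭'⟩ := exists_pt (fl_two_mem_e1 (A := A))
  have hX : ∀ i : Fin 3, i.val < 2 → MvPolynomial.X i ∈ 𝔭'.asIdeal := by
    intro i hi
    by_contra hcon
    have h1 := (inv_ι_mem_stalkSubring_iff (A := A) (ε := e1) (MvPolynomial.X_ne_zero i)).mpr hcon
    rw [h𝔭', A.ι_X, u_e1_of_lt hi, inv_inv, x_mem_stalkSubring_fl_iff] at h1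
    exact h1 hi
  have hle : flag k 2 ≤ 𝔭' := flag_le_of_X_mem hX
  have hh : 𝔭'.asIdeal.height = 2 := by
    have h1 := coheight_pt (A := A) (ε := e1) (𝔭 := 𝔭')
    rw [h𝔭', coheight_fl (by norm_num)] at h1
    exact_mod_cast h1.symm
  rw [prime_eq_of_le_of_height_le hle (by rw [hh, height_flag_two A]), h𝔭']

theorem linePt_covBy (b : k) : A.linePt b ⋖ A.fl 2 :=
  pt_covBy_iff.mpr (covBy_of_lt_of_height_eq_two (flag_two_lt_pointIdeal b) (height_flag_two A))

theorem lineZero_covBy : A.lineZero ⋖ A.fl 2 := by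
  rw [← pt_e1_flag_two]
  exact pt_covBy_iff.mpr
    (covBy_of_lt_of_height_eq_two (flag_two_lt_pointIdeal 0) (height_flag_two A))

theorem inv_x_two_mem_linePt (b : k) : (A.x 2)⁻¹ ∈ stalkSubring (A.linePt b) := by
  have := ι_mem_stalkSubring (A := A) (ε := e0) (𝔭 := pointIdeal ![0, 0, b]) (MvPolynomial.X 2)
  rwa [A.ι_X, u_e0] at this

theorem inv_x_two_notMem_lineZero : (A.x 2)⁻¹ ∉ stalkSubring A.lineZero := by
  intro h
  have h1 := (inv_ι_mem_stalkSubring_iff (A := A) (ε := e1) (𝔭 := pointIdeal ![0, 0, 0])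
    (MvPolynomial.X_ne_zero 2)).mp (by rw [A.ι_X, u_e1_two]; exact h)
  apply h1
  rw [mem_pointIdeal_iff]
  simp

theorem linePt_ne_lineZero (b : k) : A.linePt b ≠ A.lineZero := fun h =>
  inv_x_two_notMem_lineZero (h ▸ inv_x_two_mem_linePt b)

/-- Over an algebraically closed field the closed points of the line `ℓ ≅ ℙ¹` are the points
`x₂⁻¹ = b`, `b ∈ k`, and the point `x₂ = 0`. -/
theorem eq_linePt_or_eq_lineZero [IsAlgClosed k] {w : A.X} (hw : w ⋖ A.fl 2) :
    (∃ b, w = A.linePt b) ∨ w = A.lineZero := by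
  have hs : A.fl 2 ⤳ w := specializes_of_covBy hw
  have hx : ∀ i : Fin 3, i.val < 2 → A.x i ∉ stalkSubring w := fun i hi h =>
    (x_mem_stalkSubring_fl_iff i 2).mp (stalkSubring_mono hs h) hi
  by_cases ht : (A.x 2)⁻¹ ∈ stalkSubring w
  · left
    have hwU : w ∈ A.U e0 := by
      rw [A.mem_U_iff]
      intro i
      rw [u_e0]
      by_cases hi : i.val < 2
      · exact inv_x_mem_of_notMem (hx i hi)
      · rw [eq_two_of_not_lt hi]
        exact ht
    obtain ⟨𝔮, rfl⟩ := exists_pt hwU
    have hcov : flag k 2 ⋖ 𝔮 := pt_covBy_iff.mp hw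
    have hh : 𝔮.asIdeal.height = 3 := by
      rw [height_eq_of_covBy hcov, height_flag_two A]
      norm_num
    obtain ⟨b, rfl⟩ := exists_eq_pointIdeal hh
    refine ⟨b 2, ?_⟩
    have hb : ∀ i : Fin 3, i.val < 2 → b i = 0 := by
      intro i hi
      have h1 : MvPolynomial.X i ∈ (pointIdeal b).asIdeal :=
        hcov.le ((X_mem_flag_iff i 2).mpr hi)
      simpa [mem_pointIdeal_iff] using h1
    have hb' : b = ![0, 0, b 2] := by
      ext i
      fin_cases i
      · exact hb 0 (by simp)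
      · exact hb 1 (by simp)
      · rfl
    rw [linePt, ← hb']
  · right
    have hx2 : A.x 2 ∈ stalkSubring w := (A.x_mem_or_inv_mem w 2).resolve_right ht
    have hwU : w ∈ A.U e1 := by
      rw [A.mem_U_iff]
      intro i
      by_cases hi : i.val < 2
      · rw [u_e1_of_lt hi]
        exact inv_x_mem_of_notMem (hx i hi)
      · rw [eq_two_of_not_lt hi, u_e1_two]
        exact hx2
    obtain ⟨𝔮, rfl⟩ := exists_pt hwU
    have hX : ∀ i : Fin 3, MvPolynomial.X i ∈ 𝔮.asIdeal := by
      intro i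
      by_contra hcon
      have h1 := (inv_ι_mem_stalkSubring_iff (A := A) (ε := e1) (MvPolynomial.X_ne_zero i)).mpr hcon
      rw [A.ι_X] at h1
      by_cases hi : i.val < 2
      · rw [u_e1_of_lt hi, inv_inv] at h1
        exact hx i hi h1
      · rw [eq_two_of_not_lt hi, u_e1_two] at h1
        exact ht h1
    have hle : (pointIdeal ![0, 0, 0]).asIdeal ≤ 𝔮.asIdeal := by
      refine pointIdeal_le_of_mem fun i => ?_
      have h0 : (![0, 0, 0] : Fin 3 → k) i = 0 := by
        fin_cases i <;> rfl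
      rw [h0, map_zero, sub_zero]
      exact hX i
    have heq : pointIdeal ![0, 0, 0] = 𝔮 :=
      PrimeSpectrum.ext ((isMaximal_pointIdeal _).eq_of_le 𝔮.isPrime.ne_top hle)
    rw [lineZero, heq]

/-! ### Orders along the points of the line -/

theorem algebraMap_mem_stalkSubring_of_field (a : k) (w : A.X) :
    algebraMap k A.X.functionField a ∈ stalkSubring w := by
  obtain ⟨ε, hε⟩ := A.cover w
  obtain ⟨𝔮, rfl⟩ := exists_pt hε
  rw [← A.ι_C ε]
  exact ι_mem_stalkSubring _

/-- `x₂⁻¹ - b` has order `1` at the point `x₂⁻¹ = b`. -/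
theorem isRestrictionOrder_linePt_self (b : k) :
    IsRestrictionOrder 1 (A.ι e0 (MvPolynomial.X 2 - MvPolynomial.C b)) (A.fl 2) (A.linePt b) 1 :=
  isRestrictionOrder_one_of_sup (flag_two_lt_pointIdeal b).le (X_sub_C_notMem_flag_two b)
    (by rw [mem_pointIdeal_iff]; simp) (pointIdeal_le_sup b)

/-- `x₂⁻¹ - b'` is a unit at the point `x₂⁻¹ = b ≠ b'`. -/
theorem isRestrictionOrder_linePt_of_ne {b b' : k} (h : b ≠ b') :
    IsRestrictionOrder 1 (A.ι e0 (MvPolynomial.X 2 - MvPolynomial.C b')) (A.fl 2) (A.linePt b) 0 := by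
  have h0 : (MvPolynomial.X 2 - MvPolynomial.C b' : MvPolynomial (Fin 3) k) ≠ 0 := fun h0 =>
    X_sub_C_notMem_flag_two b' (h0 ▸ zero_mem _)
  refine isRestrictionOrder_of_unit (specializes_of_covBy (linePt_covBy b)) (ι_ne_zero h0)
    (ι_mem_stalkSubring _) ((inv_ι_mem_stalkSubring_iff h0).mpr ?_)
  rw [mem_pointIdeal_iff]
  simpa [sub_eq_zero] using h

/-- `x₂` has order `1` at the point `x₂ = 0`. -/
theorem isRestrictionOrder_lineZero_x :
    IsRestrictionOrder 1 (A.ι e1 (MvPolynomial.X 2)) (A.fl 2) A.lineZero 1 := by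
  rw [← pt_e1_flag_two]
  refine isRestrictionOrder_one_of_sup (flag_two_lt_pointIdeal 0).le X_two_notMem_flag_two
    (by rw [mem_pointIdeal_iff]; simp) ?_
  simpa using pointIdeal_le_sup (k := k) 0

/-- `x₂⁻¹ - b'` has a simple pole at the point `x₂ = 0`. -/
theorem isRestrictionOrder_lineZero (b' : k) :
    IsRestrictionOrder 1 (A.ι e0 (MvPolynomial.X 2 - MvPolynomial.C b')) (A.fl 2) A.lineZero
      (-1) := by
  have hmem : (1 - MvPolynomial.C b' * MvPolynomial.X 2 : MvPolynomial (Fin 3) k) ∉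
      (pointIdeal ![0, 0, 0]).asIdeal := by
    rw [mem_pointIdeal_iff]
    simp
  have h0 : (1 - MvPolynomial.C b' * MvPolynomial.X 2 : MvPolynomial (Fin 3) k) ≠ 0 := fun h0 =>
    hmem (h0 ▸ zero_mem _)
  have h2 : IsRestrictionOrder 1 (A.ι e1 (1 - MvPolynomial.C b' * MvPolynomial.X 2)) (A.fl 2)
      A.lineZero 0 :=
    isRestrictionOrder_of_unit (specializes_of_covBy lineZero_covBy) (ι_ne_zero h0)
      (ι_mem_stalkSubring _) ((inv_ι_mem_stalkSubring_iff h0).mpr hmem)
  have e : A.ι e0 (MvPolynomial.X 2 - MvPolynomial.C b') =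
      A.ι e1 (1 - MvPolynomial.C b' * MvPolynomial.X 2) * (A.ι e1 (MvPolynomial.X 2))⁻¹ := by
    simp only [map_sub, map_mul, map_one, A.ι_X, A.ι_C, u_e0, u_e1_two]
    have := A.x_ne_zero 2
    field_simp
  rw [e]
  simpa using h2.mul isRestrictionOrder_lineZero_x.inv

/-! ### The product formula on the line -/

theorem hasLineDegree_C {a : k} (ha : a ≠ 0) :
    HasLineDegree (A.fl 2) (fun _ => A.ι e0 (MvPolynomial.C a)) 0 := by
  refine hasLineDegree_of_units fun w hw => ?_
  rw [A.ι_C]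
  refine isRestrictionOrder_of_unit (specializes_of_covBy hw) ?_
    (algebraMap_mem_stalkSubring_of_field a w) ?_
  · simpa using ha
  · rw [← map_inv₀]
    exact algebraMap_mem_stalkSubring_of_field _ w

theorem hasLineDegree_linear [IsAlgClosed k] (b : k) :
    HasLineDegree (A.fl 2) (fun _ => A.ι e0 (MvPolynomial.X 2 - MvPolynomial.C b)) 0 := by
  classical
  have h := hasLineDegree_of_finset (c := A.fl 2) {A.linePt b, A.lineZero}
    (by
      intro w hw
      rcases Finset.mem_insert.mp hw with rfl | hw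
      · exact linePt_covBy b
      · rw [Finset.mem_singleton.mp hw]
        exact lineZero_covBy)
    (G := fun _ => A.ι e0 (MvPolynomial.X 2 - MvPolynomial.C b))
    (fun w => if w = A.lineZero then -1 else 1)
    (by
      intro w hw
      rcases Finset.mem_insert.mp hw with rfl | hw
      · rw [if_neg (linePt_ne_lineZero b)]
        exact isRestrictionOrder_linePt_self b
      · rw [Finset.mem_singleton.mp hw, if_pos rfl]
        exact isRestrictionOrder_lineZero b)
    (by
      intro w hw hwT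
      rcases eq_linePt_or_eq_lineZero hw with ⟨b', rfl⟩ | rfl
      · refine isRestrictionOrder_linePt_of_ne fun hbb => hwT ?_
        rw [hbb]
        exact Finset.mem_insert_self _ _
      · exact absurd (Finset.mem_insert_of_mem (Finset.mem_singleton_self _)) hwT)
  rw [Finset.sum_pair (linePt_ne_lineZero b), if_neg (linePt_ne_lineZero b), if_pos rfl] at h
  simpa using h

theorem hasLineDegree_prod [IsAlgClosed k] (s : Multiset k) :
    HasLineDegree (A.fl 2) (fun _ => A.ι e0 (Polynomial.aeval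
      (MvPolynomial.X 2 : MvPolynomial (Fin 3) k)
      (s.map fun a => Polynomial.X - Polynomial.C a).prod)) 0 := by
  induction s using Multiset.induction_on with
  | empty => simpa using hasLineDegree_C (A := A) (one_ne_zero (α := k))
  | cons a s ih =>
    have h := (hasLineDegree_linear (A := A) a).mul ih
    simpa [MvPolynomial.algebraMap_eq] using h

/-- The divisor of a polynomial in `x₂⁻¹` on the line has degree `0`. -/
theorem hasLineDegree_polynomial [IsAlgClosed k] {P : Polynomial k} (hP : P ≠ 0) :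
    HasLineDegree (A.fl 2) (fun _ => A.ι e0 (Polynomial.aeval
      (MvPolynomial.X 2 : MvPolynomial (Fin 3) k) P)) 0 := by
  have hs := (IsAlgClosed.splits P).eq_prod_roots
  have h := (hasLineDegree_C (A := A) (Polynomial.leadingCoeff_ne_zero.mpr hP)).mul
    (hasLineDegree_prod (A := A) P.roots)
  rw [hs]
  simpa [MvPolynomial.algebraMap_eq] using h

theorem hasLineDegree_ι [IsAlgClosed k] {a : MvPolynomial (Fin 3) k}
    (ha : a ∉ (flag k 2).asIdeal) : HasLineDegree (A.fl 2) (fun _ => A.ι e0 a) 0 := by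
  have hcomp : Polynomial.aeval (MvPolynomial.X 2 : MvPolynomial (Fin 3) k)
      (MvPolynomial.aeval (fun i : Fin 3 => if i.val < 2 then (0 : Polynomial k)
        else Polynomial.X) a) =
      MvPolynomial.aeval (fun i : Fin 3 => if i.val < 2 then (0 : MvPolynomial (Fin 3) k)
        else MvPolynomial.X i) a := by
    have h3 := MvPolynomial.comp_aeval (R := k)
      (fun i : Fin 3 => if i.val < 2 then (0 : Polynomial k) else Polynomial.X)
      (Polynomial.aeval (MvPolynomial.X 2 : MvPolynomial (Fin 3) k))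
    have h4 := congrArg (fun φ => φ a) h3
    simp only [AlgHom.comp_apply] at h4
    rw [h4]
    congr 2
    ext1 i
    by_cases hi : i.val < 2
    · simp [hi]
    · simp [eq_two_of_not_lt hi]
  have hP : MvPolynomial.aeval (fun i : Fin 3 => if i.val < 2 then (0 : Polynomial k)
      else Polynomial.X) a ≠ 0 := by
    intro h0
    apply ha
    rw [mem_flag_iff, ← hcomp, h0, map_zero]
  obtain ⟨μ, m1, m2, m3⟩ := hasLineDegree_polynomial (A := A) hP
  rw [hcomp] at m1
  refine ⟨μ, fun w hw => isRestrictionOrder_ι_congr (𝔭 := flag k 2) ?_ (m1 w hw), m2, m3⟩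
  refine sub_aeval_mem (fun i => ?_) a
  by_cases hi : i.val < 2
  · simpa [hi] using (X_mem_flag_iff (k := k) i 2).mpr hi
  · simp [hi]

/-- **The product formula on the line** `ℓ ≅ ℙ¹`: the divisor on `ℓ` of (the restriction of) a unit `g`
of the local ring of `ℓ` has degree `0`. -/
theorem hasLineDegree_of_unit [IsAlgClosed k] {g : A.X.functionField} (hg0 : g ≠ 0)
    (hg : g ∈ stalkSubring (A.fl 2)) (hg' : g⁻¹ ∈ stalkSubring (A.fl 2)) :
    HasLineDegree (A.fl 2) (fun _ => g) 0 := by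
  obtain ⟨a, b, hb, rfl⟩ := mem_stalkSubring_pt.mp hg
  have hb0 : b ≠ 0 := fun h => hb (h ▸ zero_mem _)
  have ha0 : a ≠ 0 := by
    rintro rfl
    simp at hg0
  have ha : a ∉ (flag k 2).asIdeal := by
    rw [← inv_ι_mem_stalkSubring_iff (A := A) (ε := fun _ => false) ha0]
    have e : (A.ι (fun _ => false) a)⁻¹ =
        (A.ι (fun _ => false) a / A.ι (fun _ => false) b)⁻¹ * (A.ι (fun _ => false) b)⁻¹ := by
      have := ι_ne_zero (A := A) (ε := fun _ => false) ha0
      have := ι_ne_zero (A := A) (ε := fun _ => false) hb0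
      field_simp
    rw [e]
    exact mul_mem hg' ((inv_ι_mem_stalkSubring_iff hb0).mpr hb)
  have h := (hasLineDegree_ι (A := A) ha).mul (hasLineDegree_ι (A := A) hb).inv
  rw [neg_zero, add_zero] at h
  exact h.congr fun w _ => (div_eq_mul_inv _ _).symm

end

end CubeAtlas

end Claimed.Open.R035
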