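import Claimed.Open.R035.SanityDlog

/-!
# Sanity checks for birational models, discrepancies and `IsLogCanonical`

* `isDVRDatum_model` : a prime divisor `E` on a birational model `f : Y ⟶ X` (in the sense of
  `IsBirationalModel`) gives a discrete valuation ring `modelSubring f _ E` of `k(X)` whose
  valuation is `g ↦ ord_E (f^* g)`; so the data which `DiscrepancyGE` feeds into `FormOrdGE` are
  the expected ones.
* `isLogCanonical_of_dlog` : a criterion by which `IsLogCanonical` can be verified, for ALL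
  birational models at once: if `K_X + B` is an integral divisor `D` and locally
  `ω = φ · dlog a ∧ dlog b ∧ dlog c` with `φ` a local equation of `D`, then `(X, B)` is log
  canonical.  (This covers toric pairs with the reduced toric boundary, and more.)
-/

set_option autoImplicit false

open AlgebraicGeometry CategoryTheory Order

universe u

namespace Claimed.Open.R035

section Algebra

/-- In the fraction field of a discrete valuation ring every non-zero element is a unit times an
integral power of a uniformizer. -/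
theorem exists_unit_mul_zpow_of_isDVR {R K : Type*} [CommRing R] [IsDomain R]
    [IsDiscreteValuationRing R] [Field K] [Algebra R K] [IsFractionRing R K] {ϖ : R}
    (hϖ : Irreducible ϖ) (a : K) (ha : a ≠ 0) :
    ∃ (u : Rˣ) (i : ℤ), a = algebraMap R K u * algebraMap R K ϖ ^ i := by
  obtain ⟨x, y, hy, rfl⟩ := IsFractionRing.div_surjective (A := R) a
  have hy0 : y ≠ 0 := nonZeroDivisors.ne_zero hy
  have hx0 : x ≠ 0 := by
    rintro rfl
    simp at ha
  obtain ⟨n, u, rfl⟩ := IsDiscreteValuationRing.eq_unit_mul_pow_irreducible hx0 hϖ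
  obtain ⟨m, w, rfl⟩ := IsDiscreteValuationRing.eq_unit_mul_pow_irreducible hy0 hϖ
  have hϖK : algebraMap R K ϖ ≠ 0 := by
    simpa using (IsFractionRing.injective R K).ne hϖ.ne_zero
  have hwK : algebraMap R K w ≠ 0 := by
    simp
  refine ⟨u * w⁻¹, (n : ℤ) - m, ?_⟩
  have hw : algebraMap R K ((w⁻¹ : Rˣ) : R) = (algebraMap R K w)⁻¹ := by
    apply eq_inv_of_mul_eq_one_left
    rw [← map_mul]
    simp
  rw [zpow_sub₀ hϖK, Units.val_mul, map_mul, map_mul, map_mul, hw, map_pow, map_pow, zpow_natCast,
    zpow_natCast]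
  field_simp

end Algebra

section Stalk

variable {Y : Scheme.{u}} [IsIntegral Y] [IsLocallyNoetherian Y]

/-- The local ring of a normal locally Noetherian integral scheme at a point of codimension one is
a discrete valuation ring. -/
theorem isDiscreteValuationRing_stalk (hY : IsNormalScheme Y) {E : Y} (hE : coheight E = 1) :
    IsDiscreteValuationRing (Y.presheaf.stalk E) := by
  have hdim : ringKrullDim (Y.presheaf.stalk E) = 1 := by
    rw [ringKrullDim_stalk_eq_coheight, hE]; rfl
  have hnf : ¬ IsField (Y.presheaf.stalk E) :=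
    (ringKrullDim_eq_one_iff_of_isLocalRing_isDomain.mp hdim).1
  have h1 : Ring.KrullDimLE 1 (Y.presheaf.stalk E) := krullDimLE_of_coheight_le hE.le
  have hic : IsIntegrallyClosed (Y.presheaf.stalk E) := (hY E).2
  have key : IsIntegrallyClosed (Y.presheaf.stalk E) ∧
      ∃! P : Ideal (Y.presheaf.stalk E), P ≠ ⊥ ∧ P.IsPrime := by
    refine ⟨hic, IsLocalRing.maximalIdeal _, ⟨?_, inferInstance⟩, ?_⟩
    · intro h
      exact hnf (IsLocalRing.isField_iff_maximalIdeal_eq.mpr h)
    · rintro P ⟨hP0, hP⟩
      exact IsLocalRing.eq_maximalIdeal (Ring.krullDimLE_one_iff_of_noZeroDivisors.mp h1 P hP0 hP)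
  exact ((IsDiscreteValuationRing.TFAE (Y.presheaf.stalk E) hnf).out 0 3).mpr key

theorem ord_one (z : Y) : Scheme.ord (1 : Y.functionField) z = 0 := by
  have h := Scheme.ord_mul (X := Y) (x := z) (f := 1) (g := 1) one_ne_zero one_ne_zero
  simp only [mul_one] at h
  omega

theorem ord_inv (z : Y) {g : Y.functionField} (hg : g ≠ 0) :
    Scheme.ord g⁻¹ z = - Scheme.ord g z := by
  have h := Scheme.ord_mul (X := Y) (x := z) (f := g) (g := g⁻¹) hg (inv_ne_zero hg)
  rw [mul_inv_cancel₀ hg, ord_one] at h
  omega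

/-- `ord_E` of a uniformizer of `𝒪_{Y,E}` is one. -/
theorem ord_algebraMap_irreducible (hY : IsNormalScheme Y) {E : Y} (hE : coheight E = 1)
    {ϖ : Y.presheaf.stalk E} (hϖ : Irreducible ϖ) :
    Scheme.ord (algebraMap _ Y.functionField ϖ) E = 1 := by
  have := isDiscreteValuationRing_stalk hY hE
  have h1 : Ring.KrullDimLE 1 (Y.presheaf.stalk E) := krullDimLE_of_coheight_le hE.le
  have hne : algebraMap (Y.presheaf.stalk E) Y.functionField ϖ ≠ 0 := by
    simpa using (IsFractionRing.injective (Y.presheaf.stalk E) Y.functionField).ne hϖ.ne_zero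
  rw [Scheme.ord_eq_iff hE hne, Scheme.ordHom, Ring.ordFrac_eq_ord _ hϖ.ne_zero]
  exact Ring.ordMonoidWithZeroHom_eq_coe _ (mem_nonZeroDivisors_of_ne_zero hϖ.ne_zero)
    (by simpa using Ring.ord_of_irreducible hϖ)

end Stalk

section Models

variable {X Y : Scheme.{u}} [IsIntegral X] [IsIntegral Y]

/-- For a birational model, `f^* : k(X) → k(Y)` is bijective. -/
theorem pullbackFn_bijective (f : Y ⟶ X) (hf : IsBirationalModel f) :
    Function.Bijective (pullbackFn f hf.generic) := by
  have := hf.iso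
  unfold pullbackFn
  exact ConcreteCategory.bijective_of_isIso
    ((X.presheaf.stalkCongr (.of_eq hf.generic.symm)).hom ≫ f.stalkMap (genericPoint Y))

variable [IsLocallyNoetherian Y]

/-- **Package B1.**  A prime divisor `E` on a birational model `f : Y ⟶ X` gives a discrete
valuation ring `𝒪_{Y,E} ⊆ k(X)` with valuation `g ↦ ord_E (f^* g)`. -/
theorem isDVRDatum_model (f : Y ⟶ X) (hf : IsBirationalModel f) {E : Y} (hE : coheight E = 1) :
    IsDVRDatum (modelSubring f hf.generic E)
      (fun g => Scheme.ord (pullbackFn f hf.generic g) E) := by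
  have hdvr := isDiscreteValuationRing_stalk hf.normal hE
  obtain ⟨ϖ, hϖ⟩ := IsDiscreteValuationRing.exists_irreducible (Y.presheaf.stalk E)
  have hbij := pullbackFn_bijective f hf
  obtain ⟨t, ht⟩ := hbij.2 (algebraMap _ Y.functionField ϖ)
  have hϖK : algebraMap (Y.presheaf.stalk E) Y.functionField ϖ ≠ 0 := by
    simpa using (IsFractionRing.injective (Y.presheaf.stalk E) Y.functionField).ne hϖ.ne_zero
  have ht0 : t ≠ 0 := by
    rintro rfl
    rw [map_zero] at ht
    exact hϖK ht.symm
  refine ⟨t, ?_, ht0, ?_, ?_⟩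
  · exact Subring.mem_comap.mpr ⟨ϖ, ht.symm⟩
  · show Scheme.ord (pullbackFn f hf.generic t⁻¹) E = -1
    rw [map_inv₀, ht, ord_inv E hϖK, ord_algebraMap_irreducible hf.normal hE hϖ]
  · intro a ha
    have ha' : pullbackFn f hf.generic a ≠ 0 := by
      simpa using hbij.1.ne ha
    obtain ⟨u', i, hu'⟩ := exists_unit_mul_zpow_of_isDVR (K := Y.functionField) hϖ _ ha'
    obtain ⟨u, hu⟩ := hbij.2 (algebraMap _ Y.functionField (u' : Y.presheaf.stalk E))
    refine ⟨u, i, Subring.mem_comap.mpr ⟨u', hu.symm⟩, Subring.mem_comap.mpr ⟨(u'⁻¹ : _ˣ), ?_⟩, ?_⟩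
    · rw [map_inv₀, hu]
      apply eq_inv_of_mul_eq_one_left
      rw [← map_mul]
      simp
    · apply hbij.1
      rw [map_mul, map_zpow₀, hu, ht, hu']

end Models

section LogCanonical

variable {k : Type u} [Field k] {X : Scheme.{u}} [IsIntegral X] [IsLocallyNoetherian X]

/-- **Package B2: a criterion for log canonicity.**  Let `L = K_X + B` be an integral divisor `D`.
If at every point `x` the form `ω` is `φ · dlog a ∧ dlog b ∧ dlog c` for a local equation `φ` of `D`
at `x` and rational functions `a, b, c ≠ 0`, then `(X, B)` is log canonical: a logarithmic form has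
at most a simple pole along any prime divisor of any birational model. -/
theorem isLogCanonical_of_dlog (π : X ⟶ Spec (CommRingCat.of k)) (ω : RatForm π 3) (D : X → ℤ)
    (L : X → ℚ) (hL : ∀ z, L z = D z)
    (h : letI := fnFieldAlgebra π
      ∀ x : X, ∃ φ a b c : X.functionField, a ≠ 0 ∧ b ≠ 0 ∧ c ≠ 0 ∧ IsLocalEquation D x φ ∧
        ω = φ • exteriorPower.ιMulti X.functionField 3 ![dlog k a, dlog k b, dlog k c]) :
    IsLogCanonical π 3 ω L := by
  let _ := fnFieldAlgebra π
  intro Y _ _ f hf E hE
  obtain ⟨φ, a, b, c, ha, hb, hc, hφ, hω⟩ := h (f E)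
  obtain ⟨g, hg, hmg, η, hη, heq⟩ := formOrdGE_dlog k (isDVRDatum_model f hf hE) ha hb hc
  have hinj := (pullbackFn_bijective f hf).1
  have hφ' : pullbackFn f hf.generic φ ≠ 0 := by simpa using hinj.ne hφ.1
  have hg' : pullbackFn f hf.generic g ≠ 0 := by simpa using hinj.ne hg
  refine ⟨1, D, φ, Scheme.ord (pullbackFn f hf.generic φ) E - 1, ⟨one_pos, fun z => by simp [hL]⟩,
    hφ, ⟨φ * g, mul_ne_zero hφ.1 hg, ?_, η, hη, ?_⟩, by simp⟩
  · show _ ≤ Scheme.ord (pullbackFn f hf.generic (φ * g)) E
    rw [map_mul, Scheme.ord_mul hφ' hg']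
    have : (-1 : ℤ) ≤ Scheme.ord (pullbackFn f hf.generic g) E := hmg
    omega
  · rw [hω, heq, smul_smul]

end LogCanonical

end Claimed.Open.R035
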