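import Claimed.Open.R035.SanityIitakaCartier
import Claimed.Open.R035.SanityLength

/-!
# Sanity check: deviation 7 of `CLAIM.md` (multiples)

For a `ℚ`-divisor `L`, `Statement.lean` expresses nefness, `ν(L) = 1`, semiampleness and the property
of being `ℚ`-Cartier with **one** integral (Cartier) multiple `D = m L`, `m > 0`
(`CLAIM.md`, deviation 7).  This file checks, for **every** integral locally Noetherian scheme `X`,
that the choice of the multiple is harmless and that the four notions only depend on the ray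
spanned by `L`:

* `Multiples.isIntersectionNumber_nsmul_head`, `Multiples.isIntersectionNumber_cons_scale` :
  the relation `IsIntersectionNumber` is homogeneous in each of its slots:
  `((j D) · D₂ ⋯ D_r · V) = j (D · D₂ ⋯ D_r · V)`, and the same in the later slots;
* `Multiples.nef_witness_nsmul`, `Multiples.numDimOne_witness_nsmul`,
  `Multiples.semiample_witness_nsmul` : witnesses `(m, D)` of `IsNef L`,
  `HasNumericalDimensionOne L`, `IsSemiample L` give the witnesses `(j m, j D)` for all `j ≥ 1`;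
* `Multiples.isNef_smul_iff`, `Multiples.hasNumericalDimensionOne_smul_iff`,
  `Multiples.isSemiample_smul_iff`, `Multiples.isQCartier_smul_iff` : for `j ≥ 1`, each of the four
  notions holds for `j L` iff it holds for `L`.

(What is *not* checked here: that two computations of the same intersection number agree; see
`CLAIM.md`, "Remarks on well-definedness".)
-/

set_option autoImplicit false

open AlgebraicGeometry CategoryTheory Order

universe u

namespace Claimed.Open.R035

namespace Multiples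

section OrdAlong

variable {F : Type u} [Field F] {A : Subring F}

/-- `ord_A (g ^ (j + 1)) = (j + 1) ord_A g`. -/
theorem isOrdAlong_pow {g : F} {n : ℤ} (h : IsOrdAlong A g n) (j : ℕ) :
    IsOrdAlong A (g ^ (j + 1)) (((j + 1 : ℕ) : ℤ) * n) := by
  induction j with
  | zero => simpa using h
  | succ j ih =>
    have h2 := ih.mul h
    rw [← pow_succ] at h2
    convert h2 using 1
    push_cast
    ring

end OrdAlong

variable {X : Scheme.{u}} [IsIntegral X] [IsLocallyNoetherian X]

omit [IsLocallyNoetherian X] in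
/-- The multiplicities of the restriction of `(j + 1) D` are `j + 1` times those of `D`. -/
theorem isRestrictionOrder_pow {φv φw : X.functionField} {v w : X} {μ : ℤ}
    (h : IsRestrictionOrder φv φw v w μ) (j : ℕ) :
    IsRestrictionOrder (φv ^ (j + 1)) (φw ^ (j + 1)) v w (((j + 1 : ℕ) : ℤ) * μ) := by
  obtain ⟨hs, u, hu, ho⟩ := h
  refine ⟨hs, u ^ (j + 1), ?_, ?_⟩
  · rw [map_pow, hu, div_pow]
  · rw [map_pow]
    exact isOrdAlong_pow ho j

/-- Homogeneity of the intersection number in the first slot. -/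
theorem isIntersectionNumber_nsmul_head {D : X → ℤ} {l : List (X → ℤ)} {v : X} {n : ℤ}
    (h : IsIntersectionNumber (D :: l) v n) (j : ℕ) :
    IsIntersectionNumber (((j + 1) • D) :: l) v (((j + 1 : ℕ) : ℤ) * n) := by
  obtain ⟨φ, μ, N, h1, h2, h3, rfl⟩ := h
  refine ⟨fun x => φ x ^ (j + 1), fun w => ((j + 1 : ℕ) : ℤ) * μ w, N,
    fun x => IitakaCartier.isLocalEquation_pow (h1 x) _,
    fun w hw => isRestrictionOrder_pow (h2 w hw) j,
    fun w hw hμ => h3 w hw (fun h0 => hμ (by simp [h0])), ?_⟩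
  rw [← smul_eq_mul, smul_finsum]
  refine finsum_congr fun w => ?_
  rw [smul_finsum]
  refine finsum_congr fun _ => ?_
  rw [smul_eq_mul, mul_assoc]

/-- Homogeneity of the intersection number in the later slots: the inductive step. -/
theorem isIntersectionNumber_cons_scale {D : X → ℤ} {l l' : List (X → ℤ)} {c : ℤ}
    (H : ∀ w n, IsIntersectionNumber l w n → IsIntersectionNumber l' w (c * n)) {v : X} {n : ℤ}
    (h : IsIntersectionNumber (D :: l) v n) : IsIntersectionNumber (D :: l') v (c * n) := by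
  obtain ⟨φ, μ, N, h1, h2, h3, rfl⟩ := h
  refine ⟨φ, μ, fun w => c * N w, h1, h2, fun w hw hμ => H w _ (h3 w hw hμ), ?_⟩
  rw [← smul_eq_mul, smul_finsum]
  refine finsum_congr fun w => ?_
  rw [smul_finsum]
  refine finsum_congr fun _ => ?_
  rw [smul_eq_mul]
  ring

/-- `((j+1) D · (j+1) D · H · V) = (j+1)² (D · D · H · V)`. -/
theorem isIntersectionNumber_nsmul_two {D H : X → ℤ} {v : X} {n : ℤ}
    (h : IsIntersectionNumber [D, D, H] v n) (j : ℕ) :
    IsIntersectionNumber [(j + 1) • D, (j + 1) • D, H] v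
      (((j + 1 : ℕ) : ℤ) * (((j + 1 : ℕ) : ℤ) * n)) :=
  isIntersectionNumber_nsmul_head
    (isIntersectionNumber_cons_scale (fun _ _ hw => isIntersectionNumber_nsmul_head hw j) h) j

/-! ## Witnesses at `m` give witnesses at `(j + 1) m` -/

/-- The witnesses of `IsNef L`. -/
theorem nef_witness_nsmul {L : X → ℚ} {m : ℕ} {D : X → ℤ} (hm : IsMultiple m L D)
    (hD : IsCartierDivisor D)
    (hn : ∀ c : X, height c = 1 → ∃ n : ℤ, IsIntersectionNumber [D] c n ∧ 0 ≤ n) (j : ℕ) :
    IsMultiple ((j + 1) * m) L ((j + 1) • D) ∧ IsCartierDivisor ((j + 1) • D) ∧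
      ∀ c : X, height c = 1 → ∃ n : ℤ, IsIntersectionNumber [(j + 1) • D] c n ∧ 0 ≤ n := by
  refine ⟨IitakaCartier.isMultiple_nsmul hm (Nat.succ_pos j),
    IitakaCartier.isCartierDivisor_nsmul hD _, fun c hc => ?_⟩
  obtain ⟨n, h1, h2⟩ := hn c hc
  exact ⟨_, isIntersectionNumber_nsmul_head h1 j, by positivity⟩

/-- The witnesses of `HasNumericalDimensionOne L`. -/
theorem numDimOne_witness_nsmul {D H : X → ℤ} {a : ℤ}
    (h1 : IsIntersectionNumber [D, H, H] (genericPoint X) a) (ha : 0 < a)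
    (h2 : IsIntersectionNumber [D, D, H] (genericPoint X) 0) (j : ℕ) :
    ∃ a' : ℤ, IsIntersectionNumber [(j + 1) • D, H, H] (genericPoint X) a' ∧ 0 < a' ∧
      IsIntersectionNumber [(j + 1) • D, (j + 1) • D, H] (genericPoint X) 0 := by
  refine ⟨_, isIntersectionNumber_nsmul_head h1 j, by positivity, ?_⟩
  simpa using isIntersectionNumber_nsmul_two h2 j

/-- `s ^ n` does not vanish where `s` does not vanish. -/
theorem isNonvanishingAt_pow {D : X → ℤ} {s : X.functionField} {x : X}
    (h : IsNonvanishingAt D s x) (n : ℕ) : IsNonvanishingAt (n • D) (s ^ n) x := by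
  refine ⟨pow_ne_zero n h.1, fun z hz hzx => ?_⟩
  have h0 := h.2 z hz hzx
  rw [ord_pow h.1, Pi.smul_apply, nsmul_eq_mul, ← mul_add, h0, mul_zero]

/-- The witnesses of `IsSemiample L`. -/
theorem semiample_witness_nsmul {D : X → ℤ} (h : IsGloballyGenerated D) (n : ℕ) :
    IsGloballyGenerated (n • D) := by
  intro x
  obtain ⟨s, h1, h2⟩ := h x
  exact ⟨s ^ n, IitakaCartier.isSection_pow h1 n, isNonvanishingAt_pow h2 n⟩

/-! ## The four notions depend only on the ray of `L` -/

omit [IsIntegral X] [IsLocallyNoetherian X] in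
/-- `j (m L) = m (j L)`. -/
theorem isMultiple_scale {m : ℕ} {L : X → ℚ} {D : X → ℤ} (h : IsMultiple m L D) (j : ℕ) :
    IsMultiple m (fun z => (j : ℚ) * L z) (j • D) := by
  refine ⟨h.1, fun z => ?_⟩
  have := h.2 z
  simp only [Pi.smul_apply, nsmul_eq_mul]
  push_cast
  rw [this]
  ring

omit [IsIntegral X] [IsLocallyNoetherian X] in
/-- `m (j L) = (m j) L`. -/
theorem isMultiple_unscale {m j : ℕ} (hj : 0 < j) {L : X → ℚ} {D : X → ℤ}
    (h : IsMultiple m (fun z => (j : ℚ) * L z) D) : IsMultiple (m * j) L D := by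
  refine ⟨Nat.mul_pos h.1 hj, fun z => ?_⟩
  rw [h.2 z]
  push_cast
  ring

theorem isQCartier_smul_iff {j : ℕ} (hj : 0 < j) (L : X → ℚ) :
    IsQCartier (fun z => (j : ℚ) * L z) ↔ IsQCartier L := by
  constructor
  · rintro ⟨m, D, h1, h2⟩
    exact ⟨m * j, D, isMultiple_unscale hj h1, h2⟩
  · rintro ⟨m, D, h1, h2⟩
    exact ⟨m, j • D, isMultiple_scale h1 j, IitakaCartier.isCartierDivisor_nsmul h2 j⟩

theorem isSemiample_smul_iff {j : ℕ} (hj : 0 < j) (L : X → ℚ) :
    IsSemiample (fun z => (j : ℚ) * L z) ↔ IsSemiample L := by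
  constructor
  · rintro ⟨m, D, h1, h2, h3⟩
    exact ⟨m * j, D, isMultiple_unscale hj h1, h2, h3⟩
  · rintro ⟨m, D, h1, h2, h3⟩
    exact ⟨m, j • D, isMultiple_scale h1 j, IitakaCartier.isCartierDivisor_nsmul h2 j,
      semiample_witness_nsmul h3 j⟩

theorem isNef_smul_iff {j : ℕ} (hj : 0 < j) (L : X → ℚ) :
    IsNef (fun z => (j : ℚ) * L z) ↔ IsNef L := by
  constructor
  · rintro ⟨m, D, h1, h2, h3⟩
    exact ⟨m * j, D, isMultiple_unscale hj h1, h2, h3⟩
  · rintro ⟨m, D, h1, h2, h3⟩
    obtain ⟨i, rfl⟩ : ∃ i, j = i + 1 := ⟨j - 1, by omega⟩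
    obtain ⟨-, a2, a3⟩ := nef_witness_nsmul h1 h2 h3 i
    exact ⟨m, (i + 1) • D, isMultiple_scale h1 _, a2, a3⟩

theorem hasNumericalDimensionOne_smul_iff {j : ℕ} (hj : 0 < j) (L : X → ℚ) :
    HasNumericalDimensionOne (fun z => (j : ℚ) * L z) ↔ HasNumericalDimensionOne L := by
  constructor
  · rintro ⟨m, D, H, a, h1, h2, h3, h4, h5, h6⟩
    exact ⟨m * j, D, H, a, isMultiple_unscale hj h1, h2, h3, h4, h5, h6⟩
  · rintro ⟨m, D, H, a, h1, h2, h3, h4, h5, h6⟩
    obtain ⟨i, rfl⟩ : ∃ i, j = i + 1 := ⟨j - 1, by omega⟩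
    obtain ⟨a', b1, b2, b3⟩ := numDimOne_witness_nsmul h4 h5 h6 i
    exact ⟨m, (i + 1) • D, H, a', isMultiple_scale h1 _,
      IitakaCartier.isCartierDivisor_nsmul h2 _, h3, b1, b2, b3⟩

end Multiples

end Claimed.Open.R035
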