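import Claimed.Open.R035.SanityLine
import Claimed.Open.R035.SanityQFactorial

/-!
# Sanity check: a non-example of `IsNef`, and exact intersection numbers with a line

`IsNef` and `IsIntersectionNumber` are existential ("some family of local equations computes `n`").
For the line `ℓ = {x₀ = x₁ = ∞}` of `(ℙ¹)³` over an algebraically closed field this file shows that
**every** computation gives the same number:

* `CubeAtlas.isIntersectionNumber_line_iff` : if one family of local equations of `D` has degree `d`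
  on `ℓ`, then `IsIntersectionNumber [D] ℓ n ↔ n = d`;
* `(H · ℓ) = 1`, `(S · ℓ) = 0` and `(m K_X · ℓ) = - 2 m` (`IsIntersectionNumber … n ↔ n = …`);
* `CubeAtlas.not_isNef_Kdiv` : `K_X` is **not** nef.  So, on `(ℙ¹)³`, all the hypotheses of
  `TerminalAbundance` hold except the nefness of `K_X` (`CubeAtlas.terminal_checks` in `Sanity.lean`), and `IsNef`
  is not automatic.
-/

set_option autoImplicit false
set_option linter.unusedSectionVars false

open AlgebraicGeometry CategoryTheory Order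

universe u

namespace Claimed.Open.R035

theorem abs_eq_add_two_mul_max (a : ℤ) : |a| = a + 2 * max (-a) 0 := by
  rcases le_total 0 a with h | h
  · rw [abs_of_nonneg h, max_eq_right (by omega)]
    omega
  · rw [abs_of_nonpos h, max_eq_left (by omega)]
    omega

namespace CubeAtlas

variable {k : Type u} [Field k] {A : CubeAtlas k}

noncomputable section

/-- The line `ℓ` is a curve. -/
theorem height_fl_two : height (A.fl 2) = 1 := by
  apply le_antisymm
  · have hle : height (A.fl 2) ≤ ((1 : ℕ) : ℕ∞) := by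
      rw [height_le_coe_iff]
      intro b hb
      have h1 := coheight_add_one_le hb
      rw [coheight_fl (by norm_num)] at h1
      have h2 : coheight b = 3 := by
        refine le_antisymm (coheight_le_three b) (le_trans (le_of_eq ?_) h1)
        norm_num
      rw [height_eq_zero.mpr (isMin_of_coheight_eq_three h2)]
      exact_mod_cast zero_lt_one
    exact_mod_cast hle
  · have h1 := height_add_one_le (fl_covBy (A := A) (j := 2) (by norm_num)).lt
    exact le_trans (by simp) h1

/-- **The degree of a Cartier divisor on the line `ℓ` is well defined**: if one family `ρ` of local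
equations of `D` has degree `d` on `ℓ`, then every computation of `(D · ℓ)` gives `d`. -/
theorem eq_of_isIntersectionNumber_line [IsAlgClosed k] {D : A.X → ℤ}
    {ρ : A.X → A.X.functionField} (hρ : ∀ x, IsLocalEquation D x (ρ x)) {d : ℤ}
    (hd : HasLineDegree (A.fl 2) (fun w => ρ w / ρ (A.fl 2)) d) {n : ℤ}
    (hn : IsIntersectionNumber [D] (A.fl 2) n) : n = d := by
  obtain ⟨φ, μ, N, hφ, hμ, hN, rfl⟩ := hn
  have hu1 : ∀ x, φ x / ρ x ∈ stalkSubring x := fun x =>
    div_mem_stalkSubring_of_isLocalEquation (hφ x) (hρ x)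
  have hu2 : ∀ x, (φ x / ρ x)⁻¹ ∈ stalkSubring x := fun x => by
    rw [inv_div]
    exact div_mem_stalkSubring_of_isLocalEquation (hρ x) (hφ x)
  have hu3 : ∀ x, φ x / ρ x ≠ 0 := fun x => div_ne_zero (hφ x).1 (hρ x).1
  have h1 : HasLineDegree (A.fl 2) (fun w => φ w / ρ w) 0 := hasLineDegree_of_units fun w hw =>
    isRestrictionOrder_of_unit (specializes_of_covBy hw) (hu3 w) (hu1 w) (hu2 w)
  have h2 : HasLineDegree (A.fl 2) (fun _ => φ (A.fl 2) / ρ (A.fl 2)) 0 :=
    hasLineDegree_of_unit (hu3 _) (hu1 _) (hu2 _)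
  have h3 := (hd.mul h1).mul h2.inv
  rw [neg_zero, add_zero, add_zero] at h3
  have h4 : HasLineDegree (A.fl 2) (fun w => φ w / φ (A.fl 2)) d := by
    refine h3.congr fun w _ => ?_
    have e1 := (hφ w).1
    have e2 := (hφ (A.fl 2)).1
    have e3 := (hρ w).1
    have e4 := (hρ (A.fl 2)).1
    field_simp
  have h5 := h4.eq_finsum (μ := μ) fun w hw => (hμ w hw).of_ratio (by rw [div_one])
  rw [← h5]
  refine finsum_congr fun w => finsum_congr fun hw => ?_
  by_cases h0 : μ w = 0
  · simp [h0]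
  · rw [(hN w hw h0).2, mul_one]

/-- ... and this number is computed by the family `ρ`. -/
theorem isIntersectionNumber_line_of_hasLineDegree {D : A.X → ℤ}
    {ρ : A.X → A.X.functionField} (hρ : ∀ x, IsLocalEquation D x (ρ x)) {d : ℤ}
    (hd : HasLineDegree (A.fl 2) (fun w => ρ w / ρ (A.fl 2)) d) :
    IsIntersectionNumber [D] (A.fl 2) d := by
  obtain ⟨μ, h1, -, h3⟩ := hd
  refine ⟨ρ, μ, fun _ => 1, hρ, fun w hw => (h1 w hw).of_ratio (by rw [div_one]), fun w hw _ =>
    isIntersectionNumber_nil_of_isMin (isMin_of_covBy_of_height_eq_one height_fl_two hw), ?_⟩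
  rw [← h3]
  exact finsum_congr fun w => finsum_congr fun _ => (mul_one _).symm

theorem isIntersectionNumber_line_iff [IsAlgClosed k] {D : A.X → ℤ}
    {ρ : A.X → A.X.functionField} (hρ : ∀ x, IsLocalEquation D x (ρ x)) {d : ℤ}
    (hd : HasLineDegree (A.fl 2) (fun w => ρ w / ρ (A.fl 2)) d) (n : ℤ) :
    IsIntersectionNumber [D] (A.fl 2) n ↔ n = d :=
  ⟨eq_of_isIntersectionNumber_line hρ hd, fun h =>
    h ▸ isIntersectionNumber_line_of_hasLineDegree hρ hd⟩

/-! ### The three divisors -/

theorem isRestrictionOrder_one {w : A.X} (hw : w ⋖ A.fl 2) :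
    IsRestrictionOrder 1 (1 : A.X.functionField) (A.fl 2) w 0 :=
  isRestrictionOrder_of_unit (specializes_of_covBy hw) one_ne_zero (one_mem _)
    (by rw [inv_one]; exact one_mem _)

theorem x_two_mem_fl_two : A.x 2 ∈ stalkSubring (A.fl 2) :=
  (x_mem_stalkSubring_fl_iff 2 2).mpr (by simp)

open Classical in
theorem eqH_fl_two_div {w : A.X} (hw : w ⋖ A.fl 2) :
    A.eqH (A.fl 2) / A.eqH w = if A.x 2 ∈ stalkSubring w then 1 else A.x 2 := by
  rw [eqH_div_eqH (specializes_of_covBy hw), Fin.prod_univ_three]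
  have h0 : A.x 0 ∉ stalkSubring (A.fl 2) := fun h => (x_mem_stalkSubring_fl_iff 0 2).mp h (by simp)
  have h1 : A.x 1 ∉ stalkSubring (A.fl 2) := fun h => (x_mem_stalkSubring_fl_iff 1 2).mp h (by simp)
  simp only [h0, h1, false_and, if_false, one_mul, x_two_mem_fl_two, true_and]
  by_cases h2 : A.x 2 ∈ stalkSubring w
  · simp [h2]
  · simp [h2]

theorem x_two_mem_linePt_iff (b : k) : A.x 2 ∈ stalkSubring (A.linePt b) ↔ b ≠ 0 := by
  have h := inv_ι_mem_stalkSubring_iff (A := A) (ε := e0) (𝔭 := pointIdeal ![0, 0, b])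
    (MvPolynomial.X_ne_zero 2)
  rw [A.ι_X, u_e0, inv_inv, mem_pointIdeal_iff] at h
  rw [linePt, h]
  simp

theorem x_two_mem_lineZero : A.x 2 ∈ stalkSubring A.lineZero := by
  have := ι_mem_stalkSubring (A := A) (ε := e1) (𝔭 := pointIdeal ![0, 0, 0]) (MvPolynomial.X 2)
  rwa [A.ι_X, u_e1_two] at this

/-- The family `eqH` of local equations of `H` has degree `1` on the line (here: its inverse). -/
theorem hasLineDegree_eqH [IsAlgClosed k] :
    HasLineDegree (A.fl 2) (fun w => A.eqH (A.fl 2) / A.eqH w) (-1) := by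
  classical
  have h := hasLineDegree_of_finset (c := A.fl 2) {A.linePt 0}
    (by
      intro w hw
      rw [Finset.mem_singleton.mp hw]
      exact linePt_covBy 0)
    (G := fun w => A.eqH (A.fl 2) / A.eqH w) (fun _ => -1)
    (by
      intro w hw
      rw [Finset.mem_singleton.mp hw, eqH_fl_two_div (linePt_covBy 0),
        if_neg (fun h => (x_two_mem_linePt_iff 0).mp h rfl)]
      have h1 := (isRestrictionOrder_linePt_self (A := A) 0).inv
      rwa [map_zero, sub_zero, A.ι_X, u_e0, inv_inv] at h1)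
    (by
      intro w hw hwT
      rw [eqH_fl_two_div hw]
      rcases eq_linePt_or_eq_lineZero hw with ⟨b, rfl⟩ | rfl
      · have hb : b ≠ 0 := by
          rintro rfl
          exact hwT (Finset.mem_singleton_self _)
        rw [if_pos ((x_two_mem_linePt_iff b).mpr hb)]
        exact isRestrictionOrder_one hw
      · rw [if_pos x_two_mem_lineZero]
        exact isRestrictionOrder_one hw)
  simpa using h

theorem hasLineDegree_eqH' [IsAlgClosed k] :
    HasLineDegree (A.fl 2) (fun w => A.eqH w / A.eqH (A.fl 2)) 1 := by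
  have h := (hasLineDegree_eqH (A := A)).inv
  rw [neg_neg] at h
  exact h.congr fun w _ => inv_div _ _

/-- `(H · ℓ) = 1`: the number `1` is computed, and every computation gives `1`. -/
theorem isIntersectionNumber_Hdiv_line_iff [IsAlgClosed k] (n : ℤ) :
    IsIntersectionNumber [A.Hdiv] (A.fl 2) n ↔ n = 1 :=
  isIntersectionNumber_line_iff isLocalEquation_eqH hasLineDegree_eqH' n

theorem hasLineDegree_eqS : HasLineDegree (A.fl 2) (fun w => A.eqS w / A.eqS (A.fl 2)) 0 := by
  refine hasLineDegree_of_units fun w hw => ?_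
  have h0 : A.x 0 ∉ stalkSubring (A.fl 2) := fun h => (x_mem_stalkSubring_fl_iff 0 2).mp h (by simp)
  have h1 : A.x 0 ∉ stalkSubring w := fun h => h0 (stalkSubring_mono (specializes_of_covBy hw) h)
  rw [A.eqS_of_notMem h0, A.eqS_of_notMem h1, div_one]
  exact isRestrictionOrder_one hw

/-- `(S · ℓ) = 0`: the number `0` is computed, and every computation gives `0`. -/
theorem isIntersectionNumber_Sdiv_line_iff [IsAlgClosed k] (n : ℤ) :
    IsIntersectionNumber [A.Sdiv] (A.fl 2) n ↔ n = 0 :=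
  isIntersectionNumber_line_iff A.isLocalEquation_eqS hasLineDegree_eqS n

/-- Local equations of `K_X = - div (x₀ x₁ x₂) - 2 H`. -/
def eqK (A : CubeAtlas k) (p : A.X) : A.X.functionField :=
  (A.x 0 * A.x 1 * A.x 2)⁻¹ * ((A.eqH p)⁻¹) ^ 2

theorem eqK_ne_zero (p : A.X) : A.eqK p ≠ 0 :=
  mul_ne_zero (inv_ne_zero (mul_ne_zero (mul_ne_zero (A.x_ne_zero 0) (A.x_ne_zero 1))
    (A.x_ne_zero 2))) (pow_ne_zero _ (inv_ne_zero (eqH_ne_zero p)))

theorem isLocalEquation_eqK (p : A.X) : IsLocalEquation A.Kdiv p (A.eqK p) := by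
  refine ⟨eqK_ne_zero p, fun z hz hzp => ?_⟩
  have hH := (isLocalEquation_eqH p).2 z hz hzp
  have h01 := mul_ne_zero (A.x_ne_zero 0) (A.x_ne_zero 1)
  have h012 := mul_ne_zero h01 (A.x_ne_zero 2)
  unfold eqK
  rw [Scheme.ord_mul (inv_ne_zero h012) (pow_ne_zero _ (inv_ne_zero (eqH_ne_zero p))),
    ord_inv z h012, ord_pow (inv_ne_zero (eqH_ne_zero p)), ord_inv z (eqH_ne_zero p), hH,
    Scheme.ord_mul h01 (A.x_ne_zero 2), Scheme.ord_mul (A.x_ne_zero 0) (A.x_ne_zero 1)]
  unfold Kdiv Hdiv
  rw [Fin.sum_univ_three, Fin.sum_univ_three, abs_eq_add_two_mul_max, abs_eq_add_two_mul_max,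
    abs_eq_add_two_mul_max]
  push_cast
  ring

theorem isLocalEquation_eqK_pow {m : ℕ} {D : A.X → ℤ} (hD : ∀ z, D z = m * A.Kdiv z) (p : A.X) :
    IsLocalEquation D p (A.eqK p ^ m) := by
  refine ⟨pow_ne_zero _ (eqK_ne_zero p), fun z hz hzp => ?_⟩
  rw [ord_pow (eqK_ne_zero p), (isLocalEquation_eqK p).2 z hz hzp, hD]

theorem hasLineDegree_eqK_pow [IsAlgClosed k] (m : ℕ) :
    HasLineDegree (A.fl 2) (fun w => A.eqK w ^ m / A.eqK (A.fl 2) ^ m) (- 2 * m) := by
  have h := (hasLineDegree_eqH (A := A)).pow (fun w hw => isRestrictionOrder_one hw) (2 * m)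
  have e : ((2 * m : ℕ) : ℤ) * (-1) = - 2 * m := by
    push_cast
    ring
  rw [e] at h
  refine h.congr fun w _ => ?_
  unfold eqK
  have e1 := eqH_ne_zero (A := A) w
  have e2 := eqH_ne_zero (A := A) (A.fl 2)
  have e3 := mul_ne_zero (mul_ne_zero (A.x_ne_zero 0) (A.x_ne_zero 1)) (A.x_ne_zero 2)
  rw [← div_pow, pow_mul]
  congr 1
  field_simp
  rw [div_self e3]

/-- `(m K_X · ℓ) = - 2 m`: this number is computed, and every computation gives it. -/
theorem isIntersectionNumber_Kdiv_line_iff [IsAlgClosed k] {m : ℕ} {D : A.X → ℤ}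
    (hD : ∀ z, D z = m * A.Kdiv z) (n : ℤ) :
    IsIntersectionNumber [D] (A.fl 2) n ↔ n = - 2 * m :=
  isIntersectionNumber_line_iff (isLocalEquation_eqK_pow hD) (hasLineDegree_eqK_pow m) n

/-- **A non-example of `IsNef`**: the canonical divisor of `ℙ¹ × ℙ¹ × ℙ¹` is not nef: it has degree
`- 2` on the line `ℓ`, whatever local equations are used to compute the degree. -/
theorem not_isNef_Kdiv [IsAlgClosed k] (A : CubeAtlas k) :
    ¬ IsNef (fun z => (A.Kdiv z : ℚ)) := by
  rintro ⟨m, D, ⟨hm, hD⟩, -, h⟩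
  obtain ⟨n, hn, hn0⟩ := h (A.fl 2) height_fl_two
  have h1 := (isIntersectionNumber_Kdiv_line_iff (m := m) (fun z => by
    have h3 : (D z : ℚ) = m * (A.Kdiv z : ℚ) := hD z
    exact_mod_cast h3) n).mp hn
  have h2 : (0 : ℤ) < m := by exact_mod_cast hm
  omega

end

end CubeAtlas

end Claimed.Open.R035
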