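import Mathlib

/-!
# Result 035.  Log-canonical threefold abundance in numerical dimension one

`Claimed.Open.R035.Statement` is the conjunction of

* `LogAbundance` : Theorem 1.1 (`thm:main`) of *Log abundance in numerical dimension one for
  threefolds in positive characteristic* (October 5, 2026), and
* `TerminalAbundance` : Theorem 1.1 (`thm:main`) of the companion paper *Abundance in numerical
  dimension one for terminal threefolds in positive characteristic* (September 24, 2026).

Mathlib has schemes, function fields, the order of vanishing at a point of codimension one and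
Kähler differentials, but no divisors, canonical divisors, discrepancies, ampleness or intersection
numbers.  All of these are defined below, for a **normal integral locally Noetherian scheme `X` over
a field `k`**, in the classical language of Weil divisors and rational functions:

* integral closed subschemes of `X` are represented by their generic points `v : X`; Mathlib orders
  the points of a scheme by `w ≤ v ↔ v ⤳ w` (`w` lies in the closure of `v`), so `coheight v` is the
  codimension and `height v` the dimension of the closure of `v`, and `w ⋖ v` says that the closure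
  of `w` is a prime divisor of the closure of `v`;
* a divisor with coefficients in `R` is a function `D : X → R` with finite support contained in the
  set of the points of codimension one (`IsWeilDivisor`);
* the divisor of a rational function `φ` is `z ↦ Scheme.ord φ z`.

See `CLAIM.md` for the source of every definition.
-/

set_option autoImplicit false

open AlgebraicGeometry CategoryTheory Order

universe u

namespace Claimed.Open.R035

noncomputable section

/-! ## 1. Rational differential forms of a field extension -/

section Forms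

variable (k : Type u) [Field k] {F : Type u} [Field F] [Algebra k F]

/-- For a subring `R` of a field extension `F / k`: the group of the rational `n`-forms in
`⋀ⁿ Ω_{F/k}` that are sums of forms `a · db₁ ∧ … ∧ dbₙ` with `a, b₁, …, bₙ ∈ R`.  It is the image of
`⋀ⁿ_R Ω_{R/k}` in `⋀ⁿ_F Ω_{F/k}`, i.e. the rational `n`-forms that are regular on `R`. -/
def regularForms (n : ℕ) (R : Subring F) : AddSubgroup (⋀[F]^n Ω[F⁄k]) :=
  AddSubgroup.closure {η | ∃ (a : F) (b : Fin n → F), a ∈ R ∧ (∀ j, b j ∈ R) ∧
    η = a • exteriorPower.ιMulti F n (fun j => KaehlerDifferential.D k F (b j))}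

/-- `R` is (the local ring of) a prime divisor with order function `v`.  The rational `n`-form `ω`
vanishes to order at least `m` along it: `ω = g · η` with `v g ≥ m` and `η` regular on `R`. -/
def FormOrdGE (n : ℕ) (R : Subring F) (v : F → ℤ) (ω : ⋀[F]^n Ω[F⁄k]) (m : ℤ) : Prop :=
  ∃ g : F, g ≠ 0 ∧ m ≤ v g ∧ ∃ η ∈ regularForms k n R, ω = g • η

/-- The rational `n`-form `ω` vanishes to order exactly `m` along `(R, v)`. -/
def IsFormOrd (n : ℕ) (R : Subring F) (v : F → ℤ) (ω : ⋀[F]^n Ω[F⁄k]) (m : ℤ) : Prop :=
  FormOrdGE k n R v ω m ∧ ¬ FormOrdGE k n R v ω (m + 1)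

end Forms

/-! ## 2. Order of vanishing for a one-dimensional local domain -/

/-- `ord_A(g) = n`, for a one-dimensional Noetherian local domain `A` with fraction field `F` and
`g ∈ Fˣ`: if `g = a / b` with `a, b ∈ A ∖ {0}` then
`ord_A(g) = length_A (A / a A) - length_A (A / b A)` (Fulton, *Intersection theory*, §1.2).
`Ring.ord A a` is Mathlib's name for `length_A (A / a A)`. -/
def IsOrdAlong {F : Type u} [Field F] (A : Subring F) (g : F) (n : ℤ) : Prop :=
  ∃ (a b : A) (la lb : ℕ), a ≠ 0 ∧ b ≠ 0 ∧ g * b = a ∧
    Ring.ord A a = la ∧ Ring.ord A b = lb ∧ n = (la : ℤ) - lb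

/-! ## 3. Divisors on a normal integral scheme over a field -/

variable {k : Type u} [Field k]

/-- The function field of an integral `k`-scheme is a `k`-algebra. -/
@[reducible]
def fnFieldAlgebra {X : Scheme.{u}} [IsIntegral X] (π : X ⟶ Spec (CommRingCat.of k)) :
    Algebra k X.functionField :=
  ((Scheme.ΓSpecIso (CommRingCat.of k)).inv ≫ π.appTop ≫
    X.presheaf.germ ⊤ (genericPoint X) trivial).hom.toAlgebra

/-- The rational `n`-forms `⋀ⁿ Ω_{k(X)/k}` of an integral `k`-scheme `X`. -/
abbrev RatForm {X : Scheme.{u}} [IsIntegral X] (π : X ⟶ Spec (CommRingCat.of k)) (n : ℕ) :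
    Type u :=
  letI := fnFieldAlgebra π
  ⋀[X.functionField]^n Ω[X.functionField⁄k]

/-- A scheme is normal if all its local rings are integrally closed domains. -/
def IsNormalScheme (X : Scheme.{u}) : Prop :=
  ∀ x : X, IsDomain (X.presheaf.stalk x) ∧ IsIntegrallyClosed (X.presheaf.stalk x)

/-- The local ring `𝒪_{X,x}`, as a subring of the function field. -/
def stalkSubring {X : Scheme.{u}} [IsIntegral X] (x : X) : Subring X.functionField :=
  (algebraMap (X.presheaf.stalk x) X.functionField).range

/-- Weil divisors with coefficients in `R` (`R = ℤ` or `ℚ`): finitely many prime divisors, that is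
points of codimension one, with a coefficient each. -/
def IsWeilDivisor {X : Scheme.{u}} {R : Type} [Zero R] (D : X → R) : Prop :=
  (Function.support D).Finite ∧ ∀ z, D z ≠ 0 → coheight z = 1

/-- `m > 0` and the integral divisor `E` is the multiple `m D` of the `ℚ`-divisor `D`. -/
def IsMultiple {X : Scheme.{u}} (m : ℕ) (D : X → ℚ) (E : X → ℤ) : Prop :=
  0 < m ∧ ∀ z, (E z : ℚ) = m * D z

section Divisors

variable {X : Scheme.{u}} [IsIntegral X] [IsLocallyNoetherian X]

/-- The rational function `φ` is a local equation of the divisor `D` at the point `x`: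
`D = div φ` on `Spec 𝒪_{X,x}`, i.e. along all prime divisors through `x`. (As the supports are
finite, this is the same as `D = div φ` on a neighbourhood of `x`.) -/
def IsLocalEquation (D : X → ℤ) (x : X) (φ : X.functionField) : Prop :=
  φ ≠ 0 ∧ ∀ z : X, coheight z = 1 → z ⤳ x → Scheme.ord φ z = D z

/-- Cartier divisors on a normal scheme: the locally principal Weil divisors. -/
def IsCartierDivisor (D : X → ℤ) : Prop :=
  IsWeilDivisor D ∧ ∀ x : X, ∃ φ, IsLocalEquation D x φ

/-- A `ℚ`-divisor is `ℚ`-Cartier if a positive multiple of it is an integral Cartier divisor. -/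
def IsQCartier (D : X → ℚ) : Prop :=
  ∃ (m : ℕ) (E : X → ℤ), IsMultiple m D E ∧ IsCartierDivisor E

variable (X) in
/-- `X` is `ℚ`-factorial: every Weil divisor is `ℚ`-Cartier. -/
def IsQFactorial : Prop :=
  ∀ D : X → ℤ, IsWeilDivisor D → IsQCartier (fun z => (D z : ℚ))

/-- `K = div ω` is the canonical divisor of `X` defined by the rational top form `ω`
(`n = dim X`): the coefficient of `K` at a prime divisor `z` is the order of `ω` along `z`. -/
def IsDivisorOfForm (π : X ⟶ Spec (CommRingCat.of k)) (n : ℕ) (ω : RatForm π n) (K : X → ℤ) :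
    Prop :=
  letI := fnFieldAlgebra π
  IsWeilDivisor K ∧ ∀ z : X, coheight z = 1 →
    IsFormOrd k n (stalkSubring z) (fun g => Scheme.ord g z) ω (K z)

/-! ### Sections, semiampleness, ampleness, Iitaka dimension -/

/-- `s ∈ H⁰(X, 𝒪_X(D)) = {s ∈ k(X) | s = 0 or div s + D ≥ 0}`. -/
def IsSection (D : X → ℤ) (s : X.functionField) : Prop :=
  s ≠ 0 → ∀ z : X, coheight z = 1 → 0 ≤ Scheme.ord s z + D z

/-- The section `s` of `𝒪_X(D)` does not vanish at `x` (it generates the stalk at `x`): no
component of the effective divisor `div s + D` passes through `x`. -/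
def IsNonvanishingAt (D : X → ℤ) (s : X.functionField) (x : X) : Prop :=
  s ≠ 0 ∧ ∀ z : X, coheight z = 1 → z ⤳ x → Scheme.ord s z + D z = 0

/-- `𝒪_X(D)` is generated by its global sections. -/
def IsGloballyGenerated (D : X → ℤ) : Prop :=
  ∀ x : X, ∃ s, IsSection D s ∧ IsNonvanishingAt D s x

/-- A `ℚ`-divisor is semiample if some positive Cartier multiple of it is generated by its global
sections. -/
def IsSemiample (L : X → ℚ) : Prop :=
  ∃ (m : ℕ) (D : X → ℤ), IsMultiple m L D ∧ IsCartierDivisor D ∧ IsGloballyGenerated D

/-- Ample Cartier divisors (Stacks project, Definition 01PS, for `𝒪_X(H)`): `X` is quasi-compact and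
every point `x` lies in an affine set of the form `X_s = {y | s does not vanish at y}` for a section
`s` of `𝒪_X(n H)`, `n ≥ 1`. -/
def IsAmpleDivisor (H : X → ℤ) : Prop :=
  IsCartierDivisor H ∧ CompactSpace X ∧
  ∀ x : X, ∃ (n : ℕ) (s : X.functionField) (U : X.Opens), 0 < n ∧ IsSection (n • H) s ∧
    IsAffineOpen U ∧ x ∈ U ∧ ∀ y : X, y ∈ U ↔ IsNonvanishingAt (n • H) s y

/-- `X` is projective over `k`: it is proper over `k` and has an ample Cartier divisor. -/
def IsProjective (π : X ⟶ Spec (CommRingCat.of k)) : Prop :=
  IsProper π ∧ ∃ H : X → ℤ, IsAmpleDivisor H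

/-- `κ(X, L) ≥ r`: for some `m > 0` the image of the rational map given by `|m L|` has dimension at
least `r`, i.e. there are a section `s ≠ 0` of `𝒪_X(m L)` and `r` rational functions `t i`,
algebraically independent over `k`, such that all `t i · s` are sections of `𝒪_X(m L)`. -/
def IitakaDimGE (π : X ⟶ Spec (CommRingCat.of k)) (L : X → ℚ) (r : ℕ) : Prop :=
  letI := fnFieldAlgebra π
  ∃ (m : ℕ) (D : X → ℤ) (s : X.functionField) (t : Fin r → X.functionField),
    IsMultiple m L D ∧ s ≠ 0 ∧ IsSection D s ∧ (∀ i, IsSection D (t i * s)) ∧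
    AlgebraicIndependent k t

/-- The Iitaka dimension `κ(X, L) ∈ {-∞, 0, 1, …}`. -/
def iitakaDim (π : X ⟶ Spec (CommRingCat.of k)) (L : X → ℚ) : WithBot ℕ∞ :=
  ⨆ (r : ℕ) (_ : IitakaDimGE π L r), ((r : ℕ∞) : WithBot ℕ∞)

/-! ### Intersection numbers, nefness, numerical dimension -/

/-- For a point `w` of the integral closed subscheme `V` with generic point `v`: the local ring
`𝒪_{V,w}`, as a subring of the function field `κ(v)` of `V`; it is the image of `𝒪_{X,w}`. -/
def subvarietyLocalRing {v w : X} (h : v ⤳ w) : Subring (X.residueField v) :=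
  (X.presheaf.stalkSpecializes h ≫ X.residue v).hom.range

/-- Let `φv`, `φw` be local equations of a Cartier divisor `D` at `v` and at a point `w` of the
closure `V` of `v`.  Then `D - div φv` does not contain `V`, and it restricts to the Cartier divisor
on `V` with the local equation `(φw / φv)|_V ∈ κ(v)ˣ` at `w`.  `IsRestrictionOrder φv φw v w μ` says
that this restricted divisor has order `μ` along the prime divisor `w` of `V`. -/
def IsRestrictionOrder (φv φw : X.functionField) (v w : X) (μ : ℤ) : Prop :=
  ∃ (h : v ⤳ w) (u : X.presheaf.stalk v), algebraMap _ X.functionField u = φw / φv ∧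
    IsOrdAlong (subvarietyLocalRing h) ((X.residue v).hom u) μ

/-- `IsIntersectionNumber [D₁, …, D_r] v n` : the intersection number `(D₁ ⋯ D_r · V)` of the
Cartier divisors `D₁, …, D_r` with the `r`-dimensional integral closed subscheme `V` with generic
point `v` is `n`.  Here `X` is proper over an algebraically closed field.

This is the definition of Fulton, *Intersection theory*, §§2.3-2.5: `D₁ · [V] = ∑ μ_W [W]` is the
Weil divisor of any Cartier divisor on `V` whose line bundle is `𝒪_X(D₁)|_V` (we use the restriction
of `D₁ - div (φ v)`, for a family `φ` of local equations of `D₁`),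
`(D₁ ⋯ D_r · V) = ∑ μ_W (D₂ ⋯ D_r · W)`, and a closed point has degree one. -/
def IsIntersectionNumber : List (X → ℤ) → X → ℤ → Prop
  | [], v, n => IsClosed {v} ∧ n = 1
  | D :: l, v, n => ∃ (φ : X → X.functionField) (μ N : X → ℤ),
      (∀ x, IsLocalEquation D x (φ x)) ∧
      (∀ w, w ⋖ v → IsRestrictionOrder (φ v) (φ w) v w (μ w)) ∧
      (∀ w, w ⋖ v → μ w ≠ 0 → IsIntersectionNumber l w (N w)) ∧
      n = ∑ᶠ (w : X) (_ : w ⋖ v), μ w * N w

/-- A `ℚ`-Cartier `ℚ`-divisor `L` is nef: `L · C ≥ 0` for every integral closed curve `C`. -/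
def IsNef (L : X → ℚ) : Prop :=
  ∃ (m : ℕ) (D : X → ℤ), IsMultiple m L D ∧ IsCartierDivisor D ∧
    ∀ c : X, height c = 1 → ∃ n : ℤ, IsIntersectionNumber [D] c n ∧ 0 ≤ n

/-- A (nef) `ℚ`-Cartier `ℚ`-divisor `L` on a threefold `X` has numerical dimension one:
`L · H² > 0` and `L² · H = 0` for an ample Cartier divisor `H`. -/
def HasNumericalDimensionOne (L : X → ℚ) : Prop :=
  ∃ (m : ℕ) (D H : X → ℤ) (a : ℤ), IsMultiple m L D ∧ IsCartierDivisor D ∧ IsAmpleDivisor H ∧
    IsIntersectionNumber [D, H, H] (genericPoint X) a ∧ 0 < a ∧
    IsIntersectionNumber [D, D, H] (genericPoint X) 0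

end Divisors

/-! ## 4. Birational models, discrepancies, singularities of pairs -/

section Models

variable {X Y : Scheme.{u}} [IsIntegral X] [IsIntegral Y]

/-- `f : Y ⟶ X` is a proper birational morphism from a normal integral scheme.  Birational
(Stacks project, Definition 01RO): `f` maps the generic point to the generic point and is an
isomorphism on the local rings there. -/
structure IsBirationalModel (f : Y ⟶ X) : Prop where
  normal : IsNormalScheme Y
  proper : IsProper f
  generic : f (genericPoint Y) = genericPoint X
  iso : IsIso (f.stalkMap (genericPoint Y))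

/-- The pull-back `f^* : k(X) → k(Y)` of rational functions. -/
def pullbackFn (f : Y ⟶ X) (hη : f (genericPoint Y) = genericPoint X) :
    X.functionField →+* Y.functionField :=
  ((X.presheaf.stalkCongr (.of_eq hη.symm)).hom ≫ f.stalkMap (genericPoint Y)).hom

/-- The local ring `𝒪_{Y,E}` of a point `E` of a birational model `Y` of `X`, as a subring of the
function field of `X`. -/
def modelSubring (f : Y ⟶ X) (hη : f (genericPoint Y) = genericPoint X) (E : Y) :
    Subring X.functionField :=
  (stalkSubring E).comap (pullbackFn f hη)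

variable [IsLocallyNoetherian X] [IsLocallyNoetherian Y]

/-- `a(E, X, B) ≥ t`, where `E` is a prime divisor on the birational model `f : Y ⟶ X`,
`K_X = div ω`, and `L = K_X + B` is `ℚ`-Cartier.

The discrepancy is the coefficient of `E` in `K_Y - f^*(K_X + B)`, where `K_Y = div (f^* ω)`
(Kollár-Mori, *Birational geometry of algebraic varieties*, Definition 2.25 and Notation 2.26).  So, if `φ`
is a local equation of `m L` at the point `f E`, then
`a(E, X, B) = ord_E (f^* ω) - ord_E (f^* φ) / m`, and `ord_E (f^* ω)` is the largest `c` such that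
`f^* ω` vanishes to order at least `c` along `E`. -/
def DiscrepancyGE (π : X ⟶ Spec (CommRingCat.of k)) (n : ℕ) (ω : RatForm π n) (L : X → ℚ)
    (f : Y ⟶ X) (hη : f (genericPoint Y) = genericPoint X) (E : Y) (t : ℚ) : Prop :=
  letI := fnFieldAlgebra π
  ∃ (m : ℕ) (D : X → ℤ) (φ : X.functionField) (c : ℤ),
    IsMultiple m L D ∧ IsLocalEquation D (f E) φ ∧
    FormOrdGE k n (modelSubring f hη E) (fun g => Scheme.ord (pullbackFn f hη g) E) ω c ∧
    t ≤ (c : ℚ) - (Scheme.ord (pullbackFn f hη φ) E : ℚ) / m

end Models

section Singularities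

variable {X : Scheme.{u}} [IsIntegral X] [IsLocallyNoetherian X]

/-- The pair `(X, B)` is log canonical, where `K_X = div ω` and `L = K_X + B`:
`a(E, X, B) ≥ -1` for every prime divisor `E` on every birational model of `X`
(Kollár-Mori, Definition 2.34). -/
def IsLogCanonical (π : X ⟶ Spec (CommRingCat.of k)) (n : ℕ) (ω : RatForm π n) (L : X → ℚ) :
    Prop :=
  ∀ (Y : Scheme.{u}) [IsIntegral Y] [IsLocallyNoetherian Y] (f : Y ⟶ X)
    (hf : IsBirationalModel f) (E : Y), coheight E = 1 →
      DiscrepancyGE π n ω L f hf.generic E (-1)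

/-- `X` has terminal singularities, where `L = K_X = div ω`: `a(E, X, 0) > 0` for every exceptional
prime divisor `E` on every birational model of `X` (Kollár-Mori, Definition 2.34).  Exceptional: the
image of `E` in `X` is not a divisor. -/
def IsTerminal (π : X ⟶ Spec (CommRingCat.of k)) (n : ℕ) (ω : RatForm π n) (L : X → ℚ) : Prop :=
  ∀ (Y : Scheme.{u}) [IsIntegral Y] [IsLocallyNoetherian Y] (f : Y ⟶ X)
    (hf : IsBirationalModel f) (E : Y), coheight E = 1 → coheight (f E) ≠ 1 →
      ∃ t : ℚ, 0 < t ∧ DiscrepancyGE π n ω L f hf.generic E t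

end Singularities

/-! ## 5. The theorems -/

/-- **Theorem 1.1 of the log paper.**  Let `k` be an algebraically closed field of characteristic
`p > 3`.  Let `(X, B)` be a projective log canonical threefold pair over `k`, where `X` is normal,
`B` is an effective `ℚ`-divisor, and `K_X + B` is `ℚ`-Cartier.  If `K_X + B` is nef and has
numerical dimension one, then `K_X + B` is semiample. -/
def LogAbundance : Prop :=
  ∀ (k : Type u) [Field k] [IsAlgClosed k] (p : ℕ) [CharP k p], 3 < p →
  ∀ (X : Scheme.{u}) [IsIntegral X] [IsLocallyNoetherian X] (π : X ⟶ Spec (CommRingCat.of k)),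
    IsProjective π → IsNormalScheme X → topologicalKrullDim X = 3 →
  ∀ (ω : RatForm π 3) (K : X → ℤ) (B : X → ℚ), ω ≠ 0 → IsDivisorOfForm π 3 ω K →
    IsWeilDivisor B → (∀ z, 0 ≤ B z) →
    IsQCartier (fun z => (K z : ℚ) + B z) →
    IsLogCanonical π 3 ω (fun z => (K z : ℚ) + B z) →
    IsNef (fun z => (K z : ℚ) + B z) →
    HasNumericalDimensionOne (fun z => (K z : ℚ) + B z) →
    IsSemiample (fun z => (K z : ℚ) + B z)

/-- **Theorem 1.1 of the companion paper.**  Let `X` be a normal projective `ℚ`-factorial threefold
over an algebraically closed field `k` of characteristic `p > 3`.  Suppose that `X` has terminal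
singularities and that `K_X` is nef with `ν(K_X) = 1`.  Then some positive Cartier multiple of `K_X`
has at least two independent global sections.  In particular, `κ(X, K_X) = 1` and `K_X` is
semiample. -/
def TerminalAbundance : Prop :=
  ∀ (k : Type u) [Field k] [IsAlgClosed k] (p : ℕ) [CharP k p], 3 < p →
  ∀ (X : Scheme.{u}) [IsIntegral X] [IsLocallyNoetherian X] (π : X ⟶ Spec (CommRingCat.of k)),
    IsProjective π → IsNormalScheme X → topologicalKrullDim X = 3 → IsQFactorial X →
  ∀ (ω : RatForm π 3) (K : X → ℤ), ω ≠ 0 → IsDivisorOfForm π 3 ω K →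
    IsTerminal π 3 ω (fun z => (K z : ℚ)) →
    IsNef (fun z => (K z : ℚ)) →
    HasNumericalDimensionOne (fun z => (K z : ℚ)) →
    (letI := fnFieldAlgebra π
     ∃ (m : ℕ) (s t : X.functionField), 0 < m ∧ IsCartierDivisor (m • K) ∧
      IsSection (m • K) s ∧ IsSection (m • K) t ∧ LinearIndependent k ![s, t]) ∧
    iitakaDim π (fun z => (K z : ℚ)) = 1 ∧
    IsSemiample (fun z => (K z : ℚ))

/-- The main theorems of the two papers of result 035.  (All the definitions above are universe
polymorphic; the statement is taken in the lowest universe, `k : Type` and schemes in `Scheme.{0}`,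
so that it is a plain proposition without universe parameters.) -/
def Statement : Prop := LogAbundance.{0} ∧ TerminalAbundance.{0}

end

end Claimed.Open.R035
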